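import Mathlib

/-!
Lipschitz images of null sets in a fixed finite dimensional space are null.
-/

open Set MeasureTheory Module
open scoped NNReal

namespace Vale.Agent.P084

variable {E : Type*} [NormedAddCommGroup E] [InnerProductSpace ℝ E] [FiniteDimensional ℝ E]
  [MeasurableSpace E] [BorelSpace E]

theorem volume_lipschitzOn_image_zero {f : E → E} {K : ℝ≥0} {s : Set E}
    (hf : LipschitzOnWith K f s) (hs : volume s = 0) : volume (f '' s) = 0 := by
  have h1 : (volume : Measure E) ≪ μH[(finrank ℝ E : ℝ)] := by
    rw [Measure.isAddLeftInvariant_eq_smul (volume : Measure E) μH[(finrank ℝ E : ℝ)]]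
    exact Measure.smul_absolutelyContinuous
  have h2 : μH[(finrank ℝ E : ℝ)] ≪ (volume : Measure E) := by
    rw [Measure.isAddLeftInvariant_eq_smul μH[(finrank ℝ E : ℝ)] (volume : Measure E)]
    exact Measure.smul_absolutelyContinuous
  refine h1 ?_
  have h := hf.hausdorffMeasure_image_le (d := (finrank ℝ E : ℝ)) (Nat.cast_nonneg _)
  rw [h2 hs, mul_zero] at h
  exact le_antisymm h zero_le

theorem volume_lipschitz_image_zero {f : E → E} {K : ℝ≥0} (hf : LipschitzWith K f) {s : Set E}
    (hs : volume s = 0) : volume (f '' s) = 0 :=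
  volume_lipschitzOn_image_zero hf.lipschitzOnWith hs

end Vale.Agent.P084
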