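import Vale.Agent.P084.Basic
import Vale.Agent.P084.Null

/-!
Second order differentiability almost everywhere of the square of a dual norm (Alexandrov),
proved through the resolvent of its monotone subdifferential.
-/

open scoped RealInnerProductSpace NNReal
open Set Filter Topology MeasureTheory

set_option linter.unusedSectionVars false

namespace Vale.Agent.P084

namespace Nrm

variable {E : Type*} [NormedAddCommGroup E] [InnerProductSpace ℝ E] [FiniteDimensional ℝ E]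
  [Nontrivial E] (N : Nrm E)

/-- `w` is a subgradient of `(dual N) ^ 2 / 2` at `φ`. -/
def Sg (φ w : E) : Prop := ⟪φ, w⟫ = N.dual φ ^ 2 ∧ N w = N.dual φ

theorem sg_of_isMax {φ v : E} (h : N.IsMax φ v) : N.Sg φ (N.dual φ • v) := by
  refine ⟨?_, ?_⟩
  · rw [real_inner_smul_right, h.2]; ring
  · rw [N.smul_nonneg (N.dual.nonneg _), h.1, mul_one]

theorem exists_sg (φ : E) : ∃ w, N.Sg φ w := by
  obtain ⟨v, hv⟩ := N.exists_isMax φ
  exact ⟨_, N.sg_of_isMax hv⟩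

theorem sg_smul {φ w : E} (h : N.Sg φ w) {c : ℝ} (hc : 0 ≤ c) : N.Sg (c • φ) (c • w) := by
  unfold Sg
  rw [real_inner_smul_left, real_inner_smul_right, h.1, N.smul_nonneg hc, h.2,
    N.dual.smul_nonneg hc]
  constructor <;> ring

theorem sg_inner_le {φ w : E} (h : N.Sg φ w) (ψ : E) : ⟪w, ψ⟫ ≤ N.dual ψ * N.dual φ := by
  rw [real_inner_comm, ← h.2]
  exact N.inner_le_dual ψ w

theorem sg_ineq {φ w : E} (h : N.Sg φ w) (ψ : E) :
    N.dual φ ^ 2 / 2 + ⟪w, ψ - φ⟫ ≤ N.dual ψ ^ 2 / 2 := by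
  have h1 := N.sg_inner_le h ψ
  rw [inner_sub_right, real_inner_comm φ w, h.1]
  nlinarith [sq_nonneg (N.dual ψ - N.dual φ)]

theorem sg_monotone {φ w ψ u : E} (h : N.Sg φ w) (h' : N.Sg ψ u) :
    0 ≤ ⟪u - w, ψ - φ⟫ := by
  have h1 := N.sg_inner_le h ψ
  have h2 := N.sg_inner_le h' φ
  simp only [inner_sub_left, inner_sub_right]
  rw [real_inner_comm φ w, h.1, real_inner_comm ψ u, h'.1]
  nlinarith [sq_nonneg (N.dual ψ - N.dual φ)]

theorem sg_unique {φ w : E} (hd : DifferentiableAt ℝ (fun ψ => N.dual ψ) φ) (hφ : φ ≠ 0)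
    (h : N.Sg φ w) : w = N.dual φ • N.vv φ := by
  have hp : 0 < N.dual φ := N.dual.pos hφ
  have hv : N.IsMax φ ((N.dual φ)⁻¹ • w) := by
    refine ⟨?_, ?_⟩
    · rw [N.smul_nonneg (inv_nonneg.2 hp.le), h.2, inv_mul_cancel₀ hp.ne']
    · rw [real_inner_smul_right, h.1]
      field_simp
  rw [← N.isMax_eq_vv hd hv, smul_smul, mul_inv_cancel₀ hp.ne', one_smul]

theorem sg_tendsto {φ : E} (hd : DifferentiableAt ℝ (fun ψ => N.dual ψ) φ) (hφ : φ ≠ 0)
    {ε : ℝ} (hε : 0 < ε) :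
    ∀ᶠ ψ in 𝓝 φ, ∀ w, N.Sg ψ w → ‖w - N.dual φ • N.vv φ‖ < ε := by
  set w0 := N.dual φ • N.vv φ with hw0
  set R := N.dual φ + 1
  set K := {w : E | N w ≤ R} ∩ {w : E | ε ≤ ‖w - w0‖}
  have hK : IsCompact K :=
    (N.isCompact_le R).inter_right (isClosed_le continuous_const (by fun_prop))
  have hcd := N.dual.continuous
  have hcn := N.continuous
  have h1 : ∀ᶠ ψ in 𝓝 φ, ∀ w ∈ K, ¬ N.Sg ψ w := by
    refine hK.eventually_forall_of_forall_eventually fun w hw => ?_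
    have hne : ¬ N.Sg φ w := by
      intro hS
      have hle := hw.2
      change ε ≤ ‖w - w0‖ at hle
      rw [hw0, ← N.sg_unique hd hφ hS, sub_self, norm_zero] at hle
      linarith
    have hclosed : IsClosed {p : E × E | N.Sg p.1 p.2} := by
      apply IsClosed.inter
      · exact isClosed_eq (by fun_prop) (by fun_prop)
      · exact isClosed_eq (by fun_prop) (by fun_prop)
    exact hclosed.isOpen_compl.mem_nhds (show (φ, w) ∈ {p : E × E | N.Sg p.1 p.2}ᶜ from hne)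
  have h2 : ∀ᶠ ψ in 𝓝 φ, N.dual ψ < R := hcd.continuousAt.eventually_lt continuousAt_const
    (by simp [R])
  filter_upwards [h1, h2] with ψ hψ hR w hw
  by_contra hc
  exact hψ w ⟨show N w ≤ R by rw [hw.2]; exact hR.le, not_lt.1 hc⟩ hw

/-- `T` is the derivative at `φ` of the subdifferential of `(dual N) ^ 2 / 2`. -/
def IsAlex (φ : E) (T : E →L[ℝ] E) : Prop :=
  ∀ ε > 0, ∀ᶠ ψ in 𝓝 φ, ∀ w, N.Sg ψ w →
    ‖w - N.dual φ • N.vv φ - T (ψ - φ)‖ ≤ ε * ‖ψ - φ‖

/-- Alexandrov points of the dual norm. -/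
def Alex (φ : E) : Prop :=
  φ ≠ 0 ∧ DifferentiableAt ℝ (fun ψ => N.dual ψ) φ ∧
    ∃ T : E →L[ℝ] E, N.IsAlex φ T ∧ (∀ a b, ⟪T a, b⟫ = ⟪a, T b⟫) ∧ ∀ a, 0 ≤ ⟪T a, a⟫

theorem isAlex_psd {φ : E} {T : E →L[ℝ] E} (hd : DifferentiableAt ℝ (fun ψ => N.dual ψ) φ)
    (hT : N.IsAlex φ T) (a : E) : 0 ≤ ⟪T a, a⟫ := by
  rcases eq_or_ne a 0 with ha | ha
  · simp [ha]
  refine le_of_forall_pos_le_add fun η hη => ?_
  have hn : 0 < ‖a‖ := norm_pos_iff.2 ha
  have hh : Tendsto (fun t : ℝ => φ + t • a) (𝓝 0) (𝓝 φ) :=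
    Continuous.tendsto' (by fun_prop) _ _ (by simp)
  have hev : ∀ᶠ t in 𝓝[>] (0 : ℝ), ∀ w, N.Sg (φ + t • a) w →
      ‖w - N.dual φ • N.vv φ - T ((φ + t • a) - φ)‖ ≤ η / ‖a‖ ^ 2 * ‖(φ + t • a) - φ‖ :=
    (hh.eventually (hT _ (by positivity))).filter_mono nhdsWithin_le_nhds
  obtain ⟨t, ht, htpos⟩ := (hev.and self_mem_nhdsWithin).exists
  have htpos : 0 < t := htpos
  obtain ⟨w, hw⟩ := N.exists_sg (φ + t • a)
  have hm := N.sg_monotone (N.sg_of_isMax (N.vv_isMax hd)) hw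
  have hb := ht w hw
  rw [add_sub_cancel_left] at hm hb
  rw [map_smul] at hb
  set d := w - N.dual φ • N.vv φ - t • T a with hd'
  have heq : w - N.dual φ • N.vv φ = d + t • T a := by rw [hd']; abel
  rw [heq, inner_add_left, real_inner_smul_left, real_inner_smul_right, real_inner_smul_right]
    at hm
  have hc := (abs_real_inner_le_norm d a).trans (mul_le_mul_of_nonneg_right hb hn.le)
  rw [norm_smul, Real.norm_eq_abs, abs_of_pos htpos] at hc
  have hc' : η / ‖a‖ ^ 2 * (t * ‖a‖) * ‖a‖ = η * t := by field_simp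
  rw [hc'] at hc
  have := le_abs_self ⟪d, a⟫
  nlinarith [mul_le_mul_of_nonneg_left (this.trans hc) htpos.le, mul_pos htpos htpos]

theorem isAlex_segment {φ : E} {T : E →L[ℝ] E} (hT : N.IsAlex φ T) {ε : ℝ} (hε : 0 < ε) :
    ∃ δ > 0, ∀ a b : E, ‖a‖ < δ → ‖b‖ < δ →
      |N.dual (φ + b) ^ 2 / 2 - N.dual (φ + a) ^ 2 / 2
        - ⟪N.dual φ • N.vv φ + (1 / 2 : ℝ) • T (a + b), b - a⟫|
        ≤ ε * (‖a‖ + ‖b‖) * ‖b - a‖ := by
  obtain ⟨δ, hδ, hb⟩ := Metric.eventually_nhds_iff.1 (hT ε hε)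
  refine ⟨δ, hδ, fun a b ha hb' => ?_⟩
  set w0 := N.dual φ • N.vv φ with hw0
  set Δ := b - a with hΔ
  set S := ‖a‖ + ‖b‖ with hS
  set G : E → ℝ := fun ψ => N.dual ψ ^ 2 / 2 with hG
  have pt : ∀ s : ℝ, 0 ≤ s → s ≤ 1 → ∀ w, N.Sg (φ + (a + s • Δ)) w →
      ‖w - w0 - T (a + s • Δ)‖ ≤ ε * S := by
    intro s hs0 hs1 w hw
    have he : a + s • Δ = (1 - s) • a + s • b := by rw [hΔ]; module
    have hn : ‖a + s • Δ‖ ≤ (1 - s) * ‖a‖ + s * ‖b‖ := by
      rw [he]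
      refine (norm_add_le _ _).trans ?_
      rw [norm_smul, norm_smul, Real.norm_eq_abs, Real.norm_eq_abs,
        abs_of_nonneg (by linarith : (0 : ℝ) ≤ 1 - s), abs_of_nonneg hs0]
    have hlt : ‖a + s • Δ‖ < δ := by
      refine hn.trans_lt ?_
      rcases eq_or_lt_of_le hs0 with h | h
      · rw [← h]; simpa using ha
      · nlinarith [mul_lt_mul_of_pos_left hb' h,
          mul_le_mul_of_nonneg_left ha.le (by linarith : (0 : ℝ) ≤ 1 - s)]
    have h2 := hb (y := φ + (a + s • Δ)) (by rwa [dist_eq_norm, add_sub_cancel_left]) w hw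
    rw [add_sub_cancel_left] at h2
    refine h2.trans (mul_le_mul_of_nonneg_left (hn.trans ?_) hε.le)
    nlinarith [norm_nonneg a, norm_nonneg b]
  -- one step
  have step : ∀ s r : ℝ, 0 ≤ s → s ≤ r → r ≤ 1 →
      |G (φ + (a + r • Δ)) - G (φ + (a + s • Δ))
        - (r - s) * ⟪w0 + T (a + ((s + r) / 2) • Δ), Δ⟫|
        ≤ (r - s) * (ε * S * ‖Δ‖) + (r - s) ^ 2 * (‖T‖ * ‖Δ‖ ^ 2) := by
    intro s r hs hsr hr
    obtain ⟨w1, hw1⟩ := N.exists_sg (φ + (a + s • Δ))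
    obtain ⟨w2, hw2⟩ := N.exists_sg (φ + (a + r • Δ))
    have l1 := N.sg_ineq hw1 (φ + (a + r • Δ))
    have l2 := N.sg_ineq hw2 (φ + (a + s • Δ))
    have e1 : (φ + (a + r • Δ)) - (φ + (a + s • Δ)) = (r - s) • Δ := by module
    have e2 : (φ + (a + s • Δ)) - (φ + (a + r • Δ)) = (s - r) • Δ := by module
    rw [e1, real_inner_smul_right] at l1
    rw [e2, real_inner_smul_right] at l2
    have b1 := (abs_real_inner_le_norm (w1 - w0 - T (a + s • Δ)) Δ).trans
      (mul_le_mul_of_nonneg_right (pt s hs (hsr.trans hr) w1 hw1) (norm_nonneg _))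
    have b2 := (abs_real_inner_le_norm (w2 - w0 - T (a + r • Δ)) Δ).trans
      (mul_le_mul_of_nonneg_right (pt r (hs.trans hsr) hr w2 hw2) (norm_nonneg _))
    have b3 : |⟪T Δ, Δ⟫| ≤ ‖T‖ * ‖Δ‖ ^ 2 := by
      refine (abs_real_inner_le_norm _ _).trans ?_
      rw [sq, ← mul_assoc]
      exact mul_le_mul_of_nonneg_right (T.le_opNorm _) (norm_nonneg _)
    rw [abs_le] at b1 b2 b3
    simp only [inner_sub_left, inner_add_left, map_add, map_smul, real_inner_smul_left]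
      at b1 b2 ⊢
    have hrs : 0 ≤ r - s := by linarith
    have hrs2 : 0 ≤ (r - s) ^ 2 := sq_nonneg _
    simp only [hG] at l1 l2 ⊢
    rw [abs_le]
    constructor
    · nlinarith [mul_le_mul_of_nonneg_left b1.1 hrs, mul_le_mul_of_nonneg_left b3.2 hrs2,
        mul_le_mul_of_nonneg_left b3.1 hrs2]
    · nlinarith [mul_le_mul_of_nonneg_left b2.2 hrs, mul_le_mul_of_nonneg_left b3.2 hrs2,
        mul_le_mul_of_nonneg_left b3.1 hrs2]
  have main : ∀ m : ℕ, 0 < m →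
      |G (φ + b) - G (φ + a) - ⟪w0 + (1 / 2 : ℝ) • T (a + b), Δ⟫|
        ≤ ε * S * ‖Δ‖ + (‖T‖ * ‖Δ‖ ^ 2) / m := by
    intro m hm
    have hm' : (0 : ℝ) < m := Nat.cast_pos.2 hm
    have ind : ∀ i : ℕ, i ≤ m →
        |G (φ + (a + ((i : ℝ) / m) • Δ)) - G (φ + a)
          - ((i : ℝ) / m) * ⟪w0 + T (a + ((i : ℝ) / m / 2) • Δ), Δ⟫|
          ≤ ((i : ℝ) / m) * (ε * S * ‖Δ‖) + (i : ℝ) * (1 / m) ^ 2 * (‖T‖ * ‖Δ‖ ^ 2) := by
      intro i
      induction i with
      | zero => intro _; simp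
      | succ i ih =>
        intro hi
        have hi' : (i : ℝ) + 1 ≤ m := by exact_mod_cast hi
        have h1 := ih (Nat.le_of_succ_le hi)
        have h2 := step ((i : ℝ) / m) (((i : ℝ) + 1) / m) (by positivity)
          (div_le_div_of_nonneg_right (by linarith) hm'.le) ((div_le_one hm').2 hi')
        have e : ((i : ℝ) + 1) / m - (i : ℝ) / m = 1 / m := by ring
        rw [e] at h2
        push_cast
        rw [abs_le] at h1 h2 ⊢
        simp only [inner_add_left, map_add, map_smul, real_inner_smul_left] at h1 h2 ⊢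
        constructor <;>
          · ring_nf at h1 h2 ⊢
            linarith [h1.1, h1.2, h2.1, h2.2]
    have h := ind m le_rfl
    rw [div_self hm'.ne', one_mul, one_mul, one_smul] at h
    have e1 : a + Δ = b := by rw [hΔ]; abel
    have e2 : T (a + (1 / 2 : ℝ) • Δ) = (1 / 2 : ℝ) • T (a + b) := by
      rw [← map_smul]; congr 1; rw [hΔ]; module
    rw [e1, e2] at h
    refine h.trans (le_of_eq ?_)
    field_simp
  refine le_of_forall_pos_le_add fun η hη => ?_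
  obtain ⟨m, hm⟩ := exists_nat_gt (‖T‖ * ‖Δ‖ ^ 2 / η)
  have h0 : 0 ≤ ‖T‖ * ‖Δ‖ ^ 2 / η := by positivity
  have hmpos : (0 : ℝ) < m := h0.trans_lt hm
  refine (main m (by exact_mod_cast hmpos)).trans ?_
  have : ‖T‖ * ‖Δ‖ ^ 2 / m ≤ η := by
    rw [div_le_iff₀ hmpos]
    rw [div_lt_iff₀ hη] at hm
    linarith
  linarith

theorem isAlex_symm {φ : E} {T : E →L[ℝ] E} (hT : N.IsAlex φ T) (h k : E) :
    ⟪T h, k⟫ = ⟪h, T k⟫ := by
  set H := ‖h‖ + ‖k‖ with hH
  have key : ∀ ε > 0, |⟪T h, k⟫ - ⟪T k, h⟫| ≤ ε * (8 * H * H) := by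
    intro ε hε
    obtain ⟨δ, hδ, hb⟩ := N.isAlex_segment hT hε
    set t := δ / (H + 1) with ht
    have hHn : 0 ≤ H := by positivity
    have htp : 0 < t := by positivity
    have htH : t * H < δ := by
      rw [ht, div_mul_eq_mul_div, div_lt_iff₀ (by positivity)]
      nlinarith
    have n1 : ‖t • h‖ = t * ‖h‖ := by rw [norm_smul, Real.norm_eq_abs, abs_of_pos htp]
    have n2 : ‖t • k‖ = t * ‖k‖ := by rw [norm_smul, Real.norm_eq_abs, abs_of_pos htp]
    have n3 : ‖t • (h + k)‖ ≤ t * H := by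
      rw [norm_smul, Real.norm_eq_abs, abs_of_pos htp]
      exact mul_le_mul_of_nonneg_left (norm_add_le _ _) htp.le
    have hh : ‖h‖ ≤ H := le_add_of_nonneg_right (norm_nonneg _)
    have hk : ‖k‖ ≤ H := le_add_of_nonneg_left (norm_nonneg _)
    have A := hb 0 (t • (h + k)) (by simpa using hδ) (n3.trans_lt htH)
    have B := hb 0 (t • h) (by simpa using hδ) (by rw [n1]; nlinarith)
    have C := hb (t • h) (t • (h + k)) (by rw [n1]; nlinarith) (n3.trans_lt htH)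
    have e : t • (h + k) - t • h = t • k := by module
    rw [e] at C
    simp only [sub_zero, zero_add, norm_zero] at A B
    have A' := A.trans (mul_le_mul (mul_le_mul_of_nonneg_left n3 hε.le) n3 (norm_nonneg _)
      (by positivity))
    have B' : ε * ‖t • h‖ * ‖t • h‖ ≤ ε * (t * H) * (t * H) := by
      rw [n1]; gcongr
    have B'' := B.trans B'
    have C' : ε * (‖t • h‖ + ‖t • (h + k)‖) * ‖t • k‖ ≤ ε * (t * H + t * H) * (t * H) := by
      rw [n2]; gcongr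
      rw [n1]; gcongr
    have C'' := C.trans C'
    rw [abs_le] at A' B'' C''
    simp only [map_add, map_smul, smul_add, inner_add_left, inner_add_right,
      real_inner_smul_left, real_inner_smul_right] at A' B'' C''
    have ht2 : 0 < t ^ 2 := by positivity
    rw [abs_le]
    obtain ⟨a1, a2⟩ := A'
    obtain ⟨b1, b2⟩ := B''
    obtain ⟨c1, c2⟩ := C''
    constructor
    · refine le_of_mul_le_mul_left ?_ ht2
      ring_nf at a1 a2 b1 b2 c1 c2 ⊢
      linarith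
    · refine le_of_mul_le_mul_left ?_ ht2
      ring_nf at a1 a2 b1 b2 c1 c2 ⊢
      linarith
  have hz : |⟪T h, k⟫ - ⟪T k, h⟫| = 0 := by
    refine le_antisymm (le_of_forall_pos_le_add fun η hη => ?_) (abs_nonneg _)
    refine (key (η / (8 * H * H + 1)) (by positivity)).trans ?_
    rw [zero_add, div_mul_eq_mul_div, div_le_iff₀ (by positivity)]
    nlinarith
  rw [real_inner_comm h (T k)] at hz
  linarith [abs_eq_zero.1 hz]

variable [MeasurableSpace E] [BorelSpace E]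

theorem ae_alex : ∀ᵐ φ : E ∂volume, N.Alex φ := by
  classical
  set S := {s : E | ∃ φ w, N.Sg φ w ∧ φ + w = s} with hS
  have hmono : ∀ {φ w ψ u : E}, N.Sg φ w → N.Sg ψ u →
      ‖ψ - φ‖ ≤ ‖(ψ + u) - (φ + w)‖ := by
    intro φ w ψ u h h'
    have hm := N.sg_monotone h h'
    have e : (ψ + u) - (φ + w) = (ψ - φ) + (u - w) := by abel
    rw [e]
    have := real_inner_le_norm ((ψ - φ) + (u - w)) (ψ - φ)
    rw [inner_add_left, real_inner_self_eq_norm_sq] at this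
    rcases eq_or_lt_of_le (norm_nonneg (ψ - φ)) with h0 | h0
    · rw [← h0]; exact norm_nonneg _
    · exact le_of_mul_le_mul_right (by rw [← sq]; linarith) h0
  let f0 : E → E := fun s => if h : s ∈ S then h.choose else 0
  have hf0 : ∀ {φ w : E}, N.Sg φ w → f0 (φ + w) = φ := by
    intro φ w h
    have hmem : φ + w ∈ S := ⟨φ, w, h, rfl⟩
    obtain ⟨u, hu, he⟩ := hmem.choose_spec
    have := hmono hu h
    rw [he, sub_self, norm_zero, norm_le_zero_iff, sub_eq_zero] at this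
    simp only [f0, dif_pos hmem]
    exact this.symm
  have hlip : LipschitzOnWith 1 f0 S := by
    refine LipschitzOnWith.of_dist_le_mul ?_
    rintro _ ⟨φ, w, h, rfl⟩ _ ⟨ψ, u, h', rfl⟩
    rw [hf0 h, hf0 h', dist_eq_norm, dist_eq_norm, NNReal.coe_one, one_mul]
    exact hmono h' h
  obtain ⟨J, hJ, hJeq⟩ := hlip.extend_finite_dimension
  have hJ' : ∀ {φ w : E}, N.Sg φ w → J (φ + w) = φ := fun h => by
    rw [← hJeq ⟨_, _, h, rfl⟩, hf0 h]
  have n1 : volume (J '' {s | ¬ DifferentiableAt ℝ J s}) = 0 :=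
    volume_lipschitz_image_zero hJ (ae_iff.1 hJ.ae_differentiableAt)
  have n2 : volume (J '' {s | DifferentiableAt ℝ J s ∧ (fderiv ℝ J s).det = 0}) = 0 :=
    addHaar_image_eq_zero_of_det_fderivWithin_eq_zero volume
      (fun s hs => hs.1.hasFDerivAt.hasFDerivWithinAt) (fun s hs => hs.2)
  have n3 : volume ({0} : Set E) = 0 := measure_singleton _
  rw [← compl_mem_ae_iff] at n1 n2 n3
  filter_upwards [n1, n2, n3, N.ae_differentiableAt_dual] with φ g1 g2 g3 hd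
  have hφ : φ ≠ 0 := g3
  have hmax := N.vv_isMax hd
  set w0 := N.dual φ • N.vv φ with hw0
  have hJ0 : J (φ + w0) = φ := hJ' (N.sg_of_isMax hmax)
  have hJd : DifferentiableAt ℝ J (φ + w0) := by
    by_contra hc; exact g1 ⟨_, hc, hJ0⟩
  have hdet : (fderiv ℝ J (φ + w0)).det ≠ 0 := by
    intro hc; exact g2 ⟨_, ⟨hJd, hc⟩, hJ0⟩
  set D := fderiv ℝ J (φ + w0) with hD
  set L := D.toContinuousLinearEquivOfDetNeZero hdet with hL
  have hLD : ∀ x, L x = D x := fun x => rfl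
  refine ⟨hφ, hd, (L.symm : E →L[ℝ] E) - 1, ?_⟩
  have hAlex : N.IsAlex φ ((L.symm : E →L[ℝ] E) - 1) := by
    intro ε hε
    set C := ‖(L.symm : E →L[ℝ] E)‖ with hC
    have hC0 : 0 ≤ C := norm_nonneg _
    set e1 := min (ε / (2 * C * C + 1)) (1 / (2 * C + 1))
    have he1 : 0 < e1 := by positivity
    obtain ⟨δ, hδ, hb⟩ := Metric.eventually_nhds_iff.1
      ((hasFDerivAt_iff_isLittleO.1 hJd.hasFDerivAt).def he1)
    have h1 : ∀ᶠ ψ in 𝓝 φ, ∀ w, N.Sg ψ w → ‖w - w0‖ < δ / 2 :=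
      N.sg_tendsto hd hφ (half_pos hδ)
    filter_upwards [h1, Metric.ball_mem_nhds φ (half_pos hδ)] with ψ hψ hψb w hw
    have hψb' : ‖ψ - φ‖ < δ / 2 := by rwa [← dist_eq_norm]
    set ds := (ψ + w) - (φ + w0) with hds
    have hdsn : ‖ds‖ < δ := by
      have : ds = (ψ - φ) + (w - w0) := by rw [hds]; abel
      rw [this]
      exact (norm_add_le _ _).trans_lt (by linarith [hψ w hw])
    have hres := hb (y := ψ + w) (by rwa [dist_eq_norm])
    rw [hJ' hw, hJ0, ← hD, ← hds] at hres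
    have hLs : ∀ x, ‖L.symm x‖ ≤ C * ‖x‖ := fun x =>
      (L.symm : E →L[ℝ] E).le_opNorm x
    have hds2 : ‖ds‖ ≤ 2 * C * ‖ψ - φ‖ := by
      have h3 := hLs (D ds)
      rw [← hLD, L.symm_apply_apply] at h3
      have h4 : ‖L ds‖ ≤ ‖ψ - φ‖ + e1 * ‖ds‖ := by
        rw [hLD]
        have := norm_le_norm_add_norm_sub' (D ds) (ψ - φ)
        rw [norm_sub_rev (D ds) (ψ - φ)] at this
        linarith
      have h5 : C * e1 ≤ 1 / 2 := by
        have : e1 ≤ 1 / (2 * C + 1) := min_le_right _ _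
        rw [le_div_iff₀ (by positivity)] at this
        nlinarith
      nlinarith [mul_le_mul_of_nonneg_left h4 hC0,
        mul_le_mul_of_nonneg_right h5 (norm_nonneg ds)]
    have he : w - N.dual φ • N.vv φ - ((L.symm : E →L[ℝ] E) - 1) (ψ - φ)
        = L.symm (D ds - (ψ - φ)) := by
      rw [map_sub L.symm, ← hLD ds, L.symm_apply_apply, ← hw0]
      show w - w0 - (L.symm (ψ - φ) - (ψ - φ)) = _
      rw [hds]; abel
    rw [he]
    refine (hLs _).trans ?_
    rw [norm_sub_rev]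
    have h6 : e1 * (2 * C * C + 1) ≤ ε := by
      rw [← le_div_iff₀ (by positivity)]; exact min_le_left _ _
    calc C * ‖ψ - φ - D ds‖ ≤ C * (e1 * (2 * C * ‖ψ - φ‖)) :=
          mul_le_mul_of_nonneg_left (hres.trans (mul_le_mul_of_nonneg_left hds2 he1.le)) hC0
      _ ≤ ε * ‖ψ - φ‖ := by nlinarith [norm_nonneg (ψ - φ), mul_nonneg he1.le (norm_nonneg (ψ - φ))]
  exact ⟨hAlex, N.isAlex_symm hAlex, N.isAlex_psd hd hAlex⟩

end Nrm

end Vale.Agent.P084
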