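import Mathlib

/-!
Norms on a finite dimensional inner product space, their duals, maximisers.
-/

open scoped RealInnerProductSpace
open Set Filter Topology MeasureTheory

set_option linter.unusedSectionVars false

namespace Vale.Agent.P084

/-- A norm, given as a function. -/
structure Nrm (E : Type*) [AddCommGroup E] [Module ℝ E] where
  /-- the value -/
  toFun : E → ℝ
  add_le' : ∀ x y, toFun (x + y) ≤ toFun x + toFun y
  smul' : ∀ (c : ℝ) x, toFun (c • x) = |c| * toFun x
  pos' : ∀ x, x ≠ 0 → 0 < toFun x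

namespace Nrm

section Module

variable {E : Type*} [AddCommGroup E] [Module ℝ E] (N : Nrm E)

instance : CoeFun (Nrm E) (fun _ => E → ℝ) := ⟨Nrm.toFun⟩

theorem add_le (x y : E) : N (x + y) ≤ N x + N y := N.add_le' x y

theorem smul (c : ℝ) (x : E) : N (c • x) = |c| * N x := N.smul' c x

theorem smul_nonneg {c : ℝ} (hc : 0 ≤ c) (x : E) : N (c • x) = c * N x := by
  rw [N.smul, abs_of_nonneg hc]

theorem map_zero : N (0 : E) = 0 := by
  have := N.smul 0 (0 : E)
  simpa using this

theorem pos {x : E} (hx : x ≠ 0) : 0 < N x := N.pos' x hx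

theorem nonneg (x : E) : 0 ≤ N x := by
  rcases eq_or_ne x 0 with h | h
  · rw [h, N.map_zero]
  · exact (N.pos h).le

theorem eq_zero_iff {x : E} : N x = 0 ↔ x = 0 := by
  refine ⟨fun h => ?_, fun h => by rw [h, N.map_zero]⟩
  by_contra hx
  exact (N.pos hx).ne' h

theorem ne_zero_of_pos {x : E} (hx : 0 < N x) : x ≠ 0 := by
  intro h
  rw [h, N.map_zero] at hx
  exact lt_irrefl _ hx

theorem neg (x : E) : N (-x) = N x := by
  rw [← neg_one_smul ℝ x, N.smul]
  norm_num

theorem sub_comm (x y : E) : N (x - y) = N (y - x) := by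
  rw [← neg_sub, N.neg]

theorem sub_le (x y : E) : N x - N y ≤ N (x - y) := by
  have := N.add_le (x - y) y
  rw [sub_add_cancel] at this
  linarith

theorem sub_le_add (x y : E) : N (x - y) ≤ N x + N y := by
  have := N.add_le x (-y)
  rwa [N.neg, ← sub_eq_add_neg] at this

theorem abs_sub_le (x y : E) : |N x - N y| ≤ N (x - y) := by
  rw [abs_le]
  constructor
  · have := N.sub_le y x
    rw [N.sub_comm] at this
    linarith
  · exact N.sub_le x y

theorem sum_le {ι : Type*} (s : Finset ι) (f : ι → E) :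
    N (∑ i ∈ s, f i) ≤ ∑ i ∈ s, N (f i) := by
  classical
  induction s using Finset.induction_on with
  | empty => simp [N.map_zero]
  | @insert a s ha ih =>
    rw [Finset.sum_insert ha, Finset.sum_insert ha]
    exact (N.add_le _ _).trans (by linarith)

theorem convex_comb_le {x y : E} {a b : ℝ} (ha : 0 ≤ a) (hb : 0 ≤ b) :
    N (a • x + b • y) ≤ a * N x + b * N y := by
  have := N.add_le (a • x) (b • y)
  rwa [N.smul_nonneg ha, N.smul_nonneg hb] at this

theorem norm_unit {x : E} (hx : x ≠ 0) : N ((N x)⁻¹ • x) = 1 := by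
  rw [N.smul_nonneg (inv_nonneg.2 (N.nonneg x))]
  exact inv_mul_cancel₀ (N.pos hx).ne'

end Module

section Inner

variable {E : Type*} [NormedAddCommGroup E] [InnerProductSpace ℝ E] [FiniteDimensional ℝ E]
  (N : Nrm E)

theorem exists_upper : ∃ C : ℝ, 0 < C ∧ ∀ x, N x ≤ C * ‖x‖ := by
  let b := stdOrthonormalBasis ℝ E
  refine ⟨∑ i, N (b i) + 1, ?_, fun x => ?_⟩
  · have : 0 ≤ ∑ i, N (b i) := Finset.sum_nonneg fun i _ => N.nonneg _
    linarith
  · conv_lhs => rw [← b.sum_repr' x]
    refine (N.sum_le _ _).trans ?_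
    have h1 : ∀ i, N (⟪b i, x⟫ • b i) ≤ N (b i) * ‖x‖ := fun i => by
      rw [N.smul, mul_comm]
      refine mul_le_mul_of_nonneg_left ?_ (N.nonneg _)
      have := abs_real_inner_le_norm (b i) x
      rwa [b.orthonormal.1 i, one_mul] at this
    refine (Finset.sum_le_sum fun i _ => h1 i).trans ?_
    rw [← Finset.sum_mul]
    exact mul_le_mul_of_nonneg_right (by linarith) (norm_nonneg _)

theorem exists_lipschitz : ∃ C : NNReal, LipschitzWith C N := by
  obtain ⟨C, hC, h⟩ := N.exists_upper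
  refine ⟨C.toNNReal, LipschitzWith.of_dist_le_mul fun x y => ?_⟩
  rw [Real.coe_toNNReal _ hC.le, Real.dist_eq, dist_eq_norm]
  exact (N.abs_sub_le x y).trans (h _)

theorem continuous : Continuous N := by
  obtain ⟨C, hC⟩ := N.exists_lipschitz
  exact hC.continuous

theorem exists_lower : ∃ c : ℝ, 0 < c ∧ ∀ x, c * ‖x‖ ≤ N x := by
  rcases subsingleton_or_nontrivial E with h | h
  · exact ⟨1, one_pos, fun x => by simp [Subsingleton.elim x 0, N.map_zero]⟩
  · obtain ⟨u, hu, hmin⟩ := (isCompact_sphere (0 : E) 1).exists_isMinOn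
      ((NormedSpace.sphere_nonempty).2 zero_le_one) N.continuous.continuousOn
    have hu1 : ‖u‖ = 1 := by simpa using hu
    refine ⟨N u, N.pos (by intro h0; simp [h0] at hu1), fun x => ?_⟩
    rcases eq_or_ne x 0 with hx | hx
    · simp [hx, N.map_zero]
    · have hn : 0 < ‖x‖ := norm_pos_iff.2 hx
      have hmem : ‖x‖⁻¹ • x ∈ Metric.sphere (0 : E) 1 := by
        simp [norm_smul, hn.ne']
      have h2 : N u ≤ N (‖x‖⁻¹ • x) := hmin hmem
      rw [N.smul_nonneg (inv_nonneg.2 hn.le)] at h2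
      have h3 := mul_le_mul_of_nonneg_right h2 hn.le
      calc N u * ‖x‖ ≤ ‖x‖⁻¹ * N x * ‖x‖ := h3
        _ = N x := by field_simp

theorem isCompact_le (R : ℝ) : IsCompact {x : E | N x ≤ R} := by
  obtain ⟨c, hc, h⟩ := N.exists_lower
  refine (isCompact_closedBall (0 : E) (R / c)).of_isClosed_subset
    (isClosed_le N.continuous continuous_const) ?_
  intro x hx
  change N x ≤ R at hx
  rw [mem_closedBall_zero_iff, le_div_iff₀ hc]
  nlinarith [h x, hx]

theorem isCompact_sphere' : IsCompact {x : E | N x = 1} :=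
  (N.isCompact_le 1).of_isClosed_subset (isClosed_eq N.continuous continuous_const)
    fun _ hx => le_of_eq hx

/-- The dual norm, through the inner product. -/
noncomputable def dualFun (φ : E) : ℝ := sSup ((fun u => ⟪φ, u⟫) '' {u : E | N u ≤ 1})

theorem bddAbove_dual (φ : E) : BddAbove ((fun u => ⟪φ, u⟫) '' {u : E | N u ≤ 1}) :=
  ((N.isCompact_le 1).image (continuous_const.inner continuous_id)).bddAbove

theorem inner_le_dualFun {φ u : E} (hu : N u ≤ 1) : ⟪φ, u⟫ ≤ N.dualFun φ :=
  le_csSup (N.bddAbove_dual φ) ⟨u, hu, rfl⟩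

theorem inner_le (φ x : E) : ⟪φ, x⟫ ≤ N.dualFun φ * N x := by
  rcases eq_or_ne x 0 with h | h
  · simp [h, N.map_zero]
  · have h1 := N.inner_le_dualFun (φ := φ) (u := (N x)⁻¹ • x) (N.norm_unit h).le
    rw [real_inner_smul_right] at h1
    have hp := N.pos h
    have h2 := mul_le_mul_of_nonneg_right h1 hp.le
    calc ⟪φ, x⟫ = (N x)⁻¹ * ⟪φ, x⟫ * N x := by field_simp
      _ ≤ _ := h2

theorem dualFun_le {φ : E} {a : ℝ} (h : ∀ u, N u ≤ 1 → ⟪φ, u⟫ ≤ a) : N.dualFun φ ≤ a := by
  refine csSup_le ⟨0, 0, by simp [N.map_zero], by simp⟩ ?_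
  rintro _ ⟨u, hu, rfl⟩
  exact h u hu

theorem dualFun_nonneg (φ : E) : 0 ≤ N.dualFun φ := by
  have := N.inner_le_dualFun (φ := φ) (u := (0 : E)) (by simp [N.map_zero])
  simpa using this

theorem dualFun_add_le (φ ψ : E) : N.dualFun (φ + ψ) ≤ N.dualFun φ + N.dualFun ψ :=
  N.dualFun_le fun u hu => by
    rw [inner_add_left]
    exact add_le_add (N.inner_le_dualFun hu) (N.inner_le_dualFun hu)

theorem dualFun_smul_le (c : ℝ) (φ : E) : N.dualFun (c • φ) ≤ |c| * N.dualFun φ := by
  refine N.dualFun_le fun u hu => ?_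
  rw [real_inner_smul_left]
  rcases le_total 0 c with hc | hc
  · rw [abs_of_nonneg hc]
    exact mul_le_mul_of_nonneg_left (N.inner_le_dualFun hu) hc
  · rw [abs_of_nonpos hc]
    have h1 := N.inner_le_dualFun (φ := φ) (u := -u) (by rwa [N.neg])
    rw [inner_neg_right] at h1
    nlinarith

theorem dualFun_smul (c : ℝ) (φ : E) : N.dualFun (c • φ) = |c| * N.dualFun φ := by
  refine le_antisymm (N.dualFun_smul_le c φ) ?_
  rcases eq_or_ne c 0 with h | h
  · subst h
    simpa using N.dualFun_nonneg ((0 : ℝ) • φ)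
  · have h1 := N.dualFun_smul_le c⁻¹ (c • φ)
    rw [smul_smul, inv_mul_cancel₀ h, one_smul, abs_inv] at h1
    have hc : 0 < |c| := abs_pos.2 h
    have h2 := mul_le_mul_of_nonneg_left h1 hc.le
    rwa [← mul_assoc, mul_inv_cancel₀ hc.ne', one_mul] at h2

theorem dualFun_pos {φ : E} (h : φ ≠ 0) : 0 < N.dualFun φ := by
  have h1 := N.inner_le φ φ
  have h2 : 0 < ⟪φ, φ⟫ := real_inner_self_pos.2 h
  by_contra h3
  have h4 := le_antisymm (not_lt.1 h3) (N.dualFun_nonneg φ)
  rw [h4, zero_mul] at h1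
  linarith

/-- The dual norm as a norm. -/
noncomputable def dual : Nrm E where
  toFun := N.dualFun
  add_le' := N.dualFun_add_le
  smul' := N.dualFun_smul
  pos' := fun _ h => N.dualFun_pos h

theorem inner_le_dual (φ x : E) : ⟪φ, x⟫ ≤ N.dual φ * N x := N.inner_le φ x

theorem abs_inner_le_dual (φ x : E) : |⟪φ, x⟫| ≤ N.dual φ * N x := by
  rw [abs_le]
  constructor
  · have := N.inner_le_dual φ (-x)
    rw [inner_neg_right, N.neg] at this
    linarith
  · exact N.inner_le_dual φ x

/-- `v` is a unit vector at which `φ` attains its dual norm. -/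
def IsMax (φ v : E) : Prop := N v = 1 ∧ ⟪φ, v⟫ = N.dual φ

variable [Nontrivial E]

theorem exists_unit : ∃ u : E, N u = 1 := by
  obtain ⟨x, hx⟩ := exists_ne (0 : E)
  exact ⟨_, N.norm_unit hx⟩

theorem exists_isMax (φ : E) : ∃ v, N.IsMax φ v := by
  obtain ⟨u0, hu0⟩ := N.exists_unit
  rcases eq_or_ne φ 0 with h | h
  · refine ⟨u0, hu0, ?_⟩
    rw [h, inner_zero_left, N.dual.map_zero]
  · obtain ⟨v, hv, hmax⟩ := (N.isCompact_le 1).exists_isMaxOn ⟨0, by simp [N.map_zero]⟩
      ((continuous_const.inner continuous_id).continuousOn :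
        ContinuousOn (fun u => ⟪φ, u⟫) {u : E | N u ≤ 1})
    have heq : ⟪φ, v⟫ = N.dual φ :=
      le_antisymm (N.inner_le_dualFun hv) (N.dualFun_le fun u hu => hmax hu)
    refine ⟨v, le_antisymm hv ?_, heq⟩
    have hp : 0 < N.dual φ := N.dual.pos h
    have h1 := N.inner_le_dual φ v
    rw [heq] at h1
    by_contra hlt
    nlinarith [not_le.1 hlt]

/-- A fixed unit vector. -/
noncomputable def u0 : E := N.exists_unit.choose

theorem u0_spec : N N.u0 = 1 := N.exists_unit.choose_spec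

/-- The gradient of the dual norm (a fixed unit vector if that makes no sense). -/
noncomputable def vv (φ : E) : E :=
  if N (gradient (fun ψ => N.dual ψ) φ) = 1 then gradient (fun ψ => N.dual ψ) φ else N.u0

theorem vv_unit (φ : E) : N (N.vv φ) = 1 := by
  rw [vv]
  split_ifs with h
  · exact h
  · exact N.u0_spec

theorem isMax_eq_gradient {φ v : E} (hd : DifferentiableAt ℝ (fun ψ => N.dual ψ) φ)
    (hv : N.IsMax φ v) : v = gradient (fun ψ => N.dual ψ) φ := by
  have hmin : IsLocalMin (fun ψ => N.dual ψ - ⟪v, ψ⟫) φ := by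
    refine Eventually.of_forall fun ψ => ?_
    have := N.inner_le_dual ψ v
    rw [hv.1, mul_one] at this
    show N.dual φ - ⟪v, φ⟫ ≤ N.dual ψ - ⟪v, ψ⟫
    rw [real_inner_comm φ v, hv.2, real_inner_comm ψ v]
    linarith
  have hder : HasFDerivAt (fun ψ => N.dual ψ - ⟪v, ψ⟫)
      (fderiv ℝ (fun ψ => N.dual ψ) φ - innerSL ℝ v) φ :=
    hd.hasFDerivAt.sub (innerSL ℝ v).hasFDerivAt
  have h0 := hmin.hasFDerivAt_eq_zero hder
  rw [sub_eq_zero] at h0
  apply ext_inner_right ℝ
  intro y
  rw [gradient, InnerProductSpace.toDual_symm_apply, h0]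
  rfl

theorem vv_isMax {φ : E} (hd : DifferentiableAt ℝ (fun ψ => N.dual ψ) φ) :
    N.IsMax φ (N.vv φ) := by
  obtain ⟨v, hv⟩ := N.exists_isMax φ
  have h := N.isMax_eq_gradient hd hv
  have : N.vv φ = v := by rw [vv, ← h, if_pos hv.1]
  rwa [this]

theorem isMax_eq_vv {φ v : E} (hd : DifferentiableAt ℝ (fun ψ => N.dual ψ) φ)
    (hv : N.IsMax φ v) : v = N.vv φ := by
  rw [N.isMax_eq_gradient hd hv, N.isMax_eq_gradient hd (N.vv_isMax hd)]

theorem measurable_vv [MeasurableSpace E] [BorelSpace E] : Measurable N.vv := by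
  have hg : Measurable (gradient (fun ψ => N.dual ψ) : E → E) :=
    (InnerProductSpace.toDual ℝ E).symm.continuous.measurable.comp (measurable_fderiv ℝ _)
  exact Measurable.ite (measurableSet_eq_fun (N.continuous.measurable.comp hg) measurable_const)
    hg measurable_const

theorem ae_differentiableAt_dual [MeasurableSpace E] [BorelSpace E] :
    ∀ᵐ φ : E ∂volume, DifferentiableAt ℝ (fun ψ => N.dual ψ) φ := by
  obtain ⟨C, hC⟩ := N.dual.exists_lipschitz
  exact hC.ae_differentiableAt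

end Inner

end Nrm

end Vale.Agent.P084
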