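import Vale.Agent.P084.Setup
import Vale.Agent.P084.Alexandrov

/-!
Chords of the two balls, the correspondence between them and its first order identities.
-/

open scoped RealInnerProductSpace NNReal
open Set Filter Topology MeasureTheory Asymptotics ContinuousLinearMap

set_option linter.unusedSectionVars false

namespace Vale.Agent.P084

variable {E : Type*} [NormedAddCommGroup E] [InnerProductSpace ℝ E] [FiniteDimensional ℝ E]

namespace Setup

variable (S : Setup E)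

/-- forward end -/
noncomputable def X (y v : E) : E := S.N.exitP y v
/-- backward end -/
noncomputable def W (y v : E) : E := S.N.exitP y (-v)
/-- forward time -/
noncomputable def tp (y v : E) : ℝ := S.N.exitT y v
/-- backward time -/
noncomputable def tm (y v : E) : ℝ := S.N.exitT y (-v)
/-- length of chord -/
noncomputable def D (y v : E) : ℝ := S.tp y v + S.tm y v
/-- image direction -/
noncomputable def eI (y v : E) : E := (S.D y v)⁻¹ • (S.F (S.X y v) - S.F (S.W y v))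
/-- image point -/
noncomputable def yI (y v : E) : E := S.F (S.W y v) + S.tm y v • S.eI y v
/-- transported functional at one end -/
noncomputable def pOf (x v e φ : E) : E := adjoint (S.Pi x v e) φ

variable {S}

theorem tangent_curve {x u : E} (hx : S.GoodS x) (h1 : S.N x = 1) (hu : ⟪S.psi x, u⟫ = 0) :
    ∃ c : ℝ → E, c 0 = x ∧ (∀ᶠ s in 𝓝 0, S.N (c s) = 1) ∧ HasDerivAt c u 0 ∧
      HasDerivAt (fun s => S.F (c s)) (S.A x u) 0 := by
  set c : ℝ → E := fun s => (S.N (x + s • u))⁻¹ • (x + s • u) with hc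
  have hline : HasDerivAt (fun s : ℝ => x + s • u) u 0 := by
    simpa using ((hasDerivAt_id (0 : ℝ)).smul_const u).const_add x
  have hN : HasDerivAt (fun s : ℝ => S.N (x + s • u)) 0 0 := by
    have h2 : HasFDerivAt (fun z => S.N z) (innerSL ℝ (S.psi x)) (x + (0 : ℝ) • u) := by
      simpa using hx.hasFDerivAt_N
    have h3 := h2.comp_hasDerivAt 0 hline
    rw [innerSL_apply_apply, hu] at h3
    exact h3
  have hd : HasDerivAt c u 0 := by
    have h0 : S.N (x + (0 : ℝ) • u) ≠ 0 := by simp [h1]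
    have h := (hN.fun_inv h0).fun_smul hline
    refine h.congr_deriv ?_
    simp [h1]
  have hc0 : c 0 = x := by simp [hc, h1]
  refine ⟨c, hc0, ?_, hd, ?_⟩
  · have hne : ∀ᶠ s in 𝓝 (0 : ℝ), x + s • u ≠ 0 := by
      have hcont : ContinuousAt (fun s : ℝ => x + s • u) 0 := by fun_prop
      exact hcont.eventually_ne (by simpa using hx.1)
    filter_upwards [hne] with s hs
    exact S.N.norm_unit hs
  · have h2 : HasFDerivAt S.F (S.A x) (c 0) := by rw [hc0]; exact hx.hasFDerivAt_F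
    exact h2.comp_hasDerivAt 0 hd

theorem tangent_isometry {x u : E} (hx : S.GoodS x) (h1 : S.N x = 1) (hu : ⟪S.psi x, u⟫ = 0) :
    S.M (S.A x u) = S.N u := by
  obtain ⟨c, hc0, hcs, hd, hFd⟩ := tangent_curve hx h1 hu
  have hr : ∀ {g : ℝ → E} {g' : E} (P : Nrm E), HasDerivAt g g' 0 →
      Tendsto (fun s : ℝ => P (s⁻¹ • (g s - g 0))) (𝓝[>] 0) (𝓝 (P g')) := by
    intro g g' P hg
    have h := (hasDerivAt_iff_tendsto_slope_zero.1 hg).mono_left
      (nhdsWithin_mono _ (fun t (ht : t ∈ Ioi (0 : ℝ)) => ne_of_gt ht))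
    simp only [zero_add] at h
    exact (P.continuous.tendsto _).comp h
  refine tendsto_nhds_unique ((hr S.M hFd).congr' ?_) (hr S.N hd)
  filter_upwards [self_mem_nhdsWithin, hcs.filter_mono nhdsWithin_le_nhds] with s hs hcs'
  have hs : 0 < s := hs
  rw [S.M.smul_nonneg (inv_nonneg.2 hs.le), S.N.smul_nonneg (inv_nonneg.2 hs.le),
    S.hiso _ _ hcs' (by rw [hc0, h1])]

theorem core_bound {φ v x w u dw dw' : E} {D : ℝ} (hv : S.N.IsMax φ v) (hD : 0 < D)
    (hxw : x - w = D • v) (hx : S.GoodS x) (hx1 : S.N x = 1) (hw1 : S.N w = 1)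
    (hu : ⟪S.psi x, u⟫ = 0) {cw : ℝ → E} (hcw0 : cw 0 = w)
    (hcw : ∀ᶠ s in 𝓝 0, S.N (cw s) = 1) (hdw : HasDerivAt cw dw 0)
    (hdw' : HasDerivAt (fun s => S.F (cw s)) dw' 0) :
    ⟪φ, u - dw⟫ + S.N.dual φ * D
      ≤ S.N.dual φ * S.M ((S.F x - S.F w) + (S.A x u - dw')) := by
  obtain ⟨c, hc0, hcs, hd, hFd⟩ := tangent_curve hx hx1 hu
  set a := S.N.dual φ
  have ha : 0 ≤ a := S.N.dual.nonneg φ
  set z := S.F x - S.F w with hz
  set q := S.A x u - dw' with hq
  have hMz : S.M z = D := by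
    rw [hz, S.hiso x w hx1 hw1, hxw, S.N.smul_nonneg hD.le, hv.1, mul_one]
  set R : ℝ → E := fun s => S.F (c s) - S.F (cw s) - (z + s • q) with hR
  have hlin : HasDerivAt (fun s : ℝ => z + s • q) q 0 := by
    simpa using ((hasDerivAt_id (0 : ℝ)).smul_const q).const_add z
  have hRd : HasDerivAt R 0 0 := by
    have := (hFd.fun_sub hdw').fun_sub hlin
    rw [← hq, sub_self] at this
    exact this
  have hR0 : R 0 = 0 := by simp [hR, hc0, hcw0, hz]
  have hgd : HasDerivAt (fun s => ⟪φ, c s - cw s⟫) ⟪φ, u - dw⟫ 0 := by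
    have h := (innerSL ℝ φ).hasFDerivAt.comp_hasDerivAt 0 (hd.fun_sub hdw)
    exact h
  have hg0 : ⟪φ, c 0 - cw 0⟫ = a * D := by
    rw [hc0, hcw0, hxw, real_inner_smul_right, hv.2, mul_comm]
  have hmono : ∀ t ∈ Ioi (0 : ℝ), t ∈ ({0} : Set ℝ)ᶜ := fun t ht => ne_of_gt ht
  have t1 := (hasDerivAt_iff_tendsto_slope_zero.1 hgd).mono_left (nhdsWithin_mono _ hmono)
  have t2 : Tendsto (fun s : ℝ => a * (S.M (z + q) - D) + a * S.M (s⁻¹ • R s)) (𝓝[>] 0)
      (𝓝 (a * (S.M (z + q) - D))) := by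
    have h := (hasDerivAt_iff_tendsto_slope_zero.1 hRd).mono_left (nhdsWithin_mono _ hmono)
    simp only [zero_add, hR0, sub_zero] at h
    have h2 := ((S.M.continuous.tendsto _).comp h).const_mul a |>.const_add
      (a * (S.M (z + q) - D))
    rw [S.M.map_zero, mul_zero, add_zero] at h2
    exact h2
  have hle : ⟪φ, u - dw⟫ ≤ a * (S.M (z + q) - D) := by
    refine le_of_tendsto_of_tendsto t1 t2 ?_
    filter_upwards [hcs.filter_mono nhdsWithin_le_nhds, hcw.filter_mono nhdsWithin_le_nhds,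
      Ioo_mem_nhdsGT one_pos] with s h1 h2 hs
    simp only [zero_add, hg0, smul_eq_mul]
    rw [S.M.smul_nonneg (inv_nonneg.2 hs.1.le), inv_mul_le_iff₀ hs.1]
    have h3 := S.N.inner_le_dual φ (c s - cw s)
    rw [← S.hiso _ _ h1 h2] at h3
    have e : S.F (c s) - S.F (cw s) = (z + s • q) + R s := by simp [hR]
    have h4 := S.M.add_le (z + s • q) (R s)
    rw [← e] at h4
    have e2 : z + s • q = (1 - s) • z + s • (z + q) := by module
    have h5 := S.M.convex_comb_le (x := z) (y := z + q) (a := 1 - s) (b := s)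
      (by linarith [hs.2]) hs.1.le
    rw [← e2, hMz] at h5
    have h6 := mul_le_mul_of_nonneg_left (h4.trans (add_le_add h5 le_rfl)) ha
    have h7 : s * (a * (S.M (z + q) - D) + a * (s⁻¹ * S.M (R s)))
        = s * a * (S.M (z + q) - D) + a * S.M (R s) := by
      rw [mul_add, mul_left_comm a s⁻¹, ← mul_assoc s s⁻¹, mul_inv_cancel₀ hs.1.ne']
      ring
    rw [h7]
    linarith
  linarith

theorem lin_bound {φ v x w u dw dw' : E} {D : ℝ} (hv : S.N.IsMax φ v) (hD : 0 < D)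
    (hxw : x - w = D • v) (hx : S.GoodS x) (hx1 : S.N x = 1) (hw1 : S.N w = 1)
    (hu : ⟪S.psi x, u⟫ = 0) {cw : ℝ → E} (hcw0 : cw 0 = w)
    (hcw : ∀ᶠ s in 𝓝 0, S.N (cw s) = 1) (hdw : HasDerivAt cw dw 0)
    (hdw' : HasDerivAt (fun s => S.F (cw s)) dw' 0) (l : ℝ) :
    ⟪φ, u - dw⟫ + l * S.N.dual φ
      ≤ S.N.dual φ * S.M (S.A x u - dw' + l • (D⁻¹ • (S.F x - S.F w))) := by
  set a := S.N.dual φ
  have ha : 0 ≤ a := S.N.dual.nonneg φ
  set m := max |l| D with hm
  have hm0 : 0 < m := lt_max_of_lt_right hD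
  set μ := D / m with hμ
  have hμ0 : 0 < μ := div_pos hD hm0
  have hsc : HasDerivAt (fun s : ℝ => μ * s) μ 0 := by
    simpa using (hasDerivAt_id (0 : ℝ)).const_mul μ
  have ht : Tendsto (fun s : ℝ => μ * s) (𝓝 0) (𝓝 0) :=
    Continuous.tendsto' (by fun_prop) _ _ (mul_zero μ)
  have h1 : HasDerivAt (fun s => cw (μ * s)) (μ • dw) 0 :=
    (show HasDerivAt cw dw (μ * 0) by rwa [mul_zero]).scomp 0 hsc
  have h2 : HasDerivAt (fun s => S.F (cw (μ * s))) (μ • dw') 0 :=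
    (show HasDerivAt (fun s => S.F (cw s)) dw' (μ * 0) by rwa [mul_zero]).scomp 0 hsc
  have h := core_bound (S := S) hv hD hxw hx hx1 hw1 (u := μ • u)
    (by rw [real_inner_smul_right, hu, mul_zero]) (cw := fun s => cw (μ * s))
    (by simp [hcw0]) (ht.eventually hcw) h1 h2
  set e := D⁻¹ • (S.F x - S.F w) with he
  set q := S.A x u - dw' with hq
  have hzD : S.F x - S.F w = D • e := by
    rw [he, smul_smul, mul_inv_cancel₀ hD.ne', one_smul]
  have hMe : S.M e = 1 := by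
    rw [he, S.M.smul_nonneg (inv_nonneg.2 hD.le), S.hiso x w hx1 hw1, hxw,
      S.N.smul_nonneg hD.le, hv.1, mul_one, inv_mul_cancel₀ hD.ne']
  have e2 : (S.F x - S.F w) + (S.A x (μ • u) - μ • dw') = μ • ((q + l • e) + (m - l) • e) := by
    have hμm : μ * m = D := div_mul_cancel₀ D hm0.ne'
    rw [hzD, map_smul, ← hμm, hq]
    module
  rw [e2, S.M.smul_nonneg hμ0.le, ← smul_sub, real_inner_smul_right] at h
  have hl : l ≤ m := (le_abs_self l).trans (le_max_left _ _)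
  have h3 := S.M.add_le (q + l • e) ((m - l) • e)
  rw [S.M.smul_nonneg (sub_nonneg.2 hl), hMe, mul_one] at h3
  have h4 := mul_le_mul_of_nonneg_left h3 (mul_nonneg ha hμ0.le)
  have hμm : μ * m = D := div_mul_cancel₀ D hm0.ne'
  rw [← hμm] at h
  refine le_of_mul_le_mul_left ?_ hμ0
  linarith

theorem pOf_Pm {x v e φ : E} (hx : S.GoodS x) (hv : ⟪S.psi x, v⟫ ≠ 0)
    (he : ⟪S.symm.psi (S.F x), e⟫ ≠ 0) (u : E) :
    ⟪S.pOf x v e φ, S.Pm x v e u⟫ = ⟪φ, u⟫ := by
  rw [pOf, adjoint_inner_left]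
  have := congrArg (fun T : E →L[ℝ] E => T u) (hx.Pi_Pm hv he)
  change S.Pi x v e (S.Pm x v e u) = u at this
  rw [this]

theorem split_Pm {x v e : E} (hv : ⟪S.psi x, v⟫ ≠ 0) (u : E) :
    ∃ (w : E) (l : ℝ), ⟪S.psi x, w⟫ = 0 ∧ u = w + l • v ∧
      S.Pm x v e u = S.A x w + l • e := by
  have ht : ⟪S.psi x, u - (⟪S.psi x, u⟫ / ⟪S.psi x, v⟫) • v⟫ = 0 := by
    rw [inner_sub_right, real_inner_smul_right, div_mul_cancel₀ _ hv, sub_self]
  refine ⟨_, ⟪S.psi x, u⟫ / ⟪S.psi x, v⟫, ht, (sub_add_cancel _ _).symm, ?_⟩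
  conv_lhs => rw [← sub_add_cancel u ((⟪S.psi x, u⟫ / ⟪S.psi x, v⟫) • v)]
  rw [map_add, map_smul, GoodS.Pm_dir hv, GoodS.Pm_tangent ht]

theorem pOf_isMax {φ v x w : E} {D : ℝ} (hv : S.N.IsMax φ v) (hD : 0 < D)
    (hxw : x - w = D • v) (hx : S.GoodS x) (hx1 : S.N x = 1) (hw1 : S.N w = 1)
    (hψv : ⟪S.psi x, v⟫ ≠ 0) (hψe : ⟪S.symm.psi (S.F x), D⁻¹ • (S.F x - S.F w)⟫ ≠ 0) :
    S.M.IsMax (S.pOf x v (D⁻¹ • (S.F x - S.F w)) φ) (D⁻¹ • (S.F x - S.F w)) ∧
      S.M.dual (S.pOf x v (D⁻¹ • (S.F x - S.F w)) φ) = S.N.dual φ := by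
  set e := D⁻¹ • (S.F x - S.F w) with he
  set p := S.pOf x v e φ with hp
  have hMe : S.M e = 1 := by
    rw [he, S.M.smul_nonneg (inv_nonneg.2 hD.le), S.hiso x w hx1 hw1, hxw,
      S.N.smul_nonneg hD.le, hv.1, mul_one, inv_mul_cancel₀ hD.ne']
  have hpe : ⟪p, e⟫ = S.N.dual φ := by
    have := pOf_Pm (φ := φ) hx hψv hψe v
    rw [GoodS.Pm_dir hψv, hv.2] at this
    exact this
  have hle : S.M.dual p ≤ S.N.dual φ := by
    refine S.M.dualFun_le fun q hq => ?_
    obtain ⟨uT, l, hu, hsplit, hPm⟩ := split_Pm (e := e) hψv (S.Pi x v e q)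
    have hPq : S.Pm x v e (S.Pi x v e q) = q := by
      have := congrArg (fun T : E →L[ℝ] E => T q) (hx.Pm_Pi hψv hψe)
      exact this
    rw [hPq] at hPm
    have h := lin_bound (S := S) (u := uT) hv hD hxw hx hx1 hw1 hu (cw := fun _ => w) rfl
      (Eventually.of_forall fun _ => hw1) (hasDerivAt_const 0 w) (hasDerivAt_const 0 (S.F w)) l
    rw [sub_zero, sub_zero, ← he, ← hPm] at h
    have e2 : ⟪p, q⟫ = ⟪φ, uT⟫ + l * S.N.dual φ := by
      rw [hp, pOf, adjoint_inner_left, hsplit, inner_add_right, real_inner_smul_right, hv.2]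
    rw [e2]
    calc _ ≤ S.N.dual φ * S.M q := h
      _ ≤ S.N.dual φ * 1 := mul_le_mul_of_nonneg_left hq (S.N.dual.nonneg φ)
      _ = _ := mul_one _
  have hge := S.M.inner_le_dual p e
  rw [hpe, hMe, mul_one] at hge
  have heq := le_antisymm hle hge
  exact ⟨⟨hMe, by rw [hpe, heq]⟩, heq⟩

theorem pOf_eq {φ v x w : E} {D : ℝ} (hv : S.N.IsMax φ v) (hD : 0 < D)
    (hxw : x - w = D • v) (hx : S.GoodS x) (hw : S.GoodS w) (hx1 : S.N x = 1) (hw1 : S.N w = 1)
    (h1 : ⟪S.psi x, v⟫ ≠ 0) (h2 : ⟪S.symm.psi (S.F x), D⁻¹ • (S.F x - S.F w)⟫ ≠ 0)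
    (h3 : ⟪S.psi w, v⟫ ≠ 0) (h4 : ⟪S.symm.psi (S.F w), D⁻¹ • (S.F x - S.F w)⟫ ≠ 0) :
    S.pOf x v (D⁻¹ • (S.F x - S.F w)) φ = S.pOf w v (D⁻¹ • (S.F x - S.F w)) φ := by
  set e := D⁻¹ • (S.F x - S.F w) with he
  have key : ∀ q, ⟪S.pOf x v e φ, q⟫ ≤ ⟪S.pOf w v e φ, q⟫ := by
    intro q
    obtain ⟨uT, l1, hu, hs1, hP1⟩ := split_Pm (e := e) h1 (S.Pi x v e q)
    obtain ⟨rT, l2, hr, hs2, hP2⟩ := split_Pm (e := e) h3 (S.Pi w v e q)
    have hq1 : S.Pm x v e (S.Pi x v e q) = q :=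
      congrArg (fun T : E →L[ℝ] E => T q) (hx.Pm_Pi h1 h2)
    have hq2 : S.Pm w v e (S.Pi w v e q) = q :=
      congrArg (fun T : E →L[ℝ] E => T q) (hw.Pm_Pi h3 h4)
    rw [hq1] at hP1
    rw [hq2] at hP2
    obtain ⟨cw, hc0, hcs, hcd, hFcd⟩ := tangent_curve hw hw1 hr
    have h := lin_bound (S := S) (u := uT) hv hD hxw hx hx1 hw1 hu hc0 hcs hcd hFcd (l1 - l2)
    have e0 : S.A x uT - S.A w rT + (l1 - l2) • e = 0 := by
      have := hP1.symm.trans hP2
      rw [show S.A x uT - S.A w rT + (l1 - l2) • e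
        = (S.A x uT + l1 • e) - (S.A w rT + l2 • e) by module, this, sub_self]
    rw [← he, e0, S.M.map_zero, mul_zero, inner_sub_right] at h
    simp only [pOf, adjoint_inner_left]
    rw [hs1, hs2, inner_add_right, inner_add_right, real_inner_smul_right, real_inner_smul_right,
      hv.2]
    linarith
  apply ext_inner_right ℝ
  intro q
  refine le_antisymm (key q) ?_
  have := key (-q)
  rw [inner_neg_right, inner_neg_right] at this
  linarith

theorem transversal {φ v x w : E} {D : ℝ} (hv : S.N.IsMax φ v)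
    (hexp : ∀ u, S.N.IsMax φ u → u = v) (hD : 0 < D) (hxw : x - w = D • v) (hx : S.GoodS x)
    (hx1 : S.N x = 1) (hw1 : S.N w = 1) (hψv : 0 < ⟪S.psi x, v⟫) :
    0 < ⟪S.symm.psi (S.F x), D⁻¹ • (S.F x - S.F w)⟫ := by
  set e := D⁻¹ • (S.F x - S.F w) with he
  have hge : 0 ≤ ⟪S.symm.psi (S.F x), e⟫ := by
    rw [he, real_inner_smul_right]
    refine mul_nonneg (inv_nonneg.2 hD.le) ?_
    rw [inner_sub_right, hx.symm.psi_self]
    change 0 ≤ S.M (S.F x) - _
    have := hx.symm.psi_le (S.F w)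
    change _ ≤ S.M (S.F w) at this
    rw [S.hMF, hw1] at this
    rw [S.hMF, hx1]
    linarith
  refine lt_of_le_of_ne hge fun h0 => ?_
  set u := S.symm.A (S.F x) e with hu'
  have hAu : S.A x u = e := hx.A_Ainv e
  have hu : ⟪S.psi x, u⟫ = 0 := by rw [← hx.psi_A, hAu, ← h0]
  have hu2 : ⟪S.psi x, -u⟫ = 0 := by rw [inner_neg_right, hu, neg_zero]
  have hA := lin_bound (S := S) (u := u) hv hD hxw hx hx1 hw1 hu (cw := fun _ => w) rfl
    (Eventually.of_forall fun _ => hw1) (hasDerivAt_const 0 w) (hasDerivAt_const 0 (S.F w)) (-1)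
  have hB := lin_bound (S := S) (u := -u) hv hD hxw hx hx1 hw1 hu2 (cw := fun _ => w) rfl
    (Eventually.of_forall fun _ => hw1) (hasDerivAt_const 0 w) (hasDerivAt_const 0 (S.F w)) 1
  rw [← he, sub_zero, sub_zero, hAu, neg_one_smul, add_neg_cancel, S.M.map_zero, mul_zero] at hA
  rw [← he, sub_zero, sub_zero, map_neg, hAu, one_smul, neg_add_cancel, S.M.map_zero, mul_zero,
    inner_neg_right] at hB
  have hMe : S.M e = 1 := by
    rw [he, S.M.smul_nonneg (inv_nonneg.2 hD.le), S.hiso x w hx1 hw1, hxw,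
      S.N.smul_nonneg hD.le, hv.1, mul_one, inv_mul_cancel₀ hD.ne']
  have hmax : S.N.IsMax φ u :=
    ⟨by rw [← tangent_isometry hx hx1 hu, hAu, hMe], by linarith⟩
  rw [hexp u hmax] at hu
  linarith

section Chords

variable {y v : E} (hy : S.N y < 1) (hv : S.N v = 1)
include hy hv

theorem X_norm : S.N (S.X y v) = 1 := Nrm.exitP_norm hy hv

theorem W_norm : S.N (S.W y v) = 1 := Nrm.exitP_norm hy (by rwa [S.N.neg])

theorem tp_pos : 0 < S.tp y v := Nrm.exitT_pos hy hv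

theorem tm_pos : 0 < S.tm y v := Nrm.exitT_pos hy (by rwa [S.N.neg])

theorem D_pos : 0 < S.D y v := add_pos (tp_pos hy hv) (tm_pos hy hv)

omit hy hv in
theorem X_sub_W : S.X y v - S.W y v = S.D y v • v := by
  simp only [X, W, D, tp, tm, Nrm.exitP]
  module

theorem N_X_sub_W : S.N (S.X y v - S.W y v) = S.D y v := by
  rw [X_sub_W, S.N.smul_nonneg (D_pos hy hv).le, hv, mul_one]

theorem FX_sub_FW : S.F (S.X y v) - S.F (S.W y v) = S.D y v • S.eI y v := by
  rw [eI, smul_smul, mul_inv_cancel₀ (D_pos hy hv).ne', one_smul]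

theorem M_eI : S.M (S.eI y v) = 1 := by
  rw [eI, S.M.smul_nonneg (inv_nonneg.2 (D_pos hy hv).le),
    S.hiso _ _ (X_norm hy hv) (W_norm hy hv), N_X_sub_W hy hv,
    inv_mul_cancel₀ (D_pos hy hv).ne']

theorem FX_eq : S.F (S.X y v) = S.yI y v + S.tp y v • S.eI y v := by
  have h := FX_sub_FW hy hv
  rw [D, add_smul, sub_eq_iff_eq_add] at h
  rw [h, yI]
  abel

omit hy hv in
theorem FW_eq : S.F (S.W y v) = S.yI y v + S.tm y v • (-S.eI y v) := by
  rw [yI]; module

theorem psi_v_pos (hx : S.GoodS (S.X y v)) : 0 < ⟪S.psi (S.X y v), v⟫ := by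
  have h1 := hx.psi_self
  rw [X_norm hy hv] at h1
  have h2 := hx.psi_le y
  have e : ⟪S.psi (S.X y v), S.X y v⟫
      = ⟪S.psi (S.X y v), y⟫ + S.tp y v * ⟪S.psi (S.X y v), v⟫ := by
    rw [← real_inner_smul_right, ← inner_add_right]
    rfl
  have h3 : 0 < S.tp y v * ⟪S.psi (S.X y v), v⟫ := by linarith
  exact pos_of_mul_pos_right h3 (tp_pos hy hv).le

omit hy hv in
theorem X_neg : S.X y (-v) = S.W y v := rfl

omit hy hv in
theorem W_neg : S.W y (-v) = S.X y v := by simp [W, X]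

omit hy hv in
theorem D_neg : S.D y (-v) = S.D y v := by simp [D, tp, tm, add_comm]

omit hy hv in
theorem eI_neg : S.eI y (-v) = -S.eI y v := by
  rw [eI, eI, X_neg, W_neg, D_neg, ← smul_neg, neg_sub]

theorem yI_neg : S.yI y (-v) = S.yI y v := by
  rw [yI, W_neg, FX_eq hy hv, eI_neg, tm, neg_neg, ← tp]
  module

theorem psi_w_neg (hw : S.GoodS (S.W y v)) : ⟪S.psi (S.W y v), v⟫ < 0 := by
  have := psi_v_pos (S := S) hy (show S.N (-v) = 1 by rwa [S.N.neg]) hw
  rw [X_neg, inner_neg_right] at this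
  linarith

theorem yI_lt_one (hx : S.GoodS (S.X y v))
    (he : 0 < ⟪S.symm.psi (S.F (S.X y v)), S.eI y v⟫) : S.M (S.yI y v) < 1 := by
  set x' := S.F (S.X y v) with hx'
  set e := S.eI y v with he'
  have hx1 : S.M x' = 1 := by rw [hx', S.hMF, X_norm hy hv]
  have hder : HasDerivAt (fun s : ℝ => S.M (x' + s • (-e))) ⟪S.symm.psi x', -e⟫ 0 := by
    have h1 : HasDerivAt (fun s : ℝ => x' + s • (-e)) (-e) 0 := by
      simpa using ((hasDerivAt_id (0 : ℝ)).smul_const (-e)).const_add x'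
    have h2 : HasFDerivAt (fun z => S.M z) (innerSL ℝ (S.symm.psi x')) (x' + (0 : ℝ) • (-e)) := by
      rw [zero_smul, add_zero]
      exact hx.symm.hasFDerivAt_N
    exact h2.comp_hasDerivAt 0 h1
  have hev : ∀ᶠ s in 𝓝[>] (0 : ℝ), S.M (x' + s • (-e)) < 1 := by
    have h := (hasDerivAt_iff_tendsto_slope_zero.1 hder).mono_left
      (nhdsWithin_mono _ (fun t (ht : t ∈ Ioi (0 : ℝ)) => ne_of_gt ht))
    have h3 := h.eventually (Iio_mem_nhds (show ⟪S.symm.psi x', -e⟫ < 0 by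
      rw [inner_neg_right]; linarith))
    filter_upwards [h3, self_mem_nhdsWithin] with s hs hs0
    have hs0 : 0 < s := hs0
    simp only [zero_add, zero_smul, add_zero, hx1, smul_eq_mul] at hs
    by_contra hc
    have : 0 ≤ s⁻¹ * (S.M (x' + s • (-e)) - 1) :=
      mul_nonneg (inv_nonneg.2 hs0.le) (by linarith)
    linarith
  obtain ⟨s, hs, hs0, hsT⟩ := (hev.and (Ioo_mem_nhdsGT (tp_pos hy hv))).exists
  have hlast : S.M (x' + S.D y v • (-e)) = 1 := by
    have : x' + S.D y v • (-e) = S.F (S.W y v) := by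
      rw [smul_neg, ← FX_sub_FW hy hv]; abel
    rw [this, S.hMF, W_norm hy hv]
  have hmid := Nrm.line_interp (N := S.M) x' (-e) (a := s) (b := S.tp y v) (c := S.D y v) hsT.le
    (le_add_of_nonneg_right (tm_pos hy hv).le)
    (lt_of_lt_of_le hsT (le_add_of_nonneg_right (tm_pos hy hv).le))
  have e3 : x' + S.tp y v • (-e) = S.yI y v := by rw [hx', FX_eq hy hv]; module
  rw [e3, hlast] at hmid
  refine hmid.trans_lt ?_
  have hDs : 0 < S.D y v - s := by
    have := tm_pos (S := S) hy hv; simp only [D]; linarith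
  have h1 : 0 < (S.D y v - S.tp y v) / (S.D y v - s) :=
    div_pos (by simp only [D]; linarith [tm_pos (S := S) hy hv]) hDs
  have h2 : (S.D y v - S.tp y v) / (S.D y v - s) + (S.tp y v - s) / (S.D y v - s) = 1 := by
    rw [← add_div, sub_add_sub_cancel, div_self hDs.ne']
  have h3 := mul_lt_mul_of_pos_left hs h1
  linarith

theorem roundtrip (hyI : S.M (S.yI y v) < 1) :
    S.symm.X (S.yI y v) (S.eI y v) = S.F (S.X y v) ∧
      S.symm.W (S.yI y v) (S.eI y v) = S.F (S.W y v) ∧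
      S.symm.eI (S.yI y v) (S.eI y v) = v ∧
      S.symm.yI (S.yI y v) (S.eI y v) = y := by
  have he1 := M_eI (S := S) hy hv
  have hX : S.M (S.yI y v + S.tp y v • S.eI y v) = 1 := by
    rw [← FX_eq hy hv, S.hMF, X_norm hy hv]
  have hW : S.M (S.yI y v + S.tm y v • (-S.eI y v)) = 1 := by
    rw [← FW_eq, S.hMF, W_norm hy hv]
  have e1 : S.symm.tp (S.yI y v) (S.eI y v) = S.tp y v :=
    Nrm.exitT_unique (N := S.M) hyI he1 (tp_pos hy hv).le hX
  have e2 : S.symm.tm (S.yI y v) (S.eI y v) = S.tm y v :=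
    Nrm.exitT_unique (N := S.M) hyI (by rwa [S.M.neg]) (tm_pos hy hv).le hW
  have hX' : S.symm.X (S.yI y v) (S.eI y v) = S.F (S.X y v) := by
    rw [FX_eq hy hv]
    exact Nrm.exitP_unique (N := S.M) hyI he1 (tp_pos hy hv).le hX
  have hW' : S.symm.W (S.yI y v) (S.eI y v) = S.F (S.W y v) := by
    rw [FW_eq]
    exact Nrm.exitP_unique (N := S.M) hyI (by rwa [S.M.neg]) (tm_pos hy hv).le hW
  have hD' : S.symm.D (S.yI y v) (S.eI y v) = S.D y v := by rw [D, D, e1, e2]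
  have he : S.symm.eI (S.yI y v) (S.eI y v) = v := by
    rw [eI, hD', hX', hW']
    change (S.D y v)⁻¹ • (S.G (S.F (S.X y v)) - S.G (S.F (S.W y v))) = v
    rw [S.hGF, S.hGF, X_sub_W, smul_smul, inv_mul_cancel₀ (D_pos hy hv).ne', one_smul]
  refine ⟨hX', hW', he, ?_⟩
  rw [yI, hW', he, e2]
  change S.G (S.F (S.W y v)) + S.tm y v • v = y
  rw [S.hGF, W, Nrm.exitP, tm]
  module

/-- Derivative of the chord map in the point, for a fixed direction. -/
theorem hasFDerivAt_chord (hX : S.GoodS (S.X y v)) (hW : S.GoodS (S.W y v)) :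
    HasFDerivAt (fun z => S.eI z v)
      ((S.D y v)⁻¹ • (S.Pm (S.X y v) v (S.eI y v) - S.Pm (S.W y v) v (S.eI y v))) y ∧
    HasFDerivAt (fun z => S.yI z v)
      ((1 - S.tm y v / S.D y v) • S.Pm (S.W y v) v (S.eI y v)
        + (S.tm y v / S.D y v) • S.Pm (S.X y v) v (S.eI y v)) y := by
  have hopen : ∀ᶠ z in 𝓝 y, S.N z < 1 :=
    S.N.continuous.continuousAt.eventually_lt continuousAt_const hy
  have hroot : ∀ {u : E}, S.N u = 1 → ∀ {g : E}, ⟪g, u⟫ ≠ 0 →
      HasFDerivAt (fun z => S.N z) (innerSL ℝ g) (y + S.N.exitT y u • u) →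
      HasFDerivAt (fun z => S.N.exitT z u) ((-(⟪g, u⟫)⁻¹) • innerSL ℝ g) y := by
    intro u hu g hg hN
    have hc : ContinuousAt (fun z => S.N.exitT z u) y := by
      have h1 : ContinuousWithinAt (fun z => S.N.exitT z u) {z | S.N z < 1} y :=
        (ContinuousOn.comp (g := fun q : E × E => S.N.exitT q.1 q.2) (f := fun z : E => (z, u))
          Nrm.continuousOn_exitT (by fun_prop)
          (fun z (hz : z ∈ {z | S.N z < 1}) => (⟨hz, hu⟩ : (z, u) ∈ S.N.dom))) y hy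
      exact h1.continuousAt hopen
    have h := Nrm.hasFDerivAt_root (N := S.N) (u := fun _ => u) hc (hasFDerivAt_id y)
      (hasFDerivAt_const u y) (hopen.mono fun z hz => Nrm.exitP_norm hz hu) hN hg
    convert h using 2
    ext k
    simp
  have hψx := psi_v_pos hy hv hX
  have hψw := psi_w_neg hy hv hW
  set x := S.X y v with hx'
  set w := S.W y v with hw'
  set e := S.eI y v with he'
  set g := S.psi x
  set g2 := S.psi w
  set lx := (-(⟪g, v⟫)⁻¹) • innerSL ℝ g with hlx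
  set lw := (-(⟪g2, -v⟫)⁻¹) • innerSL ℝ g2 with hlw
  have dtp : HasFDerivAt (fun z => S.tp z v) lx y := hroot hv hψx.ne' hX.hasFDerivAt_N
  have dtm : HasFDerivAt (fun z => S.tm z v) lw y :=
    hroot (by rwa [S.N.neg]) (by rw [inner_neg_right]; linarith) hW.hasFDerivAt_N
  set P := S.Pm x v e with hP
  set Q := S.Pm w v e with hQ
  have dFX : HasFDerivAt (fun z => S.F (S.X z v)) (P + lx.smulRight e) y := by
    have h1 : HasFDerivAt (fun z => S.X z v) (1 + lx.smulRight v) y :=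
      (hasFDerivAt_id y).add (dtp.smul_const v)
    refine (hX.hasFDerivAt_F.comp y h1).congr_fderiv ?_
    ext k
    simp [hP, Pm, hlx, g, smul_smul, map_add, map_smul, smul_sub]
    module
  have dFW : HasFDerivAt (fun z => S.F (S.W z v)) (Q - lw.smulRight e) y := by
    have h1 : HasFDerivAt (fun z => S.W z v) (1 + lw.smulRight (-v)) y :=
      (hasFDerivAt_id y).add (dtm.smul_const (-v))
    refine (hW.hasFDerivAt_F.comp y h1).congr_fderiv ?_
    ext k
    simp [hQ, Pm, hlw, g2, smul_smul, inv_neg, map_add, map_smul, smul_sub]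
    module
  have hD := D_pos (S := S) hy hv
  have de : HasFDerivAt (fun z => S.eI z v) ((S.D y v)⁻¹ • (P - Q)) y := by
    have hDd : HasFDerivAt (fun z => S.D z v) (lx + lw) y := dtp.add dtm
    have h := ((hasDerivAt_inv hD.ne').comp_hasFDerivAt y hDd).smul (dFX.sub dFW)
    refine h.congr_fderiv ?_
    have hsub : S.F x - S.F w = S.D y v • e := FX_sub_FW hy hv
    ext k
    simp only [Pi.sub_apply, Function.comp_apply, ← hx', ← hw', hsub]
    simp [smul_sub, smul_add, smul_smul]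
    match_scalars <;> field_simp <;> ring
  refine ⟨de, ?_⟩
  have h := dFW.add (dtm.smul de)
  refine h.congr_fderiv ?_
  ext k
  simp [smul_sub, smul_smul, he']
  match_scalars <;> field_simp <;> ring

end Chords

end Setup

end Vale.Agent.P084
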