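import Mathlib

/-!
The integral of a directional derivative of a compactly supported function vanishes.
-/

open MeasureTheory Filter Set Metric
open scoped Topology

namespace Vale.Agent.P084

variable {E : Type*} [NormedAddCommGroup E] [InnerProductSpace ℝ E] [FiniteDimensional ℝ E]
  [MeasurableSpace E] [BorelSpace E]

theorem integral_lineDeriv_eq_zero {h : E → ℝ} {d : E → ℝ} {v : E} {C R : ℝ}
    (hm : Measurable h) (hb : ∀ y, |h y| ≤ C) (hsupp : ∀ y, R < ‖y‖ → h y = 0)
    (hlip : ∀ y (s : ℝ), |h (y + s • v) - h y| ≤ C * |s|)
    (hd : ∀ᵐ y, HasDerivAt (fun s : ℝ => h (y + s • v)) (d y) 0) :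
    Integrable d ∧ ∫ y, d y = 0 := by
  set s : ℕ → ℝ := fun n => 1 / ((n : ℝ) + 1) with hs
  have hs0 : ∀ n, 0 < s n := fun n => by rw [hs]; positivity
  have hs1 : ∀ n, s n ≤ 1 := fun n => by
    rw [hs, div_le_one (by positivity)]; linarith [Nat.cast_nonneg (α := ℝ) n]
  set q : ℕ → E → ℝ := fun n y => (s n)⁻¹ * (h (y + s n • v) - h y) with hq
  set B : E → ℝ := (closedBall (0 : E) (R + ‖v‖)).indicator (fun _ => C) with hB
  have hBint : Integrable B :=
    (integrableOn_const (C := C) (μ := volume) measure_closedBall_lt_top.ne).integrable_indicator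
      measurableSet_closedBall
  have hqm : ∀ n, AEStronglyMeasurable (q n) volume := fun n => by
    refine Measurable.aestronglyMeasurable ?_
    exact ((hm.comp (measurable_id.add_const _)).sub hm).const_mul _
  have hqb : ∀ n y, ‖q n y‖ ≤ B y := by
    intro n y
    simp only [hq, hB, Real.norm_eq_abs, indicator]
    split_ifs with hy
    · rw [abs_mul, abs_of_pos (inv_pos.2 (hs0 n))]
      calc (s n)⁻¹ * |h (y + s n • v) - h y| ≤ (s n)⁻¹ * (C * |s n|) :=
            mul_le_mul_of_nonneg_left (hlip y (s n)) (inv_pos.2 (hs0 n)).le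
        _ = C := by rw [abs_of_pos (hs0 n)]; field_simp [(hs0 n).ne']
    · rw [mem_closedBall, dist_zero_right, not_le] at hy
      have h1 : h y = 0 := hsupp y (by linarith [norm_nonneg v])
      have h2 : h (y + s n • v) = 0 := by
        refine hsupp _ ?_
        have h3 : ‖s n • v‖ ≤ ‖v‖ := by
          rw [norm_smul, Real.norm_of_nonneg (hs0 n).le]
          exact mul_le_of_le_one_left (norm_nonneg v) (hs1 n)
        have h4 := norm_sub_le (y + s n • v) (s n • v)
        rw [add_sub_cancel_right] at h4
        linarith
      simp [h1, h2]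
  have hlim : ∀ᵐ y, Tendsto (fun n => q n y) atTop (𝓝 (d y)) := by
    filter_upwards [hd] with y hy
    have h1 : Tendsto s atTop (𝓝[≠] 0) := tendsto_nhdsWithin_iff.2
      ⟨tendsto_one_div_add_atTop_nhds_zero_nat, Eventually.of_forall fun n => (hs0 n).ne'⟩
    have h2 := (hy.tendsto_slope_zero).comp h1
    refine h2.congr fun n => ?_
    simp [hq, Function.comp_apply, smul_eq_mul]
  have hdm : AEStronglyMeasurable d volume := aestronglyMeasurable_of_tendsto_ae atTop hqm hlim
  have hdint : Integrable d := by
    refine hBint.mono' hdm ?_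
    filter_upwards [hlim] with y hy
    exact le_of_tendsto' hy.norm fun n => hqb n y
  refine ⟨hdint, ?_⟩
  have hq0 : ∀ n, ∫ y, q n y = 0 := by
    intro n
    have hih : Integrable h := by
      refine ((integrableOn_const (C := C) (μ := volume)
        (measure_closedBall_lt_top (x := (0 : E)) (r := R)).ne).integrable_indicator
          measurableSet_closedBall).mono' hm.aestronglyMeasurable (Eventually.of_forall fun y => ?_)
      simp only [Real.norm_eq_abs, indicator]
      split_ifs with hy
      · exact hb y
      · rw [mem_closedBall, dist_zero_right, not_le] at hy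
        simp [hsupp y hy]
    simp only [hq]
    rw [integral_const_mul, integral_sub (hih.comp_add_right _) hih,
      integral_add_right_eq_self, sub_self, mul_zero]
  have hconv := tendsto_integral_of_dominated_convergence B hqm hBint
    (fun n => Eventually.of_forall fun y => hqb n y) hlim
  simp only [hq0] at hconv
  exact (tendsto_nhds_unique tendsto_const_nhds hconv).symm

end Vale.Agent.P084
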