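import Vale.Agent.P084.Line

/-!
The energy identity forces the extension to agree with the chord maps.
-/

open scoped RealInnerProductSpace NNReal ENNReal
open Set Filter Topology MeasureTheory ContinuousLinearMap Module

set_option linter.unusedSectionVars false

namespace Vale.Agent.P084

variable {E : Type*} [NormedAddCommGroup E] [InnerProductSpace ℝ E] [FiniteDimensional ℝ E]
  [Nontrivial E] [MeasurableSpace E] [BorelSpace E]

namespace Nrm

variable (N : Nrm E)

/-- second moments of the duality map over the dual ball -/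
noncomputable def J : ℝ≥0∞ :=
  ∫⁻ x in N.dualBall, ∫⁻ p in N.dualBall, ENNReal.ofReal (⟪p, N.vv x⟫ ^ 2)

theorem J_ne_top : N.J ≠ ∞ := by
  refine ne_top_of_le_ne_top (ENNReal.mul_ne_top N.dualBall_lt_top.ne N.dualBall_lt_top.ne) ?_
  rw [J]
  refine le_trans (setLIntegral_mono measurable_const fun x _ => ?_) (setLIntegral_const _ _).le
  rw [← setLIntegral_one]
  refine setLIntegral_mono measurable_const fun p hp => ?_
  rw [← ENNReal.ofReal_one]
  refine ENNReal.ofReal_le_ofReal ?_
  have h := N.abs_inner_le_dual p (N.vv x)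
  rw [N.vv_unit, mul_one] at h
  rw [← sq_abs]
  exact pow_le_one₀ (abs_nonneg _) (h.trans hp)

theorem J_swap :
    (∫⁻ x in N.dualBall, ∫⁻ p in N.dualBall, ENNReal.ofReal (⟪x, N.vv p⟫ ^ 2)) = N.J := by
  rw [J]
  refine lintegral_lintegral_swap ?_
  exact ((((continuous_inner (𝕜 := ℝ) (E := E)).measurable.comp
    (measurable_fst.prodMk (N.measurable_vv.comp measurable_snd))).pow_const 2).ennreal_ofReal).aemeasurable

end Nrm

namespace Setup

variable {S : Setup E}

theorem lintegral_Good_snd (S : Setup E) {h : E → ℝ≥0∞} (hh : Measurable h) :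
    ∫⁻ q in S.Good, h q.2 = volume S.N.ball * ∫⁻ φ in S.N.dualBall, h φ := by
  have heq : (S.Good : Set (E × E)) =ᵐ[volume] (S.N.ball ×ˢ S.N.dualBall : Set (E × E)) := by
    filter_upwards [S.ae_good] with q hq
    exact propext ⟨fun h => ⟨h.1.1, h.1.2.1⟩, fun h => hq h.1 h.2⟩
  rw [setLIntegral_congr heq, Measure.volume_eq_prod, ← Measure.prod_restrict]
  have h := lintegral_prod_mul (μ := volume.restrict S.N.ball) (ν := volume.restrict S.N.dualBall)
    (f := fun _ => (1 : ℝ≥0∞)) (g := h) aemeasurable_const hh.aemeasurable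
  simpa using h

theorem measurable_e (S : Setup E) :
    Measurable (fun r : E × E × E => ⟪r.1, S.eI r.2.1 (S.N.vv r.2.2)⟫) :=
  measurable_inner' measurable_fst
    (S.measurable_eI.comp (f := fun r : E × E × E => (r.2.1, S.N.vv r.2.2))
      ((measurable_fst.comp measurable_snd).prodMk
        (S.N.measurable_vv.comp (measurable_snd.comp measurable_snd))))

/-- energy of the chord directions -/
theorem energy_chord (S : Setup E) :
    ∫⁻ φ in S.N.dualBall, ∫⁻ y in S.N.ball, ∫⁻ p in S.M.dualBall,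
      ENNReal.ofReal (⟪p, S.eI y (S.N.vv φ)⟫ ^ 2) = volume S.M.ball * S.M.J := by
  set g : E × E → ℝ≥0∞ := fun q =>
    ∫⁻ p in S.M.dualBall, ENNReal.ofReal (⟪p, S.eI q.1 (S.N.vv q.2)⟫ ^ 2) with hg
  set h : E → ℝ≥0∞ := fun x =>
    ∫⁻ p in S.M.dualBall, ENNReal.ofReal (⟪p, S.M.vv x⟫ ^ 2) with hh
  have hgm : Measurable g :=
    Measurable.lintegral_prod_right' (f := fun r : (E × E) × E =>
        ENNReal.ofReal (⟪r.2, S.eI r.1.1 (S.N.vv r.1.2)⟫ ^ 2))
      ((measurable_inner' measurable_snd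
        (S.measurable_eI.comp (f := fun r : (E × E) × E => (r.1.1, S.N.vv r.1.2))
          ((measurable_fst.comp measurable_fst).prodMk
            (S.N.measurable_vv.comp (measurable_snd.comp measurable_fst))))).pow_const 2).ennreal_ofReal
  have hhm : Measurable h :=
    Measurable.lintegral_prod_right' (f := fun r : E × E => ENNReal.ofReal (⟪r.2, S.M.vv r.1⟫ ^ 2))
      ((measurable_inner' measurable_snd
        (S.M.measurable_vv.comp measurable_fst)).pow_const 2).ennreal_ofReal
  calc ∫⁻ φ in S.N.dualBall, ∫⁻ y in S.N.ball, ∫⁻ p in S.M.dualBall,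
        ENNReal.ofReal (⟪p, S.eI y (S.N.vv φ)⟫ ^ 2)
      = ∫⁻ q in S.N.ball ×ˢ S.N.dualBall, g q := by
        rw [Measure.volume_eq_prod, ← Measure.prod_restrict,
          lintegral_prod_symm _ hgm.aemeasurable]
    _ = ∫⁻ q in S.Good, g q := by
        refine setLIntegral_congr ?_
        filter_upwards [S.ae_good] with q hq
        exact propext ⟨fun h => hq h.1 h.2, fun h => ⟨h.1.1, h.1.2.1⟩⟩
    _ = ∫⁻ q in S.Good, (fun p : E × E => h p.2) (S.Psi q) := by
        refine setLIntegral_congr_fun S.measurableSet_Good fun q hq => ?_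
        simp only [hg, hh, Good.vv_eq hq]
    _ = ∫⁻ p in S.symm.Good, h p.2 :=
        S.preserve (H := fun p => h p.2) (hhm.comp measurable_snd)
    _ = _ := S.symm.lintegral_Good_snd hhm

theorem measurable_q (S : Setup E) :
    Measurable (fun r : E × E × E => ⟪r.1, fderiv ℝ S.ext r.2.1 (S.N.vv r.2.2)⟫) :=
  measurable_inner' measurable_fst
    ((isBoundedBilinearMap_apply.continuous.measurable).comp
      (f := fun r : E × E × E => (fderiv ℝ S.ext r.2.1, S.N.vv r.2.2))
      ((S.measurable_fderiv_ext.comp (measurable_fst.comp measurable_snd)).prodMk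
        (S.N.measurable_vv.comp (measurable_snd.comp measurable_snd))))

theorem measurable_g (S : Setup E) :
    Measurable (fun r : E × E × E => ⟪gradient (S.U r.1) r.2.1, S.N.vv r.2.2⟫) :=
  measurable_inner'
    (S.measurable_grad_U.comp (f := fun r : E × E × E => (r.1, r.2.1))
      (measurable_fst.prodMk (measurable_fst.comp measurable_snd)))
    (S.N.measurable_vv.comp (measurable_snd.comp measurable_snd))

/-- energy of the extension -/
theorem energy_ext_le (S : Setup E) :
    ∫⁻ φ in S.N.dualBall, ∫⁻ y in S.N.ball, ∫⁻ p in S.M.dualBall,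
      ENNReal.ofReal (⟪p, fderiv ℝ S.ext y (S.N.vv φ)⟫ ^ 2)
      ≤ ENNReal.ofReal S.symm.ratio * (volume S.N.ball * S.N.J) := by
  set f : E → E → E → ℝ≥0∞ := fun p y φ =>
    ENNReal.ofReal (⟪gradient (S.U p) y, S.N.vv φ⟫ ^ 2) with hf
  have hfm : Measurable (fun r : E × E × E => f r.1 r.2.1 r.2.2) :=
    (S.measurable_g.pow_const 2).ennreal_ofReal
  have h3 : ∀ φ, Measurable (fun y => ∫⁻ p in S.M.dualBall, f p y φ) := fun φ =>
    Measurable.lintegral_prod_right' (f := fun r : E × E => f r.2 r.1 φ)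
      (hfm.comp (f := fun r : E × E => (r.2, r.1, φ))
        (measurable_snd.prodMk (measurable_fst.prodMk measurable_const)))
  calc ∫⁻ φ in S.N.dualBall, ∫⁻ y in S.N.ball, ∫⁻ p in S.M.dualBall,
        ENNReal.ofReal (⟪p, fderiv ℝ S.ext y (S.N.vv φ)⟫ ^ 2)
      ≤ ∫⁻ φ in S.N.dualBall, ∫⁻ y in S.N.ball, ∫⁻ p in S.M.dualBall, f p y φ := by
        refine lintegral_mono fun φ => lintegral_mono_ae ?_
        filter_upwards [ae_restrict_of_ae S.ae_fderiv_ext] with y hy
        exact S.bessel (hy.2 (S.N.vv φ))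
    _ = ∫⁻ y in S.N.ball, ∫⁻ φ in S.N.dualBall, ∫⁻ p in S.M.dualBall, f p y φ := by
        refine lintegral_lintegral_swap (Measurable.aemeasurable ?_)
        exact Measurable.lintegral_prod_right' (f := fun r : (E × E) × E => f r.2 r.1.2 r.1.1)
          (hfm.comp (f := fun r : (E × E) × E => (r.2, r.1.2, r.1.1))
            (measurable_snd.prodMk ((measurable_snd.comp measurable_fst).prodMk
              (measurable_fst.comp measurable_fst))))
    _ = ∫⁻ y in S.N.ball, ∫⁻ p in S.M.dualBall, ∫⁻ φ in S.N.dualBall, f p y φ := by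
        refine lintegral_congr fun y => lintegral_lintegral_swap (Measurable.aemeasurable ?_)
        exact hfm.comp (f := fun r : E × E => (r.2, y, r.1))
          (measurable_snd.prodMk (measurable_const.prodMk measurable_fst))
    _ = ∫⁻ p in S.M.dualBall, ∫⁻ y in S.N.ball, ∫⁻ φ in S.N.dualBall, f p y φ := by
        refine lintegral_lintegral_swap (Measurable.aemeasurable ?_)
        exact Measurable.lintegral_prod_right' (f := fun r : (E × E) × E => f r.1.2 r.1.1 r.2)
          (hfm.comp (f := fun r : (E × E) × E => (r.1.2, r.1.1, r.2))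
            ((measurable_snd.comp measurable_fst).prodMk
              ((measurable_fst.comp measurable_fst).prodMk measurable_snd)))
    _ = _ := by
        set H : E → ℝ≥0∞ := fun χ =>
          ∫⁻ φ in S.N.dualBall, ENNReal.ofReal (⟪χ, S.N.vv φ⟫ ^ 2) with hH
        have hHm : Measurable H :=
          Measurable.lintegral_prod_right' (f := fun r : E × E =>
              ENNReal.ofReal (⟪r.1, S.N.vv r.2⟫ ^ 2))
            ((measurable_inner' measurable_fst
              (S.N.measurable_vv.comp measurable_snd)).pow_const 2).ennreal_ofReal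
        rw [← S.N.J_swap]
        exact S.grad_distribution hHm

/-- Pythagoras along one family of chords. -/
theorem energy_split (S : Setup E) (φ : E) :
    ∫⁻ y in S.N.ball, ∫⁻ p in S.M.dualBall,
        ENNReal.ofReal (⟪p, fderiv ℝ S.ext y (S.N.vv φ)⟫ ^ 2)
      = (∫⁻ y in S.N.ball, ∫⁻ p in S.M.dualBall,
          ENNReal.ofReal (⟪p, fderiv ℝ S.ext y (S.N.vv φ) - S.eI y (S.N.vv φ)⟫ ^ 2))
        + ∫⁻ y in S.N.ball, ∫⁻ p in S.M.dualBall,
          ENNReal.ofReal (⟪p, S.eI y (S.N.vv φ)⟫ ^ 2) := by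
  set v := S.N.vv φ
  have hv : S.N v = 1 := S.N.vv_unit φ
  obtain ⟨L, hL, hR⟩ := S.exists_R_bounds
  obtain ⟨C, hC⟩ := S.exists_lipschitz_ext
  have hem : Measurable (fun r : E × E => ⟪r.2, S.eI r.1 v⟫) :=
    measurable_inner' measurable_snd (S.measurable_eI.comp (f := fun r : E × E => (r.1, v))
      (measurable_fst.prodMk measurable_const))
  have hqm : Measurable (fun r : E × E => ⟪r.2, fderiv ℝ S.ext r.1 v⟫) :=
    measurable_inner' measurable_snd
      ((isBoundedBilinearMap_apply.continuous.measurable).comp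
        (f := fun r : E × E => (fderiv ℝ S.ext r.1, v))
        ((S.measurable_fderiv_ext.comp measurable_fst).prodMk measurable_const))
  have hdm : Measurable (fun r : E × E => ⟪r.2, fderiv ℝ S.ext r.1 v - S.eI r.1 v⟫) := by
    simp only [inner_sub_right]; exact hqm.sub hem
  rw [lintegral_lintegral_swap (f := fun y p => ENNReal.ofReal (⟪p, fderiv ℝ S.ext y v⟫ ^ 2))
      (hqm.pow_const 2).ennreal_ofReal.aemeasurable,
    lintegral_lintegral_swap
      (f := fun y p => ENNReal.ofReal (⟪p, fderiv ℝ S.ext y v - S.eI y v⟫ ^ 2))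
      (hdm.pow_const 2).ennreal_ofReal.aemeasurable,
    lintegral_lintegral_swap (f := fun y p => ENNReal.ofReal (⟪p, S.eI y v⟫ ^ 2))
      (hem.pow_const 2).ennreal_ofReal.aemeasurable,
    ← lintegral_add_left (Measurable.lintegral_prod_right'
      (f := fun r : E × E => ENNReal.ofReal (⟪r.1, fderiv ℝ S.ext r.2 v - S.eI r.2 v⟫ ^ 2))
      ((hdm.comp measurable_swap).pow_const 2).ennreal_ofReal)]
  refine setLIntegral_congr_fun S.M.measurableSet_dualBall fun p hp => ?_
  set a := S.M.dual p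
  have ha : 0 ≤ a := S.M.dual.nonneg p
  set e : E → ℝ := fun y => ⟪p, S.eI y v⟫ with he
  set d : E → ℝ := fun y => ⟪p, fderiv ℝ S.ext y v - S.eI y v⟫ with hd
  have heM : ∀ y, S.N y < 1 → |e y| ≤ a := fun y hy => by
    have h := S.M.abs_inner_le_dual p (S.eI y v)
    rwa [M_eI hy hv, mul_one] at h
  have hpR : ∀ z, |⟪p, z⟫| ≤ a * S.M z := S.M.abs_inner_le_dual p
  have hfm : Measurable (fun y => e y * ⟪p, S.R v y⟫) :=
    (hem.comp (f := fun y => (y, p)) (measurable_id.prodMk measurable_const)).mul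
      (measurable_inner' measurable_const (S.measurable_R v))
  obtain ⟨hi, h0⟩ := S.line_zero hv (f := fun y => e y * ⟪p, S.R v y⟫) (d := fun y => e y * d y)
    (C := a * (a * L)) (by positivity) hfm
    (fun y hy => by
      rw [abs_mul, mul_assoc, mul_assoc]
      exact mul_le_mul (heM y hy)
        ((hpR _).trans (mul_le_mul_of_nonneg_left ((hR hv y hy).1) ha)) (abs_nonneg _) ha)
    (fun y hy => by
      rw [abs_mul, mul_assoc, mul_assoc]
      exact mul_le_mul (heM y hy)
        ((hpR _).trans (mul_le_mul_of_nonneg_left ((hR hv y hy).2.1) ha)) (abs_nonneg _) ha)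
    (fun y s hy hz => by
      simp only [he, (line_chord hy hv hz).1]
      rw [← mul_sub, ← inner_sub_right, abs_mul, mul_assoc, mul_assoc]
      exact mul_le_mul (heM y hy)
        ((hpR _).trans (mul_le_mul_of_nonneg_left ((hR hv y hy).2.2 s hz) ha)) (abs_nonneg _) ha)
    (by
      filter_upwards [S.ae_fderiv_ext] with y hy hlt
      have h1 := (innerSL ℝ p).hasFDerivAt.comp_hasDerivAt (0 : ℝ) (hasDerivAt_R hlt hv hy.1)
      have h2 : HasDerivAt (fun s : ℝ => e y * ⟪p, S.R v (y + s • v)⟫) (e y * d y) 0 :=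
        h1.const_mul (e y)
      refine h2.congr_of_eventuallyEq ?_
      have hev : ∀ᶠ s : ℝ in 𝓝 0, S.N (y + s • v) < 1 :=
        ((S.N.continuous.comp
          (continuous_const.add (continuous_id.smul continuous_const))).continuousAt).eventually_lt
          continuousAt_const (by simpa using hlt)
      filter_upwards [hev] with s hs
      simp only [he, (line_chord hlt hv hs).1])
  have : IsFiniteMeasure (volume.restrict S.N.ball) :=
    isFiniteMeasure_restrict.2 S.N.ball_lt_top.ne
  have hbq : ∀ y, |⟪p, fderiv ℝ S.ext y v⟫| ≤ ‖p‖ * (C * ‖v‖) := fun y =>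
    (abs_real_inner_le_norm _ _).trans (mul_le_mul_of_nonneg_left
      (((fderiv ℝ S.ext y).le_opNorm v).trans (mul_le_mul_of_nonneg_right
        (norm_fderiv_le_of_lipschitz ℝ hC) (norm_nonneg _))) (norm_nonneg _))
  have hint : ∀ (g : E → ℝ) (K : ℝ), Measurable g → (∀ y, S.N y < 1 → |g y| ≤ K) →
      Integrable g (volume.restrict S.N.ball) := fun g K hg hb =>
    Integrable.of_bound hg.aestronglyMeasurable K
      ((ae_restrict_mem S.N.measurableSet_ball).mono fun y hy => by
        simpa [Real.norm_eq_abs] using hb y hy)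
  have hemp : Measurable e := hem.comp (f := fun y => (y, p)) (measurable_id.prodMk measurable_const)
  have hdmp : Measurable d := hdm.comp (f := fun y => (y, p)) (measurable_id.prodMk measurable_const)
  have hqmp : Measurable (fun y => ⟪p, fderiv ℝ S.ext y v⟫) :=
    hqm.comp (f := fun y => (y, p)) (measurable_id.prodMk measurable_const)
  have hdb : ∀ y, S.N y < 1 → |d y| ≤ ‖p‖ * (C * ‖v‖) + a := fun y hy => by
    simp only [hd, inner_sub_right]
    exact (abs_sub _ _).trans (add_le_add (hbq y) (heM y hy))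
  have hd2 := hint (fun y => d y ^ 2) ((‖p‖ * (C * ‖v‖) + a) ^ 2) (hdmp.pow_const 2) fun y hy => by
    rw [abs_pow]; exact pow_le_pow_left₀ (abs_nonneg _) (hdb y hy) 2
  have he2 := hint (fun y => e y ^ 2) (a ^ 2) (hemp.pow_const 2) fun y hy => by
    rw [abs_pow]; exact pow_le_pow_left₀ (abs_nonneg _) (heM y hy) 2
  have hq2 := hint (fun y => ⟪p, fderiv ℝ S.ext y v⟫ ^ 2) ((‖p‖ * (C * ‖v‖)) ^ 2)
    (hqmp.pow_const 2) fun y _ => by
    rw [abs_pow]; exact pow_le_pow_left₀ (abs_nonneg _) (hbq y) 2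
  have hkey : ∫ y in S.N.ball, ⟪p, fderiv ℝ S.ext y v⟫ ^ 2
      = (∫ y in S.N.ball, d y ^ 2) + ∫ y in S.N.ball, e y ^ 2 := by
    have hp2 : ∀ y, ⟪p, fderiv ℝ S.ext y v⟫ ^ 2 = (d y ^ 2 + e y ^ 2) + 2 * (e y * d y) :=
      fun y => by simp only [hd, he, inner_sub_right]; ring
    rw [integral_congr_ae (Eventually.of_forall hp2),
      integral_add (f := fun y => d y ^ 2 + e y ^ 2) (g := fun y => 2 * (e y * d y))
        (hd2.add he2) (hi.const_mul 2), integral_add hd2 he2, integral_const_mul, h0]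
    ring
  rw [← ofReal_integral_eq_lintegral_ofReal hq2 (Eventually.of_forall fun _ => sq_nonneg _),
    ← ofReal_integral_eq_lintegral_ofReal hd2 (Eventually.of_forall fun _ => sq_nonneg _),
    ← ofReal_integral_eq_lintegral_ofReal he2 (Eventually.of_forall fun _ => sq_nonneg _),
    ← ENNReal.ofReal_add (integral_nonneg fun _ => sq_nonneg _)
      (integral_nonneg fun _ => sq_nonneg _), hkey]

theorem energy_le (S : Setup E) :
    (∫⁻ φ in S.N.dualBall, ∫⁻ y in S.N.ball, ∫⁻ p in S.M.dualBall,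
        ENNReal.ofReal (⟪p, fderiv ℝ S.ext y (S.N.vv φ) - S.eI y (S.N.vv φ)⟫ ^ 2))
      + volume S.M.ball * S.M.J ≤ ENNReal.ofReal S.symm.ratio * (volume S.N.ball * S.N.J) := by
  refine le_trans (le_of_eq ?_) S.energy_ext_le
  rw [← S.energy_chord, ← lintegral_add_left]
  · exact lintegral_congr fun φ => (S.energy_split φ).symm
  · refine Measurable.lintegral_prod_right' (f := fun r : E × E => ∫⁻ p in S.M.dualBall,
      ENNReal.ofReal (⟪p, fderiv ℝ S.ext r.2 (S.N.vv r.1) - S.eI r.2 (S.N.vv r.1)⟫ ^ 2)) ?_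
    refine Measurable.lintegral_prod_right' (f := fun r : (E × E) × E =>
      ENNReal.ofReal (⟪r.2, fderiv ℝ S.ext r.1.2 (S.N.vv r.1.1) - S.eI r.1.2 (S.N.vv r.1.1)⟫ ^ 2)) ?_
    have hr : Measurable (fun r : (E × E) × E => (r.2, r.1.2, r.1.1)) :=
      measurable_snd.prodMk ((measurable_snd.comp measurable_fst).prodMk
        (measurable_fst.comp measurable_fst))
    simp only [inner_sub_right]
    exact (((S.measurable_q.comp hr).sub (S.measurable_e.comp hr)).pow_const 2).ennreal_ofReal

theorem energy_zero (S : Setup E) :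
    ∫⁻ φ in S.N.dualBall, ∫⁻ y in S.N.ball, ∫⁻ p in S.M.dualBall,
      ENNReal.ofReal (⟪p, fderiv ℝ S.ext y (S.N.vv φ) - S.eI y (S.N.vv φ)⟫ ^ 2) = 0 := by
  set X := ∫⁻ φ in S.N.dualBall, ∫⁻ y in S.N.ball, ∫⁻ p in S.M.dualBall,
    ENNReal.ofReal (⟪p, fderiv ℝ S.ext y (S.N.vv φ) - S.eI y (S.N.vv φ)⟫ ^ 2)
  have h1 : X + volume S.M.ball * S.M.J
      ≤ ENNReal.ofReal S.symm.ratio * (volume S.N.ball * S.N.J) := S.energy_le
  have h2 : volume S.N.ball * S.N.J ≤ ENNReal.ofReal S.ratio * (volume S.M.ball * S.M.J) :=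
    le_trans le_add_self S.symm.energy_le
  have hrr : ENNReal.ofReal S.symm.ratio * ENNReal.ofReal S.ratio = 1 := by
    rw [← ENNReal.ofReal_mul S.symm.ratio_pos.le, ← ENNReal.ofReal_one]
    congr 1
    change (volume S.N.ball).toReal / (volume S.M.ball).toReal
      * ((volume S.M.ball).toReal / (volume S.N.ball).toReal) = 1
    have ha := (ENNReal.toReal_pos S.N.ball_pos.ne' S.N.ball_lt_top.ne).ne'
    have hb := (ENNReal.toReal_pos S.M.ball_pos.ne' S.M.ball_lt_top.ne).ne'
    field_simp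
  have h3 := h1.trans (mul_le_mul' le_rfl h2)
  rw [← mul_assoc, hrr, one_mul] at h3
  have hfin : volume S.M.ball * S.M.J ≠ ∞ := ENNReal.mul_ne_top S.M.ball_lt_top.ne S.M.J_ne_top
  exact le_antisymm (ENNReal.le_of_add_le_add_right hfin (by rwa [zero_add])) bot_le

/-- The extension follows the chords of almost every direction. -/
theorem ext_eq_yI (S : Setup E) :
    ∀ᵐ φ : E, φ ∈ S.N.dualBall → ∀ y, S.N y < 1 → S.ext y = S.yI y (S.N.vv φ) := by
  have hr : Measurable (fun r : (E × E) × E => (r.2, r.1.2, r.1.1)) :=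
    measurable_snd.prodMk ((measurable_snd.comp measurable_fst).prodMk
      (measurable_fst.comp measurable_fst))
  have hm3 : Measurable (fun r : (E × E) × E => ENNReal.ofReal
      (⟪r.2, fderiv ℝ S.ext r.1.2 (S.N.vv r.1.1) - S.eI r.1.2 (S.N.vv r.1.1)⟫ ^ 2)) := by
    simp only [inner_sub_right]
    exact (((S.measurable_q.comp hr).sub (S.measurable_e.comp hr)).pow_const 2).ennreal_ofReal
  have hm2 : Measurable (fun r : E × E => ∫⁻ p in S.M.dualBall, ENNReal.ofReal
      (⟪p, fderiv ℝ S.ext r.2 (S.N.vv r.1) - S.eI r.2 (S.N.vv r.1)⟫ ^ 2)) :=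
    hm3.lintegral_prod_right'
  have hz := (setLIntegral_eq_zero_iff S.N.measurableSet_dualBall
    hm2.lintegral_prod_right').1 S.energy_zero
  filter_upwards [hz, S.N.ae_alexSet] with φ hφz hφA hK
  set v := S.N.vv φ
  have hv : S.N v = 1 := S.N.vv_unit φ
  have hstat : ∀ᵐ y, S.N y < 1 → fderiv ℝ S.ext y v = S.eI y v := by
    have h1 := (setLIntegral_eq_zero_iff S.N.measurableSet_ball
      (hm2.comp (f := fun y => (φ, y)) (measurable_const.prodMk measurable_id))).1 (hφz hK)
    filter_upwards [h1] with y hy hlt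
    have h2 := (setLIntegral_eq_zero_iff S.M.measurableSet_dualBall
      (hm3.comp (f := fun p => ((φ, y), p)) (measurable_const.prodMk measurable_id))).1 (hy hlt)
    refine sub_eq_zero.1 (S.M.eq_zero_of_ae_inner ?_)
    filter_upwards [h2] with p hp hmem
    have h4 := hp hmem
    simp only [Function.comp_apply, ENNReal.ofReal_eq_zero] at h4
    exact pow_eq_zero_iff two_ne_zero |>.1 (le_antisymm h4 (sq_nonneg _))
  obtain ⟨L, hL, hR⟩ := S.exists_R_bounds
  set a := S.N.dual φ
  have ha : 0 < a := S.N.dual.pos (S.N.ne_zero_of_mem hφA)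
  have hav : ⟪φ, v⟫ = a := (S.N.vv_isMax (S.N.diff_of_mem hφA)).2
  suffices hu : ∀ u y, S.N y < 1 → ⟪u, S.R v y⟫ = 0 by
    intro y hy
    exact sub_eq_zero.1 (ext_inner_left ℝ fun u => by rw [inner_zero_right]; exact hu u y hy)
  intro u
  set c := S.M.dual u * L
  have hc : 0 ≤ c := mul_nonneg (S.M.dual.nonneg u) hL
  set b : E → ℝ := fun y => ⟪u, S.R v y⟫ with hb
  have hbm : Measurable b := measurable_inner' measurable_const (S.measurable_R v)
  have hbp : ∀ y, S.N y < 1 → |b y| ≤ c * S.tp y v ∧ |b y| ≤ c * S.tm y v := fun y hy => by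
    have h := S.M.abs_inner_le_dual u (S.R v y)
    obtain ⟨h1, h2, -⟩ := hR hv y hy
    exact ⟨h.trans (by rw [mul_assoc]; exact mul_le_mul_of_nonneg_left h1 (S.M.dual.nonneg u)),
      h.trans (by rw [mul_assoc]; exact mul_le_mul_of_nonneg_left h2 (S.M.dual.nonneg u))⟩
  have hb2 : ∀ y, S.N y < 1 → |b y| ≤ c * 2 := fun y hy =>
    ((hbp y hy).1).trans (mul_le_mul_of_nonneg_left (Nrm.exitT_le_two hy hv) hc)
  have haY : ∀ y, S.N y < 1 → |⟪φ, y⟫| ≤ a := fun y hy =>
    (S.N.abs_inner_le_dual φ y).trans (mul_le_of_le_one_right ha.le hy.le)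
  have hbsq : ∀ y, S.N y < 1 → |b y ^ 2| ≤ c * 2 * |b y| := fun y hy => by
    rw [abs_pow, sq]; exact mul_le_mul_of_nonneg_right (hb2 y hy) (abs_nonneg _)
  obtain ⟨hi, h0⟩ := S.line_zero hv (f := fun y => ⟪φ, y⟫ * b y ^ 2) (d := fun y => a * b y ^ 2)
    (C := 8 * a * c ^ 2) (by positivity)
    ((continuous_const.inner continuous_id).measurable.mul (hbm.pow_const 2))
    (fun y hy => by
      rw [abs_mul]
      have ht := (tp_pos (S := S) hy hv).le
      calc |⟪φ, y⟫| * |b y ^ 2| ≤ a * (c * 2 * (c * S.tp y v)) :=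
            mul_le_mul (haY y hy) ((hbsq y hy).trans
              (mul_le_mul_of_nonneg_left (hbp y hy).1 (by positivity))) (abs_nonneg _) ha.le
        _ ≤ 8 * a * c ^ 2 * S.tp y v := by
            linarith [mul_nonneg (mul_nonneg ha.le (sq_nonneg c)) ht])
    (fun y hy => by
      rw [abs_mul]
      have ht := (tm_pos (S := S) hy hv).le
      calc |⟪φ, y⟫| * |b y ^ 2| ≤ a * (c * 2 * (c * S.tm y v)) :=
            mul_le_mul (haY y hy) ((hbsq y hy).trans
              (mul_le_mul_of_nonneg_left (hbp y hy).2 (by positivity))) (abs_nonneg _) ha.le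
        _ ≤ 8 * a * c ^ 2 * S.tm y v := by
            linarith [mul_nonneg (mul_nonneg ha.le (sq_nonneg c)) ht])
    (fun y s hy hz => by
      have hdb : |b (y + s • v) - b y| ≤ c * |s| := by
        simp only [hb]
        rw [← inner_sub_right, mul_assoc]
        exact (S.M.abs_inner_le_dual u _).trans
          (mul_le_mul_of_nonneg_left ((hR hv y hy).2.2 s hz) (S.M.dual.nonneg u))
      have hsum : |b (y + s • v) + b y| ≤ c * 4 :=
        (abs_add_le _ _).trans (by linarith [hb2 y hy, hb2 _ hz])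
      have e1 : ⟪φ, y + s • v⟫ * b (y + s • v) ^ 2 - ⟪φ, y⟫ * b y ^ 2
          = s * a * b (y + s • v) ^ 2
            + ⟪φ, y⟫ * ((b (y + s • v) - b y) * (b (y + s • v) + b y)) := by
        rw [inner_add_right, real_inner_smul_right, hav]; ring
      rw [e1]
      refine (abs_add_le _ _).trans ?_
      rw [abs_mul, abs_mul, abs_mul, abs_mul, abs_of_pos ha, abs_pow]
      have k1 : |s| * a * |b (y + s • v)| ^ 2 ≤ |s| * a * (c * 2) ^ 2 :=
        mul_le_mul_of_nonneg_left (pow_le_pow_left₀ (abs_nonneg _) (hb2 _ hz) 2) (by positivity)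
      have k2 : |⟪φ, y⟫| * (|b (y + s • v) - b y| * |b (y + s • v) + b y|)
          ≤ a * (c * |s| * (c * 4)) :=
        mul_le_mul (haY y hy) (mul_le_mul hdb hsum (abs_nonneg _) (by positivity)) (by positivity)
          ha.le
      linarith)
    (by
      filter_upwards [S.ae_fderiv_ext, hstat] with y hy hs hlt
      have h1 : HasDerivAt (fun s : ℝ => b (y + s • v)) 0 0 := by
        have h := (innerSL ℝ u).hasFDerivAt.comp_hasDerivAt (0 : ℝ) (hasDerivAt_R hlt hv hy.1)
        rw [hs hlt, sub_self, map_zero] at h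
        exact h
      have h2 : HasDerivAt (fun s : ℝ => ⟪φ, y + s • v⟫) a 0 := by
        simp only [inner_add_right, real_inner_smul_right, hav]
        simpa using ((hasDerivAt_id (0 : ℝ)).mul_const a).const_add ⟪φ, y⟫
      have h3 := h2.fun_mul (h1.fun_pow 2)
      simpa using h3)
  have hb0 : ∀ᵐ y, S.N y < 1 → b y = 0 := by
    have h1 := (integral_eq_zero_iff_of_nonneg (fun y => mul_nonneg ha.le (sq_nonneg _)) hi).1 h0
    filter_upwards [(ae_restrict_iff' S.N.measurableSet_ball).1 h1] with y hy hlt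
    have := hy hlt
    simpa [ha.ne'] using this
  have hbc : ContinuousOn b S.N.ball :=
    continuousOn_const.inner (S.continuous_ext.continuousOn.sub
      (continuousOn_yI.comp (f := fun y => (y, v)) (by fun_prop) fun y hy => ⟨hy, hv⟩))
  have hO : IsOpen (S.N.ball ∩ b ⁻¹' {0}ᶜ) :=
    hbc.isOpen_inter_preimage S.N.isOpen_ball isOpen_compl_singleton
  have hO0 : volume (S.N.ball ∩ b ⁻¹' {0}ᶜ) = 0 :=
    measure_mono_null (t := {y | ¬ (S.N y < 1 → b y = 0)})
      (fun y hy (hc : S.N y < 1 → b y = 0) => hy.2 (hc hy.1)) (ae_iff.1 hb0)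
  rw [hO.measure_eq_zero_iff (volume : Measure E)] at hO0
  intro y hy
  by_contra hne
  exact (eq_empty_iff_forall_notMem.1 hO0) y ⟨hy, hne⟩

end Setup

end Vale.Agent.P084
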