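import Vale.Agent.P084.Basic

/-!
The exit time of a ray from the unit ball, and a pointwise implicit differentiation lemma.
-/

open scoped RealInnerProductSpace NNReal
open Set Filter Topology MeasureTheory Asymptotics

set_option linter.unusedSectionVars false

namespace Vale.Agent.P084

namespace Nrm

variable {E : Type*} [NormedAddCommGroup E] [InnerProductSpace ℝ E] [FiniteDimensional ℝ E]
  (N : Nrm E)

/-- gradient inequality at a differentiability point -/
theorem gradient_inner_le {x : E} (hd : DifferentiableAt ℝ (fun z => N z) x) (y : E) :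
    ⟪gradient (fun z => N z) x, y⟫ ≤ N y := by
  have h : HasDerivAt (fun t : ℝ => N (x + t • y)) ⟪gradient (fun z => N z) x, y⟫ 0 := by
    have h1 : HasDerivAt (fun t : ℝ => x + t • y) y 0 := by
      simpa using ((hasDerivAt_id (0 : ℝ)).smul_const y).const_add x
    have h2 : HasFDerivAt (fun z => N z) (fderiv ℝ (fun z => N z) x) (x + (0 : ℝ) • y) := by
      simpa using hd.hasFDerivAt
    have h3 := h2.comp_hasDerivAt 0 h1
    rw [gradient, InnerProductSpace.toDual_symm_apply]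
    exact h3
  refine le_of_tendsto (hasDerivAt_iff_tendsto_slope_zero.1 h |>.mono_left
    (nhdsWithin_mono _ (fun t (ht : t ∈ Ioi (0 : ℝ)) => ne_of_gt ht))) ?_
  filter_upwards [self_mem_nhdsWithin] with t ht
  have ht : 0 < t := ht
  simp only [zero_add, zero_smul, add_zero, smul_eq_mul]
  have h4 := N.add_le x (t • y)
  rw [N.smul_nonneg ht.le] at h4
  rw [inv_mul_le_iff₀ ht]
  linarith

theorem gradient_inner_self {x : E} (hd : DifferentiableAt ℝ (fun z => N z) x) :
    ⟪gradient (fun z => N z) x, x⟫ = N x := by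
  have h : HasDerivAt (fun t : ℝ => N (x + t • x)) ⟪gradient (fun z => N z) x, x⟫ 0 := by
    have h1 : HasDerivAt (fun t : ℝ => x + t • x) x 0 := by
      simpa using ((hasDerivAt_id (0 : ℝ)).smul_const x).const_add x
    have h2 : HasFDerivAt (fun z => N z) (fderiv ℝ (fun z => N z) x) (x + (0 : ℝ) • x) := by
      simpa using hd.hasFDerivAt
    have h3 := h2.comp_hasDerivAt 0 h1
    rw [gradient, InnerProductSpace.toDual_symm_apply]
    exact h3
  have h' : HasDerivAt (fun t : ℝ => N (x + t • x)) (N x) 0 := by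
    have hlin : HasDerivAt (fun t : ℝ => (1 + t) * N x) (N x) 0 := by
      simpa using ((hasDerivAt_id (0 : ℝ)).const_add 1).mul_const (N x)
    refine hlin.congr_of_eventuallyEq ?_
    filter_upwards [Ioo_mem_nhds (show (-1 : ℝ) < 0 by norm_num) one_pos] with t ht
    have : x + t • x = (1 + t) • x := by module
    rw [this, N.smul_nonneg (by linarith [ht.1])]
  exact h.unique h'

open Classical in
/-- exit time (zero outside the meaningful domain) -/
noncomputable def exitT (y v : E) : ℝ :=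
  if N y < 1 ∧ N v = 1 then sSup {s : ℝ | N (y + s • v) ≤ 1} else 0

/-- forward exit point -/
noncomputable def exitP (y v : E) : E := y + N.exitT y v • v

variable {N}

theorem exitT_def {y v : E} (hy : N y < 1) (hv : N v = 1) :
    N.exitT y v = sSup {s : ℝ | N (y + s • v) ≤ 1} := by
  rw [exitT, if_pos ⟨hy, hv⟩]

theorem line_le {y v : E} (hv : N v = 1) {s : ℝ} (hs : N (y + s • v) ≤ 1) : |s| ≤ 1 + N y := by
  have h := N.sub_le_add (y + s • v) y
  rw [add_sub_cancel_left, N.smul, hv, mul_one] at h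
  linarith

theorem exit_bdd {y v : E} (hv : N v = 1) : BddAbove {s : ℝ | N (y + s • v) ≤ 1} :=
  ⟨1 + N y, fun _ hs => le_of_abs_le (line_le hv hs)⟩

theorem exit_mem {y v : E} (hy : N y < 1) (hv : N v = 1) :
    N (y + N.exitT y v • v) ≤ 1 := by
  rw [exitT_def hy hv]
  exact (isClosed_le (N.continuous.comp (by fun_prop)) continuous_const).csSup_mem
    ⟨0, by simp [hy.le]⟩ (exit_bdd hv)

theorem exitT_pos {y v : E} (hy : N y < 1) (hv : N v = 1) : 0 < N.exitT y v := by
  have hmem : N (y + (1 - N y) • v) ≤ 1 := by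
    refine (N.add_le _ _).trans ?_
    rw [N.smul_nonneg (by linarith), hv]
    linarith
  rw [exitT_def hy hv]
  exact lt_of_lt_of_le (by linarith) (le_csSup (exit_bdd hv) hmem)

theorem exitP_norm {y v : E} (hy : N y < 1) (hv : N v = 1) : N (N.exitP y v) = 1 := by
  refine le_antisymm (exit_mem hy hv) ?_
  by_contra h
  have hlt : N (y + N.exitT y v • v) < 1 := not_le.1 h
  set d := 1 - N (y + N.exitT y v • v) with hd
  have : N (y + (N.exitT y v + d) • v) ≤ 1 := by
    have e : y + (N.exitT y v + d) • v = (y + N.exitT y v • v) + d • v := by module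
    rw [e]
    refine (N.add_le _ _).trans ?_
    rw [N.smul_nonneg (by linarith), hv]
    linarith
  have := le_csSup (exit_bdd hv) this
  rw [← exitT_def hy hv] at this
  linarith

theorem line_interp (y v : E) {a b c : ℝ} (hab : a ≤ b) (hbc : b ≤ c) (hac : a < c) :
    N (y + b • v) ≤ (c - b) / (c - a) * N (y + a • v) + (b - a) / (c - a) * N (y + c • v) := by
  have hne : c - a ≠ 0 := by linarith
  have e : y + b • v = ((c - b) / (c - a)) • (y + a • v) + ((b - a) / (c - a)) • (y + c • v) := by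
    match_scalars <;> field_simp <;> ring
  rw [e]
  exact N.convex_comb_le (div_nonneg (by linarith) (by linarith))
    (div_nonneg (by linarith) (by linarith))

theorem lt_one_of_lt_exit {y v : E} (hy : N y < 1) (hv : N v = 1) {s : ℝ} (h0 : 0 ≤ s)
    (hs : s < N.exitT y v) : N (y + s • v) < 1 := by
  have hT := exitT_pos hy hv
  have h := line_interp (N := N) y v h0 hs.le hT
  rw [zero_smul, add_zero, ← exitP, exitP_norm hy hv, sub_zero, sub_zero] at h
  refine h.trans_lt ?_
  have h1 : 0 < (N.exitT y v - s) / N.exitT y v := div_pos (by linarith) hT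
  have h2 := mul_lt_mul_of_pos_left hy h1
  rw [mul_one] at h2
  have h3 : (N.exitT y v - s) / N.exitT y v + s / N.exitT y v = 1 := by field_simp; ring
  linarith

theorem exitT_unique {y v : E} (hy : N y < 1) (hv : N v = 1) {s : ℝ} (h0 : 0 ≤ s)
    (hs : N (y + s • v) = 1) : N.exitT y v = s := by
  rcases lt_trichotomy s (N.exitT y v) with h | h | h
  · exact absurd hs (lt_one_of_lt_exit hy hv h0 h).ne
  · exact h.symm
  · have := le_csSup (exit_bdd hv) (show N (y + s • v) ≤ 1 from hs.le)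
    rw [← exitT_def hy hv] at this
    exact le_antisymm h.le this

theorem exitP_unique {y v : E} (hy : N y < 1) (hv : N v = 1) {s : ℝ} (h0 : 0 ≤ s)
    (hs : N (y + s • v) = 1) : N.exitP y v = y + s • v := by
  rw [exitP, exitT_unique hy hv h0 hs]

theorem exitT_le_two {y v : E} (hy : N y < 1) (hv : N v = 1) : N.exitT y v ≤ 2 := by
  have := le_of_abs_le (line_le hv (exit_mem hy hv))
  linarith

theorem exitT_sub_le {y₁ y₂ v₁ v₂ : E} {δ : ℝ} (hδ : 0 < δ) (h1 : N y₁ ≤ 1 - δ)
    (h2 : N y₂ ≤ 1 - δ) (hv1 : N v₁ = 1) (hv2 : N v₂ = 1) :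
    N.exitT y₁ v₁ - N.exitT y₂ v₂ ≤ 2 / δ * (N (y₁ - y₂) + 2 * N (v₁ - v₂)) := by
  set a := N.exitT y₂ v₂
  set c := N.exitT y₁ v₁
  have ha := exitT_pos (y := y₂) (by linarith) hv2
  have hc := exitT_pos (y := y₁) (by linarith) hv1
  have hc2 : c ≤ 2 := exitT_le_two (by linarith) hv1
  have ha2 : a ≤ 2 := exitT_le_two (by linarith) hv2
  have hη : 0 ≤ N (y₁ - y₂) + 2 * N (v₁ - v₂) := by
    have := N.nonneg (y₁ - y₂); have := N.nonneg (v₁ - v₂); linarith
  rcases le_total c a with h | h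
  · exact le_trans (by linarith) (mul_nonneg (div_nonneg two_pos.le hδ.le) hη)
  · have hgc : N (y₁ + c • v₁) = 1 := exitP_norm (by linarith) hv1
    have hga : N (y₂ + a • v₂) = 1 := exitP_norm (by linarith) hv2
    have hdiff : 1 - (N (y₁ - y₂) + 2 * N (v₁ - v₂)) ≤ N (y₁ + a • v₁) := by
      have e : (y₂ + a • v₂) = (y₁ + a • v₁) + ((y₂ - y₁) + a • (v₂ - v₁)) := by module
      have h3 := N.add_le (y₁ + a • v₁) ((y₂ - y₁) + a • (v₂ - v₁))
      rw [← e, hga] at h3
      have h4 := N.add_le (y₂ - y₁) (a • (v₂ - v₁))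
      rw [N.smul_nonneg ha.le, N.sub_comm y₂ y₁, N.sub_comm v₂ v₁] at h4
      have h5 := mul_le_mul_of_nonneg_right ha2 (N.nonneg (v₁ - v₂))
      linarith
    have h6 := line_interp (N := N) y₁ v₁ ha.le h hc
    rw [hgc, zero_smul, add_zero, sub_zero, sub_zero] at h6
    have h7 : (c - a) / c * N y₁ ≤ (c - a) / c * (1 - δ) :=
      mul_le_mul_of_nonneg_left h1 (div_nonneg (by linarith) hc.le)
    have h8 : (c - a) / c * δ ≤ N (y₁ - y₂) + 2 * N (v₁ - v₂) := by
      have h9 : (c - a) / c + a / c = 1 := by rw [← add_div, sub_add_cancel, div_self hc.ne']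
      nlinarith
    rw [div_mul_eq_mul_div, le_div_iff₀ hδ]
    rw [div_mul_eq_mul_div, div_le_iff₀ hc] at h8
    have h10 := mul_le_mul_of_nonneg_left hc2 hη
    linarith

theorem abs_exitT_sub_le {y₁ y₂ v₁ v₂ : E} {δ : ℝ} (hδ : 0 < δ) (h1 : N y₁ ≤ 1 - δ)
    (h2 : N y₂ ≤ 1 - δ) (hv1 : N v₁ = 1) (hv2 : N v₂ = 1) :
    |N.exitT y₁ v₁ - N.exitT y₂ v₂| ≤ 2 / δ * (N (y₁ - y₂) + 2 * N (v₁ - v₂)) := by
  rw [abs_le]
  refine ⟨?_, exitT_sub_le hδ h1 h2 hv1 hv2⟩
  have := exitT_sub_le hδ h2 h1 hv2 hv1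
  rw [N.sub_comm y₂ y₁, N.sub_comm v₂ v₁] at this
  linarith

/-- the domain of the exit functions -/
def dom (N : Nrm E) : Set (E × E) := {q | N q.1 < 1 ∧ N q.2 = 1}

theorem continuousOn_exitT : ContinuousOn (fun q : E × E => N.exitT q.1 q.2) N.dom := by
  intro q hq
  set δ := (1 - N q.1) / 2 with hδ
  have hδp : 0 < δ := by rw [hδ]; linarith [hq.1]
  have hcN := N.continuous
  have hc : ContinuousAt (fun z : E × E => 2 / δ * (N (z.1 - q.1) + 2 * N (z.2 - q.2))) q := by
    fun_prop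
  have h0 : Tendsto (fun z : E × E => 2 / δ * (N (z.1 - q.1) + 2 * N (z.2 - q.2))) (𝓝[N.dom] q)
      (𝓝 0) := by
    have := hc.tendsto.mono_left (nhdsWithin_le_nhds (s := N.dom))
    simpa [N.map_zero] using this
  rw [ContinuousWithinAt, tendsto_iff_norm_sub_tendsto_zero]
  refine squeeze_zero' (Eventually.of_forall fun z => norm_nonneg _) ?_ h0
  have hev : ∀ᶠ z in 𝓝[N.dom] q, N z.1 < 1 - δ :=
    ((by fun_prop : ContinuousAt (fun z : E × E => N z.1) q).eventually_lt continuousAt_const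
      (by rw [hδ]; linarith [hq.1])).filter_mono nhdsWithin_le_nhds
  filter_upwards [hev, self_mem_nhdsWithin] with z hz hzd
  rw [Real.norm_eq_abs]
  exact abs_exitT_sub_le hδp hz.le (by rw [hδ]; linarith [hq.1]) hzd.2 hq.2

theorem continuousOn_exitP : ContinuousOn (fun q : E × E => N.exitP q.1 q.2) N.dom :=
  continuous_fst.continuousOn.add (continuousOn_exitT.smul continuous_snd.continuousOn)

theorem measurable_exitT [MeasurableSpace E] [BorelSpace E] :
    Measurable (fun q : E × E => N.exitT q.1 q.2) := by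
  classical
  have : SecondCountableTopology E := inferInstance
  have hd : MeasurableSet N.dom :=
    (measurableSet_lt (N.continuous.measurable.comp measurable_fst) measurable_const).inter
      (measurableSet_eq_fun (N.continuous.measurable.comp measurable_snd) measurable_const)
  have h := ContinuousOn.measurable_piecewise (s := N.dom) (g := fun _ : E × E => (0 : ℝ))
    continuousOn_exitT continuous_const.continuousOn hd
  convert h using 1
  ext q
  by_cases hq : q ∈ N.dom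
  · rw [piecewise_eq_of_mem _ _ _ hq]
  · rw [piecewise_eq_of_notMem _ _ _ hq]
    exact if_neg hq

theorem measurable_exitP [MeasurableSpace E] [BorelSpace E] :
    Measurable (fun q : E × E => N.exitP q.1 q.2) :=
  measurable_fst.add (measurable_exitT.smul measurable_snd)

/-- Pointwise implicit differentiation of `N (b q + r q • u q) = 1`. -/
theorem hasFDerivAt_root {Q : Type*} [NormedAddCommGroup Q] [NormedSpace ℝ Q]
    {r : Q → ℝ} {b u : Q → E} {b' u' : Q →L[ℝ] E} {q₀ : Q} {ψ : E}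
    (hr : ContinuousAt r q₀) (hb : HasFDerivAt b b' q₀) (hu : HasFDerivAt u u' q₀)
    (hroot : ∀ᶠ q in 𝓝 q₀, N (b q + r q • u q) = 1)
    (hN : HasFDerivAt (fun z => N z) (innerSL ℝ ψ) (b q₀ + r q₀ • u q₀))
    (hne : ⟪ψ, u q₀⟫ ≠ 0) :
    HasFDerivAt r ((-(⟪ψ, u q₀⟫)⁻¹) • ((innerSL ℝ ψ).comp (b' + r q₀ • u'))) q₀ := by
  set c := ⟪ψ, u q₀⟫ with hc
  set ℓ := (-c⁻¹) • ((innerSL ℝ ψ).comp (b' + r q₀ • u')) with hℓ
  set f : Q × ℝ → ℝ := fun p => N (b p.1 + p.2 • u p.1) with hf
  have hg : HasFDerivAt (fun p : Q × ℝ => b p.1 + p.2 • u p.1)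
      (b'.comp (ContinuousLinearMap.fst ℝ Q ℝ) +
        (r q₀ • u'.comp (ContinuousLinearMap.fst ℝ Q ℝ) +
          (ContinuousLinearMap.snd ℝ Q ℝ).smulRight (u q₀))) (q₀, r q₀) :=
    (hb.comp (q₀, r q₀) hasFDerivAt_fst).add
      (hasFDerivAt_snd.smul (hu.comp (q₀, r q₀) hasFDerivAt_fst))
  have hcomp := hN.comp (q₀, r q₀) hg
  rw [hasFDerivAt_iff_isLittleO] at hcomp
  have ht : Tendsto (fun q => (q, r q)) (𝓝 q₀) (𝓝 (q₀, r q₀)) := by
    rw [nhds_prod_eq]
    exact tendsto_id.prodMk hr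
  rw [hasFDerivAt_iff_isLittleO, Asymptotics.isLittleO_iff]
  intro ε hε
  set K := ‖ℓ‖ with hK
  have hK0 : 0 ≤ K := norm_nonneg _
  set e1 := min (1 / 2) (ε / (2 * K + 3)) with he1'
  have he1 : 0 < e1 := by positivity
  have hcpos : 0 < |c| := abs_pos.2 hne
  filter_upwards [ht.eventually (hcomp.def (mul_pos he1 hcpos)), hroot] with q hq hq1
  have hq0 : N (b q₀ + r q₀ • u q₀) = 1 := hroot.self_of_nhds
  have e0 : ∀ d : Q, ∀ s : ℝ, ⟪ψ, b' d + (r q₀ • u' d + s • u q₀)⟫ = c * (s - ℓ d) := by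
    intro d s
    have hl : ℓ d = -c⁻¹ * (⟪ψ, b' d⟫ + r q₀ * ⟪ψ, u' d⟫) := by
      simp [hℓ]
      ring
    rw [hl, inner_add_right, inner_add_right, real_inner_smul_right, real_inner_smul_right, ← hc]
    field_simp
    ring
  have hq' : |c| * |(r q - r q₀) - ℓ (q - q₀)| ≤ e1 * |c| * ‖((q, r q) : Q × ℝ) - (q₀, r q₀)‖ := by
    have h : ‖N (b q + r q • u q) - N (b q₀ + r q₀ • u q₀)
        - ⟪ψ, b' (q - q₀) + (r q₀ • u' (q - q₀) + (r q - r q₀) • u q₀)⟫‖
        ≤ e1 * |c| * ‖((q, r q) : Q × ℝ) - (q₀, r q₀)‖ := hq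
    rw [e0, hq1, hq0, sub_self, zero_sub, norm_neg, Real.norm_eq_abs, abs_mul] at h
    exact h
  set Z := |(r q - r q₀) - ℓ (q - q₀)| with hZ
  have hZ1 : Z ≤ e1 * (‖q - q₀‖ + |r q - r q₀|) := by
    have hn : ‖((q, r q) : Q × ℝ) - (q₀, r q₀)‖ ≤ ‖q - q₀‖ + |r q - r q₀| := by
      rw [Prod.mk_sub_mk, Prod.norm_mk, Real.norm_eq_abs]
      exact max_le (le_add_of_nonneg_right (abs_nonneg _)) (le_add_of_nonneg_left (norm_nonneg _))
    have := hq'.trans (mul_le_mul_of_nonneg_left hn (by positivity))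
    exact le_of_mul_le_mul_left (by linarith) hcpos
  have hl : |ℓ (q - q₀)| ≤ K * ‖q - q₀‖ := ℓ.le_opNorm _
  have hd : |r q - r q₀| ≤ Z + K * ‖q - q₀‖ := by
    have := abs_add_le ((r q - r q₀) - ℓ (q - q₀)) (ℓ (q - q₀))
    rw [sub_add_cancel] at this
    linarith
  have h12 : e1 ≤ 1 / 2 := min_le_left _ _
  have h13 : e1 * (2 * K + 3) ≤ ε := (le_div_iff₀ (by positivity)).1 (min_le_right _ _)
  rw [Real.norm_eq_abs, ← hZ]
  have hZ0 : 0 ≤ Z := abs_nonneg _
  nlinarith [mul_le_mul_of_nonneg_left hd he1.le, mul_le_mul_of_nonneg_right h12 hZ0,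
    mul_le_mul_of_nonneg_right h13 (norm_nonneg (q - q₀)), norm_nonneg (q - q₀)]

end Nrm

end Vale.Agent.P084
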