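import Vale.Agent.P084.Jacobian

/-!
If the chord maps of almost all directions agree with one continuous map, that map is linear.
-/

open scoped RealInnerProductSpace NNReal ENNReal
open Set Filter Topology MeasureTheory ContinuousLinearMap Module

set_option linter.unusedSectionVars false

namespace Vale.Agent.P084

variable {E : Type*} [NormedAddCommGroup E] [InnerProductSpace ℝ E] [FiniteDimensional ℝ E]
  [Nontrivial E] [MeasurableSpace E] [BorelSpace E]

namespace Nrm

variable (N : Nrm E)

/-- `f` does not change along the direction `u`, near each point of the ball -/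
def Flat (f : E → E) (u : E) : Prop :=
  ∀ y ∈ N.ball, ∀ᶠ p : E × ℝ in 𝓝 (y, 0), f (p.1 + p.2 • u) = f p.1

theorem convex_ball : Convex ℝ N.ball := by
  intro x hx y hy a b ha hb hab
  change N (a • x + b • y) < 1
  refine (N.convex_comb_le ha hb).trans_lt ?_
  rcases ha.eq_or_lt with h | h
  · subst h
    have hb1 : b = 1 := by linarith
    simpa [hb1] using (show N y < 1 from hy)
  · have h1 : a * N x < a * 1 := mul_lt_mul_of_pos_left hx h
    have h2 : b * N y ≤ b * 1 := mul_le_mul_of_nonneg_left (le_of_lt hy) hb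
    linarith

theorem const_of_span {T : Set E} (hT : Submodule.span ℝ T = ⊤) {f : E → E}
    (hf : ∀ u ∈ T, N.Flat f u) : ∀ y ∈ N.ball, f y = f 0 := by
  have hall : ∀ u, N.Flat f u := by
    intro u
    have hu : u ∈ Submodule.span ℝ T := by rw [hT]; trivial
    induction hu using Submodule.span_induction with
    | mem x hx => exact hf x hx
    | zero => exact fun y _ => Eventually.of_forall fun p => by simp
    | add u w _ _ hu hw =>
      intro y hy
      have ht : Tendsto (fun p : E × ℝ => (p.1 + p.2 • u, p.2)) (𝓝 (y, 0)) (𝓝 (y, 0)) := by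
        have hc : Continuous (fun p : E × ℝ => (p.1 + p.2 • u, p.2)) := by fun_prop
        simpa using hc.tendsto (y, 0)
      filter_upwards [hu y hy, ht.eventually (hw y hy)] with p h1 h2
      rw [smul_add, ← add_assoc, h2, h1]
    | smul a u _ hu =>
      intro y hy
      have ht : Tendsto (fun p : E × ℝ => (p.1, p.2 * a)) (𝓝 (y, 0)) (𝓝 (y, 0)) := by
        have hc : Continuous (fun p : E × ℝ => (p.1, p.2 * a)) := by fun_prop
        simpa using hc.tendsto (y, 0)
      filter_upwards [ht.eventually (hu y hy)] with p h1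
      rw [smul_smul]
      exact h1
  set b := Module.finBasis ℝ E
  have key : ∀ s : Finset (Fin (finrank ℝ E)), ∀ y ∈ N.ball,
      ∀ᶠ c : Fin (finrank ℝ E) → ℝ in 𝓝 0, f (y + ∑ i ∈ s, c i • b i) = f y := by
    intro s
    induction s using Finset.induction_on with
    | empty => exact fun y _ => Eventually.of_forall fun c => by simp
    | @insert a s ha ih =>
      intro y hy
      have ht : Tendsto (fun c : Fin (finrank ℝ E) → ℝ => (y + ∑ i ∈ s, c i • b i, c a)) (𝓝 0)
          (𝓝 (y, 0)) := by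
        have hc : Continuous (fun c : Fin (finrank ℝ E) → ℝ =>
          (y + ∑ i ∈ s, c i • b i, c a)) := by fun_prop
        simpa using hc.tendsto 0
      filter_upwards [ih y hy, ht.eventually (hall (b a) y hy)] with c h1 h2
      rw [Finset.sum_insert ha, add_comm (c a • b a), ← add_assoc, h2, h1]
  have loc : ∀ y ∈ N.ball, HasFDerivAt f (0 : E →L[ℝ] E) y := by
    intro y hy
    have ht : Tendsto (fun z => b.equivFun (z - y)) (𝓝 y) (𝓝 0) := by
      have hc : Continuous (fun z => b.equivFun (z - y)) :=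
        (b.equivFun.toLinearMap.continuous_of_finiteDimensional).comp
          (continuous_id.sub continuous_const)
      have h := hc.tendsto y
      rwa [sub_self, _root_.map_zero] at h
    refine (hasFDerivAt_const (f y) y).congr_of_eventuallyEq ?_
    filter_upwards [ht.eventually (key Finset.univ y hy)] with z hz
    rwa [b.sum_equivFun, add_sub_cancel] at hz
  intro y hy
  refine N.convex_ball.is_const_of_fderivWithin_eq_zero
    (fun z hz => (loc z hz).differentiableAt.differentiableWithinAt) (fun z hz => ?_) hy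
    (show N (0 : E) < 1 by rw [N.map_zero]; exact one_pos)
  exact (loc z hz).hasFDerivWithinAt.fderivWithin (N.isOpen_ball.uniqueDiffWithinAt hz)

theorem span_vv {P : E → Prop} (hP : ∀ᵐ φ : E, P φ) :
    Submodule.span ℝ {v | ∃ φ, N.dual φ ≤ 1 ∧ P φ ∧ N.vv φ = v} = ⊤ := by
  set T := {v | ∃ φ, N.dual φ ≤ 1 ∧ P φ ∧ N.vv φ = v}
  by_contra h
  obtain ⟨u, hu, hu0⟩ := (Submodule.span ℝ T)ᗮ.exists_mem_ne_zero_of_ne_bot
    (fun hb => h (Submodule.orthogonal_eq_bot_iff.1 hb))
  have hd : 0 < N.dual u := N.dual.pos hu0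
  set φ₀ := (2 * N.dual u)⁻¹ • u with hφ₀
  have hφ₀d : N.dual φ₀ = 1 / 2 := by
    rw [hφ₀, N.dual.smul_nonneg (by positivity)]
    field_simp
  have hopen : IsOpen {φ : E | N.dual (φ - φ₀) < 1 / 5} :=
    isOpen_lt (N.dual.continuous.comp (continuous_id.sub continuous_const)) continuous_const
  obtain ⟨φ, ⟨hφP, hφA⟩, hφU⟩ := (Measure.dense_of_ae (hP.and N.ae_alexSet)).exists_mem_open hopen
    ⟨φ₀, show N.dual (φ₀ - φ₀) < 1 / 5 by rw [sub_self, N.dual.map_zero]; norm_num⟩
  replace hφU : N.dual (φ - φ₀) < 1 / 5 := hφU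
  have e1 := N.dual.abs_sub_le φ φ₀
  rw [hφ₀d, abs_le] at e1
  have hv : N.vv φ ∈ Submodule.span ℝ T :=
    Submodule.subset_span ⟨φ, by linarith, hφP, rfl⟩
  have horth : ⟪φ₀, N.vv φ⟫ = 0 := by
    rw [hφ₀, real_inner_smul_left, real_inner_comm,
      Submodule.inner_right_of_mem_orthogonal hv hu, mul_zero]
  have hmax := N.vv_isMax (N.diff_of_mem hφA)
  have h1 := N.inner_le_dual (φ - φ₀) (N.vv φ)
  rw [inner_sub_left, horth, hmax.2, hmax.1, mul_one, sub_zero] at h1
  linarith

theorem exitT_shift {N : Nrm E} {y v : E} (hy : N y < 1) (hv : N v = 1) {s : ℝ}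
    (hys : N (y + s • v) < 1) : N.exitT (y + s • v) v = N.exitT y v - s := by
  have hT := exitT_pos (N := N) hy hv
  have hX : N (y + N.exitT y v • v) = 1 := exitP_norm hy hv
  refine exitT_unique hys hv ?_ ?_
  · by_contra hc
    have hlt : N.exitT y v < s := by linarith [not_le.1 hc]
    have hs : 0 < s := hT.trans hlt
    have h := line_interp (N := N) y v hT.le hlt.le hs
    rw [zero_smul, add_zero, sub_zero, sub_zero, hX] at h
    have h1 : (s - N.exitT y v) / s * N y < (s - N.exitT y v) / s * 1 :=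
      mul_lt_mul_of_pos_left hy (div_pos (by linarith) hs)
    have h2 : N.exitT y v / s * N (y + s • v) ≤ N.exitT y v / s * 1 :=
      mul_le_mul_of_nonneg_left hys.le (div_nonneg hT.le hs.le)
    have h3 : (s - N.exitT y v) / s + N.exitT y v / s = 1 := by
      rw [← add_div, sub_add_cancel, div_self hs.ne']
    linarith
  · rw [show y + s • v + (N.exitT y v - s) • v = y + N.exitT y v • v by module, hX]

end Nrm

namespace Setup

variable {S : Setup E}

theorem shift {y v : E} (hy : S.N y < 1) (hv : S.N v = 1) {s : ℝ}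
    (hys : S.N (y + s • v) < 1) :
    S.eI (y + s • v) v = S.eI y v ∧ S.yI (y + s • v) v = S.yI y v + s • S.eI y v := by
  have e1 : S.tp (y + s • v) v = S.tp y v - s := Nrm.exitT_shift hy hv hys
  have hrw : y + s • v = y + (-s) • (-v) := by module
  have e2 : S.tm (y + s • v) v = S.tm y v + s := by
    have h := Nrm.exitT_shift (N := S.N) (v := -v) hy (by rwa [S.N.neg]) (s := -s)
      (by rwa [← hrw])
    rw [← hrw, sub_neg_eq_add] at h
    exact h
  have eX : S.X (y + s • v) v = S.X y v := by
    change y + s • v + S.tp (y + s • v) v • v = y + S.tp y v • v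
    rw [e1]; module
  have eW : S.W (y + s • v) v = S.W y v := by
    change y + s • v + S.tm (y + s • v) v • (-v) = y + S.tm y v • (-v)
    rw [e2]; module
  have eE : S.eI (y + s • v) v = S.eI y v := by
    rw [eI, eI, D, D, eX, eW, e1, e2, sub_add_add_cancel]
  refine ⟨eE, ?_⟩
  rw [yI, yI, eW, eE, e2, add_smul, add_assoc]

theorem continuousOn_eI {v : E} (hv : S.N v = 1) :
    ContinuousOn (fun y => S.eI y v) S.N.ball := by
  have hw : S.N (-v) = 1 := by rwa [S.N.neg]
  have hp : ∀ {w : E}, S.N w = 1 → ContinuousOn (fun y => S.N.exitT y w) S.N.ball := fun {w} h =>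
    ContinuousOn.comp (g := fun q : E × E => S.N.exitT q.1 q.2) (f := fun z : E => (z, w))
      Nrm.continuousOn_exitT (by fun_prop) (fun z hz => (⟨hz, h⟩ : (z, w) ∈ S.N.dom))
  have hF : ∀ {w : E}, S.N w = 1 →
      ContinuousOn (fun y => S.F (S.N.exitP y w)) S.N.ball := fun {w} h =>
    S.continuous_F.comp_continuousOn (continuousOn_id.add ((hp h).smul continuousOn_const))
  exact (((hp hv).add (hp hw)).inv₀ (fun y hy => (D_pos (S := S) hy hv).ne')).smul
    ((hF hv).sub (hF hw))

/-- a direction along which the map is the chord map, with extreme image directions -/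
def Dir (S : Setup E) (G : E → E) (v : E) : Prop :=
  S.N v = 1 ∧ (∀ y, S.N y < 1 → G y = S.yI y v) ∧
    ∀ᵐ y : E, S.N y < 1 → ∀ a b, S.M a = 1 → S.M b = 1 →
      a + b = S.eI y v + S.eI y v → a = S.eI y v

theorem Dir.line {G : E → E} {v y : E} (h : Dir S G v) {s : ℝ} (hy : S.N y < 1)
    (hys : S.N (y + s • v) < 1) : G (y + s • v) = G y + s • S.eI y v := by
  rw [h.2.1 _ hys, (shift hy h.1 hys).2, h.2.1 _ hy]

theorem Dir.mid {G : E → E} {v w y : E} (hv : Dir S G v) (hw : Dir S G w) {s : ℝ}
    (hy : S.N y < 1) (h1 : S.N (y + s • w) < 1) (h2 : S.N (y + (-s) • w) < 1) :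
    S.eI (y + s • w) v + S.eI (y + (-s) • w) v = S.eI y v + S.eI y v := by
  have hev : ∀ z, S.N z < 1 → ∀ᶠ h in 𝓝[≠] (0 : ℝ), S.N (z + h • v) < 1 := by
    intro z hz
    have hc : ContinuousAt (fun h : ℝ => S.N (z + h • v)) 0 :=
      (S.N.continuous.comp (by fun_prop)).continuousAt
    exact (hc.eventually_lt continuousAt_const (by simpa using hz)).filter_mono nhdsWithin_le_nhds
  obtain ⟨h, ⟨⟨ha, hb⟩, hc⟩, hne⟩ :=
    ((((hev y hy).and (hev _ h1)).and (hev _ h2)).and self_mem_nhdsWithin).exists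
  have c1 : y + s • w + h • v = y + h • v + s • w := by abel
  have c2 : y + (-s) • w + h • v = y + h • v + (-s) • w := by abel
  have l1 := hw.line (s := s) ha (c1 ▸ hb)
  have l2 := hw.line (s := -s) ha (c2 ▸ hc)
  rw [← c1, hv.line h1 hb, hw.line hy h1, hv.line hy ha] at l1
  rw [← c2, hv.line h2 hc, hw.line hy h2, hv.line hy ha] at l2
  have hne : h ≠ 0 := hne
  have : h • (S.eI (y + s • w) v + S.eI (y + (-s) • w) v) = h • (S.eI y v + S.eI y v) := by
    rw [← sub_eq_zero] at l1 l2
    have l3 : (0 : E) = 0 + 0 := (add_zero 0).symm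
    nth_rw 2 [← l1] at l3
    nth_rw 2 [← l2] at l3
    rw [← sub_eq_zero]
    refine Eq.trans ?_ l3.symm
    module
  exact smul_right_injective E hne this

theorem Dir.flat {G : E → E} {v w : E} (hv : Dir S G v) (hw : Dir S G w) :
    S.N.Flat (fun y => S.eI y v) w := by
  intro y hy
  replace hy : S.N y < 1 := hy
  have hev : ∀ c : ℝ, ∀ᶠ p : E × ℝ in 𝓝 (y, 0), S.N (p.1 + (c * p.2) • w) < 1 := fun c =>
    (S.N.continuous.comp (by fun_prop : Continuous fun p : E × ℝ => p.1 + (c * p.2) • w)
      ).continuousAt.eventually_lt continuousAt_const (by simpa using hy)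
  filter_upwards [hev 0, hev 1, hev (-1)] with p h0 h1 h2
  simp only [zero_mul, zero_smul, add_zero, one_mul, neg_one_mul] at h0 h1 h2
  set s := p.2
  set U : Set E := {z | S.N z < 1} ∩ ({z | S.N (z + s • w) < 1} ∩ {z | S.N (z + (-s) • w) < 1})
    with hU
  have hUo : IsOpen U :=
    S.N.isOpen_ball.inter
      ((isOpen_lt (S.N.continuous.comp (by fun_prop)) continuous_const).inter
        (isOpen_lt (S.N.continuous.comp (by fun_prop)) continuous_const))
  have hae : (fun z => S.eI (z + s • w) v) =ᵐ[volume.restrict U] fun z => S.eI z v := by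
    refine (ae_restrict_iff' hUo.measurableSet).2 ?_
    filter_upwards [hv.2.2] with z hz hzU
    exact hz hzU.1 _ _ (M_eI hzU.2.1 hv.1) (M_eI hzU.2.2 hv.1)
      (hv.mid hw hzU.1 hzU.2.1 hzU.2.2)
  have hc1 : ContinuousOn (fun z => S.eI (z + s • w) v) U :=
    (continuousOn_eI hv.1).comp (by fun_prop) (fun z hz => hz.2.1)
  exact Measure.eqOn_open_of_ae_eq hae hUo hc1
    ((continuousOn_eI hv.1).mono inter_subset_left) (show p.1 ∈ U from ⟨h0, h1, h2⟩)

theorem linear_of_ext (S : Setup E) {G : E → E} (hG : Continuous G)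
    (hb : ∀ x, S.N x = 1 → G x = S.F x)
    (hφ : ∀ᵐ φ : E, φ ∈ S.N.dualBall → ∀ y, S.N y < 1 → G y = S.yI y (S.N.vv φ)) :
    ∃ L : E →ₗ[ℝ] E, ∀ x, S.F x = L x := by
  set T : Set E := {v | Dir S G v} with hT
  have hgood : ∀ᵐ φ : E, ∀ᵐ y : E, S.N y < 1 → S.N.dual φ ≤ 1 → (y, φ) ∈ S.Good := by
    have hm : MeasurableSet {q : E × E | S.N q.1 < 1 → S.N.dual q.2 ≤ 1 → q ∈ S.Good} :=
      (measurableSet_lt (S.N.continuous.measurable.comp measurable_fst) measurable_const).imp
        ((measurableSet_le (S.N.dual.continuous.measurable.comp measurable_snd) measurable_const).imp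
          S.measurableSet_Good)
    have h := S.ae_good
    rw [Measure.volume_eq_prod, Measure.ae_prod_iff_ae_ae hm,
      Measure.ae_ae_comm (p := fun y φ => S.N y < 1 → S.N.dual φ ≤ 1 → (y, φ) ∈ S.Good) hm] at h
    exact h
  have hspan : Submodule.span ℝ T = ⊤ := by
    refine eq_top_iff.2 ((S.N.span_vv (hφ.and hgood)).ge.trans (Submodule.span_mono ?_))
    rintro _ ⟨φ, hK, ⟨hA, hgd⟩, rfl⟩
    refine ⟨S.N.vv_unit φ, hA hK, ?_⟩
    filter_upwards [hgd] with y hy hy1 a b ha hb' hab
    have hq := hy hy1 hK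
    set e := S.eI y (S.N.vv φ)
    set p := S.pI y φ
    have hmax : S.M.IsMax p e := (Pre.facts hq.1).isMax
    have hd := S.M.diff_of_mem (show p ∈ S.M.alexSet from hq.2)
    have l1 := S.M.inner_le_dual p a
    have l2 := S.M.inner_le_dual p b
    rw [ha, mul_one] at l1
    rw [hb', mul_one] at l2
    have hsum : ⟪p, a⟫ + ⟪p, b⟫ = S.M.dual p + S.M.dual p := by
      rw [← inner_add_right, hab, inner_add_right, hmax.2]
    rw [S.M.isMax_eq_vv hd ⟨ha, by linarith⟩, S.M.isMax_eq_vv hd hmax]
  set b := Module.Basis.ofSpan hspan.ge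
  have hbT : ∀ i, Dir S G (b i) := fun i =>
    Module.Basis.ofSpan_subset hspan.ge ⟨i, rfl⟩
  set L : E →ₗ[ℝ] E := b.constr ℝ (fun i => S.eI 0 (b i)) with hL
  have h0 : S.N (0 : E) < 1 := by rw [S.N.map_zero]; exact one_pos
  have hflat : ∀ u ∈ range b, S.N.Flat (fun y => G y - L y) u := by
    rintro _ ⟨i, rfl⟩ y hy
    replace hy : S.N y < 1 := hy
    have hev1 : ∀ᶠ p : E × ℝ in 𝓝 (y, 0), S.N p.1 < 1 :=
      (S.N.continuous.comp continuous_fst).continuousAt.eventually_lt continuousAt_const hy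
    have hev2 : ∀ᶠ p : E × ℝ in 𝓝 (y, 0), S.N (p.1 + p.2 • b i) < 1 :=
      (S.N.continuous.comp (by fun_prop : Continuous fun p : E × ℝ => p.1 + p.2 • b i)
        ).continuousAt.eventually_lt continuousAt_const (by simpa using hy)
    filter_upwards [hev1, hev2] with p h1 h2
    have hc : S.eI p.1 (b i) = S.eI 0 (b i) :=
      S.N.const_of_span (f := fun z => S.eI z (b i)) hspan (fun w hw => (hbT i).flat hw) _ h1
    have hLb : L (b i) = S.eI 0 (b i) := b.constr_basis ℝ _ i
    rw [(hbT i).line h1 h2, hc, map_add, map_smul, hLb]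
    abel
  set c := G 0 with hc
  have hball : ∀ y, S.N y < 1 → G y = L y + c := by
    intro y hy
    have h : G y - L y = G 0 - L 0 :=
      S.N.const_of_span (f := fun z => G z - L z) b.span_eq hflat y hy
    rw [map_zero, sub_zero, sub_eq_iff_eq_add, add_comm] at h
    exact h
  have hLc : Continuous L := L.continuous_of_finiteDimensional
  have hsph : ∀ x, S.N x = 1 → S.F x = L x + c := by
    intro x hx
    have ht : Tendsto (fun t : ℝ => t • x) (𝓝[<] 1) (𝓝 x) := by
      have hcx : Continuous (fun t : ℝ => t • x) := by fun_prop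
      simpa using (hcx.tendsto 1).mono_left nhdsWithin_le_nhds
    rw [← hb x hx]
    refine tendsto_nhds_unique (((hG.tendsto x).comp ht).congr' ?_)
      (((hLc.add continuous_const).tendsto x).comp ht)
    filter_upwards [Ioo_mem_nhdsLT zero_lt_one] with t ht
    exact hball _ (by rw [S.N.smul_nonneg ht.1.le, hx, mul_one]; exact ht.2)
  have hnorm : ∀ x, S.M (L x) = S.N x := by
    have hu : ∀ x, S.N x = 1 → S.M (L x) = 1 := by
      intro x hx
      have hx' : S.N (-x) = 1 := by rw [S.N.neg, hx]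
      have h := S.hiso x (-x) hx hx'
      rw [hsph x hx, hsph (-x) hx', map_neg, show L x + c - (-L x + c) = (2 : ℝ) • L x by module,
        show x - -x = (2 : ℝ) • x by module, S.M.smul_nonneg two_pos.le,
        S.N.smul_nonneg two_pos.le, hx] at h
      linarith
    intro x
    rcases eq_or_ne x 0 with h | h
    · rw [h, map_zero, S.M.map_zero, S.N.map_zero]
    · have := hu _ (S.N.norm_unit h)
      rw [map_smul, S.M.smul_nonneg (inv_nonneg.2 (S.N.nonneg x)),
        inv_mul_eq_one₀ (S.N.pos h).ne'] at this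
      exact this.symm
  have hinj : Function.Injective L := (injective_iff_map_eq_zero L).2 fun x hx => by
    rw [← S.N.eq_zero_iff, ← hnorm, hx, S.M.map_zero]
  have hc0 : c = 0 := by
    by_contra hne
    have hpos := S.M.pos hne
    obtain ⟨x, hx⟩ := LinearMap.injective_iff_surjective.1 hinj ((S.M c)⁻¹ • c)
    have hx1 : S.N x = 1 := by rw [← hnorm, hx]; exact S.M.norm_unit hne
    have h := S.hMF x
    rw [hsph x hx1, hx, hx1, show (S.M c)⁻¹ • c + c = ((S.M c)⁻¹ + 1) • c by module,
      S.M.smul_nonneg (by positivity), add_mul, inv_mul_cancel₀ hpos.ne', one_mul] at h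
    linarith
  refine ⟨L, fun x => ?_⟩
  rcases eq_or_ne x 0 with h | h
  · rw [h, S.F_zero, map_zero]
  · have hu := hsph _ (S.N.norm_unit h)
    rw [S.hsmul _ _ (inv_nonneg.2 (S.N.nonneg x)), hc0, add_zero, map_smul] at hu
    exact smul_right_injective E (inv_ne_zero (S.N.pos h).ne') hu

end Setup

end Vale.Agent.P084
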