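import Vale.Agent.P084.Potential

/-!
The barycentric extension of the boundary map to the ball.
-/

open scoped RealInnerProductSpace NNReal ENNReal
open Set Filter Topology MeasureTheory ContinuousLinearMap Module

set_option linter.unusedSectionVars false

namespace Vale.Agent.P084

variable {E : Type*} [NormedAddCommGroup E] [InnerProductSpace ℝ E] [FiniteDimensional ℝ E]
  [Nontrivial E] [MeasurableSpace E] [BorelSpace E]

namespace Nrm

variable (N : Nrm E)

theorem eq_zero_of_ae_inner {u : E} (h : ∀ᵐ p : E, p ∈ N.dualBall → ⟪p, u⟫ = 0) : u = 0 := by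
  set O : Set E := {p | N.dual p < 1} ∩ {p | ⟪p, u⟫ ≠ 0}
  have hO : IsOpen O := (isOpen_lt N.dual.continuous continuous_const).inter
    (isOpen_ne_fun (continuous_id.inner continuous_const) continuous_const)
  have h0 : volume O = 0 := by
    refine measure_mono_null ?_ (ae_iff.1 h)
    exact fun p hp hc => hp.2 (hc (le_of_lt (show N.dual p < 1 from hp.1)))
  rw [hO.measure_eq_zero_iff (volume : Measure E)] at h0
  by_contra hu
  set c := (2 * (N.dual u + 1))⁻¹
  have hd := N.dual.nonneg u
  have hc : 0 < c := inv_pos.2 (by linarith)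
  have hmem : c • u ∈ O := by
    refine ⟨?_, ?_⟩
    · change N.dual (c • u) < 1
      rw [N.dual.smul_nonneg hc.le, ← lt_div_iff₀' hc]
      simp only [c, one_div, inv_inv]
      linarith
    · change ⟪c • u, u⟫ ≠ 0
      rw [real_inner_smul_left]
      exact mul_ne_zero hc.ne' (real_inner_self_pos.2 hu).ne'
  rw [h0] at hmem
  exact hmem.elim

theorem exists_norm_le_dualBall : ∃ R : ℝ, 0 ≤ R ∧ ∀ p ∈ N.dualBall, ‖p‖ ≤ R := by
  obtain ⟨c, hc, h⟩ := N.dual.exists_lower
  refine ⟨c⁻¹, (inv_pos.2 hc).le, fun p hp => ?_⟩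
  have h1 : c * ‖p‖ ≤ 1 := (h p).trans hp
  rw [← one_div, le_div_iff₀ hc]
  linarith

theorem measurableSet_ball : MeasurableSet N.ball := N.isOpen_ball.measurableSet

theorem measurableSet_dualBall : MeasurableSet N.dualBall := N.isCompact_dualBall.measurableSet

end Nrm

namespace Setup

variable (S : Setup E)

/-- second moment of the dual ball of the target -/
noncomputable def Cmap : E →L[ℝ] E := ∫ p in S.M.dualBall, (innerSL ℝ p).smulRight p

theorem integrable_Cmap :
    Integrable (fun p => (innerSL ℝ p).smulRight p) (volume.restrict S.M.dualBall) :=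
  (isBoundedBilinearMap_smulRight.continuous.comp
    ((innerSL ℝ).continuous.prodMk continuous_id)).continuousOn.integrableOn_compact
      S.M.isCompact_dualBall

theorem Cmap_apply (u : E) : S.Cmap u = ∫ p in S.M.dualBall, ⟪p, u⟫ • p := by
  rw [Cmap, ContinuousLinearMap.integral_apply S.integrable_Cmap]
  simp

theorem inner_Cmap (u w : E) :
    ⟪S.Cmap u, w⟫ = ∫ p in S.M.dualBall, ⟪p, u⟫ * ⟪p, w⟫ := by
  have hi : Integrable (fun p => ⟪p, u⟫ • p) (volume.restrict S.M.dualBall) :=
    ((continuous_id.inner continuous_const).smul continuous_id).continuousOn.integrableOn_compact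
      S.M.isCompact_dualBall
  rw [real_inner_comm, Cmap_apply, ← integral_inner hi w]
  refine integral_congr_ae (Eventually.of_forall fun p => ?_)
  simp only [real_inner_smul_right, real_inner_comm p w]

theorem Cmap_injective : Function.Injective S.Cmap := by
  rw [injective_iff_map_eq_zero]
  intro u hu
  have h0 : ∫ p in S.M.dualBall, ⟪p, u⟫ * ⟪p, u⟫ = 0 := by
    rw [← inner_Cmap, hu, inner_zero_left]
  have hi : IntegrableOn (fun p => ⟪p, u⟫ * ⟪p, u⟫) S.M.dualBall :=
    ((continuous_id.inner continuous_const).mul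
      (continuous_id.inner continuous_const)).continuousOn.integrableOn_compact
      S.M.isCompact_dualBall
  have h1 := (integral_eq_zero_iff_of_nonneg (fun p => mul_self_nonneg _) hi).1 h0
  refine S.M.eq_zero_of_ae_inner ?_
  filter_upwards [(ae_restrict_iff' S.M.measurableSet_dualBall).1 h1] with p hp hmem
  exact mul_self_eq_zero.1 (hp hmem)

/-- inverse of the second moment -/
noncomputable def Cinv : E →L[ℝ] E :=
  LinearMap.toContinuousLinearMap
    ((LinearEquiv.ofInjectiveEndo (S.Cmap : E →ₗ[ℝ] E) S.Cmap_injective).symm : E →ₗ[ℝ] E)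

theorem Cinv_Cmap (u : E) : S.Cinv (S.Cmap u) = u :=
  (LinearEquiv.ofInjectiveEndo (S.Cmap : E →ₗ[ℝ] E) S.Cmap_injective).symm_apply_apply u

theorem Cmap_Cinv (u : E) : S.Cmap (S.Cinv u) = u :=
  (LinearEquiv.ofInjectiveEndo (S.Cmap : E →ₗ[ℝ] E) S.Cmap_injective).apply_symm_apply u

/-- the potentials paired with the functionals -/
noncomputable def V (y : E) : E := ∫ p in S.M.dualBall, S.U p y • p

/-- the extension -/
noncomputable def ext (y : E) : E := S.Cinv (S.V y)

theorem continuous_U_left (y : E) : Continuous (fun p => S.U p y) :=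
  S.continuous_U.comp (continuous_id.prodMk continuous_const)

theorem integrable_V (y : E) :
    Integrable (fun p => S.U p y • p) (volume.restrict S.M.dualBall) :=
  ((S.continuous_U_left y).smul continuous_id).continuousOn.integrableOn_compact
    S.M.isCompact_dualBall

theorem ext_boundary {x : E} (hx : S.N x = 1) : S.ext x = S.F x := by
  have : S.V x = S.Cmap (S.F x) := by
    rw [V, Cmap_apply]
    simp only [S.U_boundary _ hx]
  rw [ext, this, Cinv_Cmap]

theorem exists_lipschitz_ext : ∃ C : ℝ≥0, LipschitzWith C S.ext := by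
  obtain ⟨C, hC, h⟩ := S.exists_lip_U
  obtain ⟨R, hR, hRb⟩ := S.M.exists_norm_le_dualBall
  set m := volume.real S.M.dualBall
  have hm : 0 ≤ m := measureReal_nonneg
  have hV : LipschitzWith (C * R * m).toNNReal S.V := by
    refine LipschitzWith.of_dist_le_mul fun a b => ?_
    rw [Real.coe_toNNReal _ (by positivity), dist_eq_norm, dist_eq_norm, V, V,
      ← integral_sub (S.integrable_V a) (S.integrable_V b)]
    refine (norm_setIntegral_le_of_norm_le_const (C := C * R * ‖a - b‖) S.M.dualBall_lt_top
      fun p hp => ?_).trans (le_of_eq (by ring))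
    rw [← sub_smul, norm_smul, Real.norm_eq_abs]
    refine (mul_le_mul ((h p a b).trans (mul_le_of_le_one_left (by positivity) hp)) (hRb p hp)
      (norm_nonneg _) (by positivity)).trans (le_of_eq (by ring))
  exact ⟨_, S.Cinv.lipschitz.comp hV⟩

theorem continuous_ext : Continuous S.ext := by
  obtain ⟨C, hC⟩ := S.exists_lipschitz_ext
  exact hC.continuous

theorem exists_ext_le : ∃ L : ℝ, 0 ≤ L ∧ ∀ a b, S.M (S.ext a - S.ext b) ≤ L * S.N (a - b) := by
  obtain ⟨C, hC⟩ := S.exists_lipschitz_ext
  obtain ⟨u, hu, hup⟩ := S.M.exists_upper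
  obtain ⟨c, hc, hlo⟩ := S.N.exists_lower
  refine ⟨u * C * c⁻¹, by positivity, fun a b => (hup _).trans ?_⟩
  have h1 : ‖S.ext a - S.ext b‖ ≤ C * ‖a - b‖ := by
    simpa [dist_eq_norm] using hC.dist_le_mul a b
  have h2 : ‖a - b‖ ≤ c⁻¹ * S.N (a - b) := by
    rw [le_inv_mul_iff₀ hc]; exact hlo _
  calc u * ‖S.ext a - S.ext b‖ ≤ u * (C * (c⁻¹ * S.N (a - b))) :=
        mul_le_mul_of_nonneg_left (h1.trans (mul_le_mul_of_nonneg_left h2 C.coe_nonneg)) hu.le
    _ = _ := by ring

theorem measurable_ext : Measurable S.ext := S.continuous_ext.measurable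

theorem measurable_fderiv_ext : Measurable (fderiv ℝ S.ext) := measurable_fderiv ℝ _

/-- derivative formula for the extension -/
theorem ae_fderiv_ext (S : Setup E) : ∀ᵐ y : E, DifferentiableAt ℝ S.ext y ∧
    ∀ v, S.Cmap (fderiv ℝ S.ext y v)
      = ∫ p in S.M.dualBall, ⟪gradient (S.U p) y, v⟫ • p := by
  obtain ⟨C, hC, h⟩ := S.exists_lip_U
  obtain ⟨R, hR, hRb⟩ := S.M.exists_norm_le_dualBall
  have : IsFiniteMeasure (volume.restrict S.M.dualBall) :=
    isFiniteMeasure_restrict.2 S.M.dualBall_lt_top.ne
  have hae : ∀ᵐ y : E, ∀ᵐ p ∂volume.restrict S.M.dualBall, DifferentiableAt ℝ (S.U p) y := by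
    rw [Measure.ae_ae_comm (p := fun y p => DifferentiableAt ℝ (S.U p) y)
      (S.measurableSet_diff_U.preimage measurable_swap)]
    exact Eventually.of_forall fun p => S.ae_diff_U p
  filter_upwards [hae] with y hy
  have hmeas : AEStronglyMeasurable (fun p => (fderiv ℝ (S.U p) y).smulRight p)
      (volume.restrict S.M.dualBall) := by
    have h1 : Measurable (fun p => fderiv ℝ (S.U p) y) :=
      (measurable_fderiv_with_param ℝ (f := S.U) S.continuous_U).comp (f := fun p => (p, y))
        (measurable_id.prodMk measurable_const)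
    exact (isBoundedBilinearMap_smulRight.continuous.measurable.comp
      (h1.prodMk measurable_id)).aestronglyMeasurable
  have hV := hasFDerivAt_integral_of_dominated_loc_of_lip (F := fun z p => S.U p z • p)
    (μ := volume.restrict S.M.dualBall) (bound := fun _ => C * R) (x₀ := y) univ_mem
    (Eventually.of_forall fun z => (S.integrable_V z).aestronglyMeasurable) (S.integrable_V y)
    hmeas ?_ (integrable_const _) (by
      filter_upwards [hy] with p hp
      exact hp.hasFDerivAt.smul_const p)
  swap
  · filter_upwards [ae_restrict_mem S.M.measurableSet_dualBall] with p hp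
    refine LipschitzOnWith.of_dist_le_mul fun a _ b _ => ?_
    rw [Real.coe_nnabs, abs_of_nonneg (by positivity), dist_eq_norm, dist_eq_norm, ← sub_smul,
      norm_smul, Real.norm_eq_abs]
    refine (mul_le_mul ((h p a b).trans (mul_le_of_le_one_left (by positivity) hp)) (hRb p hp)
      (norm_nonneg _) (by positivity)).trans (le_of_eq (by ring))
  obtain ⟨hi, hd⟩ := hV
  have hG : HasFDerivAt S.ext
      (S.Cinv.comp (∫ p in S.M.dualBall, (fderiv ℝ (S.U p) y).smulRight p)) y :=
    S.Cinv.hasFDerivAt.comp y hd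
  refine ⟨hG.differentiableAt, fun v => ?_⟩
  rw [hG.fderiv, comp_apply, Cmap_Cinv, ContinuousLinearMap.integral_apply hi]
  simp only [smulRight_apply, inner_gradient_left]

theorem measurable_grad_left (y v : E) : Measurable (fun p => ⟪gradient (S.U p) y, v⟫) :=
  measurable_inner' (f := fun p => gradient (S.U p) y) (g := fun _ => v)
    (S.measurable_grad_U.comp (f := fun p => (p, y)) (measurable_id.prodMk measurable_const))
    measurable_const

/-- Bessel inequality. -/
theorem bessel {y v z : E}
    (hz : S.Cmap z = ∫ p in S.M.dualBall, ⟪gradient (S.U p) y, v⟫ • p) :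
    ∫⁻ p in S.M.dualBall, ENNReal.ofReal (⟪p, z⟫ ^ 2)
      ≤ ∫⁻ p in S.M.dualBall, ENNReal.ofReal (⟪gradient (S.U p) y, v⟫ ^ 2) := by
  obtain ⟨C, hC, h⟩ := S.exists_lip_U
  obtain ⟨R, hR, hRb⟩ := S.M.exists_norm_le_dualBall
  have : IsFiniteMeasure (volume.restrict S.M.dualBall) :=
    isFiniteMeasure_restrict.2 S.M.dualBall_lt_top.ne
  set g : E → ℝ := fun p => ⟪gradient (S.U p) y, v⟫ with hg
  have hgm : Measurable g := S.measurable_grad_left y v
  have hgb : ∀ p ∈ S.M.dualBall, |g p| ≤ C * ‖v‖ := fun p hp => by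
    simp only [hg, inner_gradient_left]
    refine ((fderiv ℝ (S.U p) y).le_opNorm v).trans (mul_le_mul_of_nonneg_right ?_ (norm_nonneg _))
    exact (S.norm_fderiv_U hC h p y).trans (mul_le_of_le_one_left hC hp)
  set a : E → ℝ := fun p => ⟪p, z⟫ with ha
  have ham : Measurable a := (continuous_id.inner continuous_const).measurable
  have hab : ∀ p ∈ S.M.dualBall, |a p| ≤ R * ‖z‖ := fun p hp =>
    (abs_real_inner_le_norm p z).trans (mul_le_mul_of_nonneg_right (hRb p hp) (norm_nonneg _))
  have hint : ∀ (f : E → ℝ) (K : ℝ), Measurable f → (∀ p ∈ S.M.dualBall, |f p| ≤ K) →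
      Integrable f (volume.restrict S.M.dualBall) := fun f K hf hb =>
    Integrable.of_bound hf.aestronglyMeasurable K
      ((ae_restrict_mem S.M.measurableSet_dualBall).mono fun p hp => by
        simpa [Real.norm_eq_abs] using hb p hp)
  have hgi := hint g _ hgm hgb
  have haai := hint (fun p => a p ^ 2) ((R * ‖z‖) ^ 2) (ham.pow_const 2) fun p hp => by
    rw [abs_pow]; exact pow_le_pow_left₀ (abs_nonneg _) (hab p hp) 2
  have hggi := hint (fun p => g p ^ 2) ((C * ‖v‖) ^ 2) (hgm.pow_const 2) fun p hp => by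
    rw [abs_pow]; exact pow_le_pow_left₀ (abs_nonneg _) (hgb p hp) 2
  have hgai := hint (fun p => g p * a p) ((C * ‖v‖) * (R * ‖z‖)) (hgm.mul ham) fun p hp => by
    rw [abs_mul]; exact mul_le_mul (hgb p hp) (hab p hp) (abs_nonneg _) (by positivity)
  have hvi : Integrable (fun p => g p • p) (volume.restrict S.M.dualBall) :=
    Integrable.of_bound (hgm.smul measurable_id).aestronglyMeasurable ((C * ‖v‖) * R)
      ((ae_restrict_mem S.M.measurableSet_dualBall).mono fun p hp => by
        rw [norm_smul, Real.norm_eq_abs]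
        exact mul_le_mul (hgb p hp) (hRb p hp) (norm_nonneg _) (by positivity))
  have e1 : ∫ p in S.M.dualBall, g p * a p = ∫ p in S.M.dualBall, a p ^ 2 := by
    have h1 := S.inner_Cmap z z
    rw [hz, real_inner_comm, ← integral_inner hvi z] at h1
    simp only [real_inner_smul_right, ← sq] at h1
    rw [← h1]
    refine integral_congr_ae (Eventually.of_forall fun p => ?_)
    simp only [ha, hg, real_inner_comm p z]
  have e2 : ∫ p in S.M.dualBall, (g p - a p) ^ 2
      = (∫ p in S.M.dualBall, g p ^ 2) - ∫ p in S.M.dualBall, a p ^ 2 := by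
    have : ∀ p, (g p - a p) ^ 2 = (g p ^ 2 - 2 * (g p * a p)) + a p ^ 2 := fun p => by ring
    rw [integral_congr_ae (Eventually.of_forall this),
      integral_add (f := fun p => g p ^ 2 - 2 * (g p * a p)) (g := fun p => a p ^ 2)
        (hggi.sub (hgai.const_mul 2)) haai,
      integral_sub hggi (hgai.const_mul 2), integral_const_mul, e1]
    ring
  have h3 : 0 ≤ ∫ p in S.M.dualBall, (g p - a p) ^ 2 := integral_nonneg fun p => sq_nonneg _
  rw [← ofReal_integral_eq_lintegral_ofReal haai (Eventually.of_forall fun p => sq_nonneg _),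
    ← ofReal_integral_eq_lintegral_ofReal hggi (Eventually.of_forall fun p => sq_nonneg _)]
  exact ENNReal.ofReal_le_ofReal (by linarith)

end Setup

end Vale.Agent.P084
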