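import Vale.Agent.P084.Hess

/-!
The good set of chords, its measurability, and the symmetry of the correspondence.
-/

open scoped RealInnerProductSpace NNReal
open Set Filter Topology MeasureTheory ContinuousLinearMap

set_option linter.unusedSectionVars false

namespace Vale.Agent.P084

variable {E : Type*} [NormedAddCommGroup E] [InnerProductSpace ℝ E] [FiniteDimensional ℝ E]
  [Nontrivial E] [MeasurableSpace E] [BorelSpace E]

namespace Nrm

variable (N : Nrm E)

/-- A measurable set of Alexandrov points of full measure. -/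
def alexSet : Set E := (toMeasurable volume {φ | ¬ N.Alex φ})ᶜ

theorem measurableSet_alexSet : MeasurableSet N.alexSet := (measurableSet_toMeasurable _ _).compl

theorem ae_alexSet : ∀ᵐ φ : E ∂volume, φ ∈ N.alexSet := by
  change N.alexSet ∈ ae volume
  rw [alexSet, compl_mem_ae_iff, measure_toMeasurable]
  exact ae_iff.1 N.ae_alex

theorem alex_of_mem {φ : E} (h : φ ∈ N.alexSet) : N.Alex φ := by
  by_contra hc
  exact h (subset_toMeasurable _ _ hc)

theorem diff_of_mem {φ : E} (h : φ ∈ N.alexSet) :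
    DifferentiableAt ℝ (fun ψ => N.dual ψ) φ := (N.alex_of_mem h).2.1

theorem ne_zero_of_mem {φ : E} (h : φ ∈ N.alexSet) : φ ≠ 0 := (N.alex_of_mem h).1

end Nrm

namespace Setup

variable (S : Setup E)

/-- good chords, before the condition on the transported functional -/
def Pre : Set (E × E) :=
  {q | S.N q.1 < 1 ∧ S.N.dual q.2 ≤ 1 ∧ q.2 ∈ S.N.alexSet ∧
    S.GoodS (S.X q.1 (S.N.vv q.2)) ∧ S.GoodS (S.W q.1 (S.N.vv q.2))}

/-- good chords -/
def Good : Set (E × E) := S.Pre ∩ {q | S.pI q.1 q.2 ∈ S.M.alexSet}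

/-- the correspondence -/
noncomputable def Psi (q : E × E) : E × E := (S.yI q.1 (S.N.vv q.2), S.pI q.1 q.2)

theorem measurable_A : Measurable S.A := measurable_fderiv ℝ _

theorem measurable_psi : Measurable S.psi :=
  (InnerProductSpace.toDual ℝ E).symm.continuous.measurable.comp (measurable_fderiv ℝ _)

theorem measurable_X : Measurable (fun q : E × E => S.X q.1 q.2) := S.N.measurable_exitP

theorem measurable_W : Measurable (fun q : E × E => S.W q.1 q.2) :=
  S.N.measurable_exitP.comp (measurable_fst.prodMk measurable_snd.neg)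

theorem measurable_tp : Measurable (fun q : E × E => S.tp q.1 q.2) := S.N.measurable_exitT

theorem measurable_tm : Measurable (fun q : E × E => S.tm q.1 q.2) :=
  S.N.measurable_exitT.comp (measurable_fst.prodMk measurable_snd.neg)

theorem measurable_eI : Measurable (fun q : E × E => S.eI q.1 q.2) :=
  (S.measurable_tp.add S.measurable_tm).inv.smul
    ((S.continuous_F.measurable.comp S.measurable_X).sub
      (S.continuous_F.measurable.comp S.measurable_W))

theorem measurable_yI : Measurable (fun q : E × E => S.yI q.1 q.2) :=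
  (S.continuous_F.measurable.comp S.measurable_W).add (S.measurable_tm.smul S.measurable_eI)

theorem measurable_inner' {α : Type*} [MeasurableSpace α] {f g : α → E} (hf : Measurable f)
    (hg : Measurable g) : Measurable (fun a => ⟪f a, g a⟫) :=
  (continuous_inner.measurable).comp (hf.prodMk hg)

theorem measurable_Pm {α : Type*} [MeasurableSpace α] {fx fv fe : α → E} (hx : Measurable fx)
    (hv : Measurable fv) (he : Measurable fe) :
    Measurable (fun a => S.Pm (fx a) (fv a) (fe a)) := by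
  have h1 : Measurable (fun a => S.A (fx a)) := S.measurable_A.comp hx
  have h2 : Measurable (fun a => innerSL ℝ (S.psi (fx a))) :=
    (innerSL ℝ).continuous.measurable.comp (S.measurable_psi.comp hx)
  have happ : Measurable (fun a => S.A (fx a) (fv a)) :=
    (isBoundedBilinearMap_apply.continuous.measurable).comp (h1.prodMk hv)
  have h3 : Measurable (fun a => (⟪S.psi (fx a), fv a⟫)⁻¹ • (fe a - S.A (fx a) (fv a))) :=
    (measurable_inner' (S.measurable_psi.comp hx) hv).inv.smul (he.sub happ)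
  exact h1.add ((isBoundedBilinearMap_smulRight.continuous.measurable).comp (h2.prodMk h3))

theorem measurable_Pi {α : Type*} [MeasurableSpace α] {fx fv fe : α → E} (hx : Measurable fx)
    (hv : Measurable fv) (he : Measurable fe) :
    Measurable (fun a => S.Pi (fx a) (fv a) (fe a)) :=
  S.symm.measurable_Pm (S.continuous_F.measurable.comp hx) he hv

theorem measurable_vsnd : Measurable (fun q : E × E => (q.1, S.N.vv q.2)) :=
  measurable_fst.prodMk (S.N.measurable_vv.comp measurable_snd)

theorem measurable_pI : Measurable (fun q : E × E => S.pI q.1 q.2) := by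
  have h1 : Measurable (fun q : E × E =>
      adjoint (S.Pi (S.X q.1 (S.N.vv q.2)) (S.N.vv q.2) (S.eI q.1 (S.N.vv q.2)))) :=
    (adjoint : (E →L[ℝ] E) ≃ₗᵢ⋆[ℝ] E →L[ℝ] E).continuous.measurable.comp
      (S.measurable_Pi (S.measurable_X.comp S.measurable_vsnd)
        (S.N.measurable_vv.comp measurable_snd) (S.measurable_eI.comp S.measurable_vsnd))
  exact (isBoundedBilinearMap_apply.continuous.measurable).comp (h1.prodMk measurable_snd)

theorem measurable_Psi : Measurable S.Psi :=
  (S.measurable_yI.comp S.measurable_vsnd).prodMk S.measurable_pI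

theorem measurableSet_Pre : MeasurableSet S.Pre :=
  (measurableSet_lt (S.N.continuous.measurable.comp measurable_fst) measurable_const).inter
    ((measurableSet_le (S.N.dual.continuous.measurable.comp measurable_snd) measurable_const).inter
      ((measurable_snd S.N.measurableSet_alexSet).inter
        (((S.measurable_X.comp S.measurable_vsnd) S.measurableSet_goodS).inter
          ((S.measurable_W.comp S.measurable_vsnd) S.measurableSet_goodS))))

theorem measurableSet_Good : MeasurableSet S.Good :=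
  S.measurableSet_Pre.inter (S.measurable_pI S.M.measurableSet_alexSet)

variable {S}

theorem Pre.hv {q : E × E} (_h : q ∈ S.Pre) : S.N (S.N.vv q.2) = 1 := S.N.vv_unit _

theorem Pre.facts {q : E × E} (h : q ∈ S.Pre) : Facts S q.1 q.2 :=
  Setup.facts h.1 (S.N.diff_of_mem h.2.2.1) h.2.2.2.1 h.2.2.2.2

theorem Good.vv_eq {q : E × E} (h : q ∈ S.Good) :
    S.M.vv (S.Psi q).2 = S.eI q.1 (S.N.vv q.2) :=
  (S.M.isMax_eq_vv (S.M.diff_of_mem h.2) (Pre.facts h.1).isMax).symm

theorem Good.symm {q : E × E} (h : q ∈ S.Good) :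
    S.Psi q ∈ S.symm.Good ∧ S.symm.Psi (S.Psi q) = q ∧
      S.symm.X (S.Psi q).1 (S.M.vv (S.Psi q).2) = S.F (S.X q.1 (S.N.vv q.2)) ∧
      S.symm.W (S.Psi q).1 (S.M.vv (S.Psi q).2) = S.F (S.W q.1 (S.N.vv q.2)) ∧
      S.symm.eI (S.Psi q).1 (S.M.vv (S.Psi q).2) = S.N.vv q.2 := by
  have hf := Pre.facts h.1
  obtain ⟨hy, hK, hAN, hX, hW⟩ := h.1
  have hvv := Good.vv_eq h
  have hv : S.N (S.N.vv q.2) = 1 := S.N.vv_unit _
  obtain ⟨r1, r2, r3, r4⟩ := roundtrip (S := S) hy hv hf.yI_lt
  rw [hvv]
  change S.Psi q ∈ S.symm.Good ∧ S.symm.Psi (S.Psi q) = q ∧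
    S.symm.X (S.yI q.1 (S.N.vv q.2)) _ = _ ∧ S.symm.W (S.yI q.1 (S.N.vv q.2)) _ = _ ∧
      S.symm.eI (S.yI q.1 (S.N.vv q.2)) _ = _
  have hp : S.symm.pI (S.Psi q).1 (S.Psi q).2 = q.2 := by
    have e0 : S.symm.N.vv (S.Psi q).2 = S.eI q.1 (S.N.vv q.2) := hvv
    have e1 : (S.Psi q).1 = S.yI q.1 (S.N.vv q.2) := rfl
    have e2 : (S.Psi q).2
        = adjoint (S.Pi (S.X q.1 (S.N.vv q.2)) (S.N.vv q.2) (S.eI q.1 (S.N.vv q.2))) q.2 := rfl
    rw [pI, e0, e1, r1, r3, pOf, GoodS.Pi_symm, e2]
    apply ext_inner_right ℝ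
    intro u
    rw [adjoint_inner_left]
    exact pOf_Pm hX hf.psiX.ne' hf.psiX'.ne' u
  refine ⟨⟨⟨hf.yI_lt, ?_, h.2, ?_, ?_⟩, ?_⟩, ?_, r1, r2, r3⟩
  · change S.M.dual (S.pI q.1 q.2) ≤ 1
    rw [hf.dual_eq]; exact hK
  · change S.symm.GoodS (S.symm.X (S.yI q.1 (S.N.vv q.2)) (S.M.vv (S.Psi q).2))
    rw [hvv, r1]; exact hX.symm
  · change S.symm.GoodS (S.symm.W (S.yI q.1 (S.N.vv q.2)) (S.M.vv (S.Psi q).2))
    rw [hvv, r2]; exact hW.symm
  · change S.symm.pI (S.Psi q).1 (S.Psi q).2 ∈ S.N.alexSet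
    rw [hp]; exact hAN
  · refine Prod.ext ?_ hp
    change S.symm.yI (S.yI q.1 (S.N.vv q.2)) (S.M.vv (S.Psi q).2) = q.1
    rw [hvv]; exact r4

theorem bijOn_Psi (S : Setup E) : BijOn S.Psi S.Good S.symm.Good :=
  InvOn.bijOn (f' := S.symm.Psi)
    ⟨fun _ hq => (Good.symm hq).2.1, fun _ hp => (Good.symm (S := S.symm) hp).2.1⟩
    (fun _ hq => (Good.symm hq).1) (fun _ hp => (Good.symm (S := S.symm) hp).1)

end Setup

end Vale.Agent.P084
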