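import Vale.Agent.P084.Chord

/-!
Facts at a nondegenerate chord and transport of the Hessian of the dual norm.
-/

open scoped RealInnerProductSpace NNReal
open Set Filter Topology MeasureTheory Asymptotics ContinuousLinearMap

set_option linter.unusedSectionVars false

namespace Vale.Agent.P084

variable {E : Type*} [NormedAddCommGroup E] [InnerProductSpace ℝ E] [FiniteDimensional ℝ E]
  [Nontrivial E]

namespace Setup

variable (S : Setup E)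

/-- transported functional -/
noncomputable def pI (y φ : E) : E :=
  S.pOf (S.X y (S.N.vv φ)) (S.N.vv φ) (S.eI y (S.N.vv φ)) φ

variable {S}

/-- What holds at a chord with differentiable ends and exposed direction. -/
structure Facts (S : Setup E) (y φ : E) : Prop where
  psiX : 0 < ⟪S.psi (S.X y (S.N.vv φ)), S.N.vv φ⟫
  psiX' : 0 < ⟪S.symm.psi (S.F (S.X y (S.N.vv φ))), S.eI y (S.N.vv φ)⟫
  psiW : ⟪S.psi (S.W y (S.N.vv φ)), S.N.vv φ⟫ < 0
  psiW' : ⟪S.symm.psi (S.F (S.W y (S.N.vv φ))), S.eI y (S.N.vv φ)⟫ < 0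
  yI_lt : S.M (S.yI y (S.N.vv φ)) < 1
  isMax : S.M.IsMax (S.pI y φ) (S.eI y (S.N.vv φ))
  dual_eq : S.M.dual (S.pI y φ) = S.N.dual φ
  pI_W : S.pI y φ = S.pOf (S.W y (S.N.vv φ)) (S.N.vv φ) (S.eI y (S.N.vv φ)) φ

theorem facts {y φ : E} (hy : S.N y < 1)
    (hd : DifferentiableAt ℝ (fun ψ => S.N.dual ψ) φ)
    (hX : S.GoodS (S.X y (S.N.vv φ))) (hW : S.GoodS (S.W y (S.N.vv φ))) : Facts S y φ := by
  set v := S.N.vv φ
  have hmax : S.N.IsMax φ v := S.N.vv_isMax hd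
  have hv : S.N v = 1 := hmax.1
  have hexp : ∀ u, S.N.IsMax φ u → u = v := fun u hu => S.N.isMax_eq_vv hd hu
  have hD := D_pos (S := S) hy hv
  have hxw : S.X y v - S.W y v = S.D y v • v := X_sub_W
  have hX1 := X_norm (S := S) hy hv
  have hW1 := W_norm (S := S) hy hv
  have h1 := psi_v_pos hy hv hX
  have h3 := psi_w_neg hy hv hW
  have h2 : 0 < ⟪S.symm.psi (S.F (S.X y v)), S.eI y v⟫ :=
    transversal hmax hexp hD hxw hX hX1 hW1 h1
  have hmax' : S.N.IsMax (-φ) (-v) :=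
    ⟨by rw [S.N.neg, hv], by rw [inner_neg_neg, S.N.dual.neg, hmax.2]⟩
  have hexp' : ∀ u, S.N.IsMax (-φ) u → u = -v := fun u hu => by
    have h := hexp (-u) ⟨by rw [S.N.neg, hu.1], by
      rw [inner_neg_right, ← inner_neg_left, hu.2, S.N.dual.neg]⟩
    rw [← h, neg_neg]
  have h4 : ⟪S.symm.psi (S.F (S.W y v)), S.eI y v⟫ < 0 := by
    have h := transversal (S := S) (φ := -φ) (v := -v) (x := S.W y v) (w := S.X y v)
      hmax' hexp' hD (by rw [smul_neg, ← hxw]; abel) hW hW1 hX1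
      (by rw [inner_neg_right]; linarith)
    have e : (S.D y v)⁻¹ • (S.F (S.W y v) - S.F (S.X y v)) = -S.eI y v := by
      rw [eI, ← smul_neg, neg_sub]
    rw [e, inner_neg_right] at h
    linarith
  have hp := pOf_isMax hmax hD hxw hX hX1 hW1 h1.ne' h2.ne'
  exact ⟨h1, h2, h3, h4, yI_lt_one hy hv hX h2, hp.1, hp.2,
    pOf_eq hmax hD hxw hX hW hX1 hW1 h1.ne' h2.ne' h3.ne h4.ne⟩

theorem inner_pI_PmW {y φ : E} (hf : Facts S y φ) (hW : S.GoodS (S.W y (S.N.vv φ))) (u : E) :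
    ⟪S.pI y φ, S.Pm (S.W y (S.N.vv φ)) (S.N.vv φ) (S.eI y (S.N.vv φ)) u⟫ = ⟪φ, u⟫ := by
  rw [hf.pI_W]
  exact pOf_Pm hW hf.psiW.ne hf.psiW'.ne u

/-- A differentiable selection of maximisers. -/
theorem exists_selection {φ : E} (hφ : φ ≠ 0)
    (hd : DifferentiableAt ℝ (fun ψ => S.N.dual ψ) φ) {T0 : E →L[ℝ] E} (hT0 : S.N.IsAlex φ T0) :
    ∃ (vf : E → E) (dv : E →L[ℝ] E), vf φ = S.N.vv φ ∧ HasFDerivAt vf dv φ ∧
      (∀ᶠ ψ in 𝓝 φ, S.N.IsMax ψ (vf ψ)) ∧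
      S.N.dual φ • dv + (fderiv ℝ (fun ψ => S.N.dual ψ) φ).smulRight (S.N.vv φ) = T0 := by
  choose ws hws using S.N.exists_sg
  have ha : 0 < S.N.dual φ := S.N.dual.pos hφ
  have hws0 : ws φ = S.N.dual φ • S.N.vv φ := S.N.sg_unique hd hφ (hws φ)
  have dws : HasFDerivAt ws T0 φ := by
    rw [hasFDerivAt_iff_isLittleO, Asymptotics.isLittleO_iff]
    intro ε hε
    filter_upwards [hT0 ε hε] with ψ hψ
    rw [hws0]
    exact hψ _ (hws ψ)
  have hinv : DifferentiableAt ℝ (fun ψ => (S.N.dual ψ)⁻¹) φ := hd.fun_inv ha.ne'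
  have hvd : DifferentiableAt ℝ (fun ψ => (S.N.dual ψ)⁻¹ • ws ψ) φ :=
    hinv.fun_smul dws.differentiableAt
  have hv0 : (S.N.dual φ)⁻¹ • ws φ = S.N.vv φ := by
    rw [hws0, smul_smul, inv_mul_cancel₀ ha.ne', one_smul]
  have hne : ∀ᶠ ψ in 𝓝 φ, ψ ≠ 0 := eventually_ne_nhds hφ
  refine ⟨fun ψ => (S.N.dual ψ)⁻¹ • ws ψ, _, hv0, hvd.hasFDerivAt, ?_, ?_⟩
  · filter_upwards [hne] with ψ hψ
    have hp := S.N.dual.pos hψ
    refine ⟨?_, ?_⟩
    · rw [S.N.smul_nonneg (inv_nonneg.2 hp.le), (hws ψ).2, inv_mul_cancel₀ hp.ne']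
    · rw [real_inner_smul_right, (hws ψ).1]
      field_simp
  · have h := hd.hasFDerivAt.fun_smul hvd.hasFDerivAt
    rw [hv0] at h
    refine h.unique (dws.congr_of_eventuallyEq ?_)
    filter_upwards [hne] with ψ hψ
    rw [smul_smul, mul_inv_cancel₀ (S.N.dual.pos hψ).ne', one_smul]

/-- The chord through a fixed end with moving direction. -/
theorem moving_chord {y φ : E} (hy : S.N y < 1) (hv : S.N (S.N.vv φ) = 1)
    (hW : S.GoodS (S.W y (S.N.vv φ))) (hψ : ⟪S.psi (S.W y (S.N.vv φ)), S.N.vv φ⟫ ≠ 0)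
    {vf : E → E} {dv : E →L[ℝ] E} (hvf0 : vf φ = S.N.vv φ) (dvf : HasFDerivAt vf dv φ)
    (hvmax : ∀ᶠ ψ in 𝓝 φ, S.N (vf ψ) = 1) :
    ∃ (Wf ef : E → E) (Df : E → ℝ) (de : E →L[ℝ] E),
      ef φ = S.eI y (S.N.vv φ) ∧ HasFDerivAt ef de φ ∧
      (∀ η, de η = S.Pm (S.W y (S.N.vv φ)) (S.N.vv φ) (S.eI y (S.N.vv φ)) (dv η)) ∧
      ∀ᶠ ψ in 𝓝 φ, 0 < Df ψ ∧ S.X y (S.N.vv φ) - Wf ψ = Df ψ • vf ψ ∧ S.N (Wf ψ) = 1 ∧
        ef ψ = (Df ψ)⁻¹ • (S.F (S.X y (S.N.vv φ)) - S.F (Wf ψ)) := by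
  set v := S.N.vv φ with hvdef
  set x := S.X y v with hx
  set w := S.W y v with hw
  set e := S.eI y v with he
  set τ := S.tp y v with hτ
  have hb0 : x - τ • v = y := by simp only [hx, X, Nrm.exitP, hτ, tp, add_sub_cancel_right]
  have db : HasFDerivAt (fun ψ => x - τ • vf ψ) (-(τ • dv)) φ :=
    (dvf.fun_const_smul τ).const_sub x
  have hbev : ∀ᶠ ψ in 𝓝 φ, S.N (x - τ • vf ψ) < 1 := by
    have hc : ContinuousAt (fun ψ => S.N (x - τ • vf ψ)) φ :=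
      S.N.continuous.continuousAt.comp db.continuousAt
    exact hc.eventually_lt continuousAt_const (by rw [hvf0, hb0]; exact hy)
  have hdom : ∀ᶠ ψ in 𝓝 φ, (x - τ • vf ψ, -vf ψ) ∈ S.N.dom := by
    filter_upwards [hbev, hvmax] with ψ h1 h2
    exact ⟨h1, by rw [S.N.neg, h2]⟩
  have hrc : ContinuousAt (fun ψ => S.N.exitT (x - τ • vf ψ) (-vf ψ)) φ := by
    have h0 : (x - τ • vf φ, -vf φ) ∈ S.N.dom :=
      ⟨by rw [hvf0, hb0]; exact hy, by rw [hvf0, S.N.neg, hv]⟩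
    have ht : Tendsto (fun ψ => (x - τ • vf ψ, -vf ψ)) (𝓝 φ)
        (𝓝[S.N.dom] (x - τ • vf φ, -vf φ)) :=
      tendsto_nhdsWithin_iff.2 ⟨db.continuousAt.prodMk dvf.continuousAt.neg, hdom⟩
    have hcw : Tendsto (fun q : E × E => S.N.exitT q.1 q.2) (𝓝[S.N.dom] (x - τ • vf φ, -vf φ))
        (𝓝 (S.N.exitT (x - τ • vf φ) (-vf φ))) :=
      (Nrm.continuousOn_exitT (N := S.N) (x - τ • vf φ, -vf φ) h0).tendsto
    exact Tendsto.comp (f := fun ψ => (x - τ • vf ψ, -vf ψ))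
      (g := fun q : E × E => S.N.exitT q.1 q.2) hcw ht
  have hw0 : (x - τ • vf φ) + S.N.exitT (x - τ • vf φ) (-vf φ) • (-vf φ) = w := by
    rw [hvf0, hb0]; rfl
  have hroot : ∀ᶠ ψ in 𝓝 φ,
      S.N ((x - τ • vf ψ) + S.N.exitT (x - τ • vf ψ) (-vf ψ) • (-vf ψ)) = 1 := by
    filter_upwards [hdom] with ψ h
    exact Nrm.exitP_norm h.1 h.2
  obtain ⟨dr, drr⟩ : ∃ dr, HasFDerivAt (fun ψ => S.N.exitT (x - τ • vf ψ) (-vf ψ)) dr φ :=
    ⟨_, Nrm.hasFDerivAt_root (u := fun ψ => -vf ψ) hrc db dvf.fun_neg hroot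
      (by rw [hw0]; exact hW.hasFDerivAt_N)
      (by rw [hvf0, inner_neg_right, neg_ne_zero]; exact hψ)⟩
  set Wf : E → E := fun ψ =>
    (x - τ • vf ψ) + S.N.exitT (x - τ • vf ψ) (-vf ψ) • (-vf ψ) with hWf
  set Df : E → ℝ := fun ψ => τ + S.N.exitT (x - τ • vf ψ) (-vf ψ) with hDf
  obtain ⟨dW, dWf⟩ : ∃ dW, HasFDerivAt Wf dW φ := ⟨_, db.fun_add (drr.fun_smul dvf.fun_neg)⟩
  have hWf0 : Wf φ = w := hw0
  have hFW : HasFDerivAt S.F (S.A w) (Wf φ) := by rw [hWf0]; exact hW.hasFDerivAt_F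
  have dFW : HasFDerivAt (fun ψ => S.F (Wf ψ)) ((S.A w).comp dW) φ := hFW.comp φ dWf
  have hdWt : ∀ η, ⟪S.psi w, dW η⟫ = 0 := by
    intro η
    have hN : HasFDerivAt (fun z => S.N z) (innerSL ℝ (S.psi w)) (Wf φ) := by
      rw [hWf0]; exact hW.hasFDerivAt_N
    have h : HasFDerivAt (fun ψ => S.N (Wf ψ)) ((innerSL ℝ (S.psi w)).comp dW) φ := hN.comp φ dWf
    have h0 : HasFDerivAt (fun ψ => S.N (Wf ψ)) (0 : E →L[ℝ] ℝ) φ :=
      (hasFDerivAt_const (1 : ℝ) φ).congr_of_eventuallyEq hroot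
    have := congrArg (fun L : E →L[ℝ] ℝ => L η) (h.unique h0)
    simpa using this
  have dDf : HasFDerivAt Df dr φ := drr.const_add τ
  have hD0 : Df φ = S.D y v := by
    simp only [hDf]; rw [hvf0, hb0]; rfl
  have hDpos : 0 < Df φ := by rw [hD0]; exact D_pos hy hv
  set ef : E → E := fun ψ => (Df ψ)⁻¹ • (S.F x - S.F (Wf ψ)) with hef
  have hef0 : ef φ = e := by simp only [hef]; rw [hWf0, hD0]; rfl
  have hdef : DifferentiableAt ℝ ef φ :=
    (dDf.differentiableAt.fun_inv hDpos.ne').fun_smul ((differentiableAt_const _).fun_sub dFW.differentiableAt)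
  have def' := hdef.hasFDerivAt
  set de := fderiv ℝ ef φ
  have hev : ∀ᶠ ψ in 𝓝 φ, 0 < Df ψ := continuousAt_const.eventually_lt dDf.continuousAt hDpos
  have hchord : ∀ ψ, x - Wf ψ = Df ψ • vf ψ := fun ψ => by simp only [hWf, hDf]; module
  refine ⟨Wf, ef, Df, de, hef0, def', fun η => ?_, ?_⟩
  · have k1 : -dW η = Df φ • dv η + dr η • v := by
      have h1 := dWf.const_sub x
      have h2 := dDf.fun_smul dvf
      have := congrArg (fun L : E →L[ℝ] E => L η)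
        ((h1.congr_of_eventuallyEq (Eventually.of_forall fun ψ => (hchord ψ).symm)).unique h2)
      simpa [hvf0] using this
    have k2 : -(S.A w (dW η)) = Df φ • de η + dr η • e := by
      have h3 := dFW.const_sub (S.F x)
      have h4 := dDf.fun_smul def'
      have h5 : (fun ψ => Df ψ • ef ψ) =ᶠ[𝓝 φ] fun ψ => S.F x - S.F (Wf ψ) := by
        filter_upwards [hev] with ψ hψ
        simp only [hef, smul_smul, mul_inv_cancel₀ hψ.ne', one_smul]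
      have := congrArg (fun L : E →L[ℝ] E => L η) ((h3.congr_of_eventuallyEq h5).unique h4)
      simpa [hef0] using this
    have k3 := congrArg (S.Pm w v e) k1
    rw [map_neg, GoodS.Pm_tangent (hdWt η), map_add, map_smul, map_smul,
      GoodS.Pm_dir hψ] at k3
    exact smul_right_injective E hDpos.ne' (add_right_cancel (k2.symm.trans k3))
  · filter_upwards [hev, hroot] with ψ h1 h2
    exact ⟨h1, hchord ψ, h2, rfl⟩

/-- Derivative of the moving functional. -/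
theorem moving_functional {y φ : E} (hy : S.N y < 1)
    (hd : DifferentiableAt ℝ (fun ψ => S.N.dual ψ) φ)
    (hX : S.GoodS (S.X y (S.N.vv φ))) (hW : S.GoodS (S.W y (S.N.vv φ)))
    {vf ef Wf : E → E} {Df : E → ℝ} {dv de : E →L[ℝ] E}
    (hvf0 : vf φ = S.N.vv φ) (dvf : HasFDerivAt vf dv φ)
    (hvmax : ∀ᶠ ψ in 𝓝 φ, S.N.IsMax ψ (vf ψ))
    (hef0 : ef φ = S.eI y (S.N.vv φ)) (def' : HasFDerivAt ef de φ)
    (hde : ∀ η, de η = S.Pm (S.W y (S.N.vv φ)) (S.N.vv φ) (S.eI y (S.N.vv φ)) (dv η))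
    (hch : ∀ᶠ ψ in 𝓝 φ, 0 < Df ψ ∧ S.X y (S.N.vv φ) - Wf ψ = Df ψ • vf ψ ∧ S.N (Wf ψ) = 1 ∧
        ef ψ = (Df ψ)⁻¹ • (S.F (S.X y (S.N.vv φ)) - S.F (Wf ψ))) :
    ∃ pf : E → E, pf φ = S.pI y φ ∧
      HasFDerivAt pf (adjoint (S.Pi (S.X y (S.N.vv φ)) (S.N.vv φ) (S.eI y (S.N.vv φ)))) φ ∧
      (∀ᶠ ψ in 𝓝 φ, S.M.IsMax (pf ψ) (ef ψ) ∧ S.M.dual (pf ψ) = S.N.dual ψ) ∧
      ∀ ψ, pf ψ = S.pOf (S.X y (S.N.vv φ)) (vf ψ) (ef ψ) ψ := by
  have hf := facts hy hd hX hW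
  set v := S.N.vv φ with hvdef
  have hv : S.N v = 1 := S.N.vv_unit φ
  set x := S.X y v with hx
  set w := S.W y v with hw
  set e := S.eI y v with he
  set g' := S.symm.psi (S.F x) with hg'
  set Ai := S.symm.A (S.F x) with hAi
  set pf : E → E := fun ψ => S.pOf x (vf ψ) (ef ψ) ψ with hpf
  have hpf0 : pf φ = S.pI y φ := by
    simp only [hpf]; rw [hvf0, hef0]; rfl
  have hpform : pf = fun ψ => adjoint Ai ψ
      + ((⟪g', ef ψ⟫)⁻¹ * ⟪vf ψ - Ai (ef ψ), ψ⟫) • g' := by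
    funext ψ
    apply ext_inner_right ℝ
    intro q
    simp only [hpf, pOf, Pi, Pm, adjoint_inner_left, add_apply, smulRight_apply,
      innerSL_apply_apply, inner_add_right, inner_add_left, real_inner_smul_left,
      real_inner_smul_right, ← hg', ← hAi, real_inner_comm ψ (vf ψ - Ai (ef ψ))]
    ring
  have hg0 : ⟪g', ef φ⟫ ≠ 0 := by rw [hef0]; exact hf.psiX'.ne'
  have h1 : DifferentiableAt ℝ pf φ := by
    rw [hpform]
    have d1 : DifferentiableAt ℝ (fun ψ => (⟪g', ef ψ⟫)⁻¹) φ :=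
      ((differentiableAt_const g').inner ℝ def'.differentiableAt).fun_inv hg0
    have d2 : DifferentiableAt ℝ (fun ψ => Ai (ef ψ)) φ :=
      Ai.differentiableAt.comp φ def'.differentiableAt
    have d3 : DifferentiableAt ℝ (fun ψ => ⟪vf ψ - Ai (ef ψ), ψ⟫) φ :=
      (dvf.differentiableAt.fun_sub d2).inner ℝ differentiableAt_fun_id
    exact (adjoint Ai).differentiableAt.fun_add ((d1.fun_mul d3).smul_const g')
  have dpf := h1.hasFDerivAt
  set dp := fderiv ℝ pf φ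
  have hgev : ∀ᶠ ψ in 𝓝 φ, ⟪g', ef ψ⟫ ≠ 0 :=
    (continuousAt_const.inner def'.continuousAt).eventually_ne hg0
  have hvev : ∀ᶠ ψ in 𝓝 φ, ⟪S.psi x, vf ψ⟫ ≠ 0 :=
    (continuousAt_const.inner dvf.continuousAt).eventually_ne (by rw [hvf0]; exact hf.psiX.ne')
  have hpe : ∀ᶠ ψ in 𝓝 φ, S.M.IsMax (pf ψ) (ef ψ) ∧ S.M.dual (pf ψ) = S.N.dual ψ := by
    filter_upwards [hvmax, hch, hgev, hvev] with ψ k1 k2 k4 k5
    obtain ⟨k2, kc, kn, ke⟩ := k2
    simp only [hpf]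
    rw [ke] at k4 ⊢
    exact pOf_isMax k1 k2 kc hX (X_norm hy hv) kn k5 k4
  refine ⟨pf, hpf0, ?_, hpe, fun ψ => rfl⟩
  have key : ∀ η u, ⟪dp η, S.Pm x v e u⟫ = ⟪η, u⟫ := by
    intro η u
    obtain ⟨uT, l, hu, hsplit, hP⟩ := split_Pm (S := S) (e := e) hf.psiX.ne' u
    have h1 : ⟪dp η, S.A x uT⟫ = ⟪η, uT⟫ := by
      have l1 := dpf.inner ℝ (hasFDerivAt_const (S.A x uT) φ)
      have l2 := (hasFDerivAt_id (𝕜 := ℝ) φ).inner ℝ (hasFDerivAt_const uT φ)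
      have hev' : (fun ψ => ⟪pf ψ, S.A x uT⟫) =ᶠ[𝓝 φ] fun ψ => ⟪ψ, uT⟫ := by
        filter_upwards [hgev, hvev] with ψ h4 h5
        have := pOf_Pm (S := S) (φ := ψ) hX h5 h4 uT
        rwa [GoodS.Pm_tangent hu] at this
      have := congrArg (fun L : E →L[ℝ] ℝ => L η) ((l2.congr_of_eventuallyEq hev').unique l1)
      simpa using this.symm
    have h2 : ⟪dp η, e⟫ = ⟪η, v⟫ := by
      have l1 := dpf.inner ℝ def'
      have l2 := (hasFDerivAt_id (𝕜 := ℝ) φ).inner ℝ dvf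
      have hev' : (fun ψ => ⟪pf ψ, ef ψ⟫) =ᶠ[𝓝 φ] fun ψ => ⟪ψ, vf ψ⟫ := by
        filter_upwards [hpe, hvmax] with ψ h4 h5
        rw [h4.1.2, h4.2, h5.2]
      have := congrArg (fun L : E →L[ℝ] ℝ => L η) ((l2.congr_of_eventuallyEq hev').unique l1)
      simp only [comp_apply, fderivInnerCLM_apply, prod_apply, coe_id', id_eq, hef0, hvf0, hpf0,
        hde] at this
      rw [inner_pI_PmW hf hW (dv η)] at this
      linarith
    rw [hP, hsplit, inner_add_right, inner_add_right, real_inner_smul_right,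
      real_inner_smul_right, h1, h2]
  have hdp : dp = adjoint (S.Pi x v e) := by
    ext1 η
    apply ext_inner_right ℝ
    intro q
    have hq : S.Pm x v e (S.Pi x v e q) = q :=
      congrArg (fun T : E →L[ℝ] E => T q) (hX.Pm_Pi hf.psiX.ne' hf.psiX'.ne')
    rw [adjoint_inner_left, ← key η (S.Pi x v e q), hq]
  rw [← hdp]
  exact dpf

theorem hess_transport {y φ : E} (hy : S.N y < 1) (hφ : φ ≠ 0)
    (hd : DifferentiableAt ℝ (fun ψ => S.N.dual ψ) φ)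
    (hX : S.GoodS (S.X y (S.N.vv φ))) (hW : S.GoodS (S.W y (S.N.vv φ)))
    {T0 T1 : E →L[ℝ] E} (hT0 : S.N.IsAlex φ T0)
    (hd' : DifferentiableAt ℝ (fun ψ => S.M.dual ψ) (S.pI y φ))
    (hT1 : S.M.IsAlex (S.pI y φ) T1) :
    T1 = S.Pm (S.W y (S.N.vv φ)) (S.N.vv φ) (S.eI y (S.N.vv φ)) * T0
      * adjoint (S.Pm (S.X y (S.N.vv φ)) (S.N.vv φ) (S.eI y (S.N.vv φ))) := by
  have hf := facts hy hd hX hW
  have hv : S.N (S.N.vv φ) = 1 := S.N.vv_unit φ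
  obtain ⟨vf, dv, hvf0, dvf, hvmax, hT0eq⟩ := exists_selection hφ hd hT0
  obtain ⟨Wf, ef, Df, de, hef0, def', hde, hch⟩ :=
    moving_chord hy hv hW hf.psiW.ne hvf0 dvf (hvmax.mono fun _ h => h.1)
  obtain ⟨pf, hpf0, dpf, hpe, -⟩ :=
    moving_functional hy hd hX hW hvf0 dvf hvmax hef0 def' hde hch
  set v := S.N.vv φ with hvdef
  set x := S.X y v with hx
  set w := S.W y v with hw
  set e := S.eI y v with he
  set H : E → E := fun ψ => S.N.dual ψ • ef ψ with hH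
  have hH1 : HasFDerivAt H (S.Pm w v e * T0) φ := by
    refine (hd.hasFDerivAt.fun_smul def').congr_fderiv ?_
    ext η
    rw [← hT0eq]
    simp [hef0, hde]
    rw [GoodS.Pm_dir hf.psiW.ne]
  have hH0 : H φ = S.M.dual (S.pI y φ) • S.M.vv (S.pI y φ) := by
    simp only [hH]
    rw [hef0, hf.dual_eq, ← S.M.isMax_eq_vv hd' hf.isMax]
  have hH2 : HasFDerivAt H (T1 * adjoint (S.Pi x v e)) φ := by
    rw [hasFDerivAt_iff_isLittleO]
    have hO : (fun ψ => pf ψ - pf φ) =O[𝓝 φ] fun ψ => ψ - φ := dpf.isBigO_sub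
    have ho : (fun ψ => H ψ - H φ - T1 (pf ψ - pf φ)) =o[𝓝 φ] fun ψ => pf ψ - pf φ := by
      rw [Asymptotics.isLittleO_iff]
      intro ε hε
      have ht : Tendsto pf (𝓝 φ) (𝓝 (S.pI y φ)) := by
        rw [← hpf0]; exact dpf.continuousAt
      filter_upwards [ht.eventually (hT1 ε hε), hpe] with ψ hψ hψ'
      have hsg := S.M.sg_of_isMax hψ'.1
      rw [hψ'.2] at hsg
      rw [hH0, hpf0]
      exact hψ _ hsg
    have h2 : (fun ψ => T1 (pf ψ - pf φ - adjoint (S.Pi x v e) (ψ - φ))) =o[𝓝 φ]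
        fun ψ => ψ - φ :=
      (T1.isBigO_comp _ _).trans_isLittleO (hasFDerivAt_iff_isLittleO.1 dpf)
    refine ((ho.trans_isBigO hO).add h2).congr_left fun ψ => ?_
    change _ = H ψ - H φ - T1 (adjoint (S.Pi x v e) (ψ - φ))
    rw [map_sub T1 (pf ψ - pf φ)]
    abel
  have hfin := hH2.unique hH1
  have hinv : adjoint (S.Pi x v e) * adjoint (S.Pm x v e) = 1 := by
    have h1 : adjoint (S.Pi x v e) * adjoint (S.Pm x v e)
        = adjoint (S.Pm x v e * S.Pi x v e) := (adjoint_comp _ _).symm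
    rw [h1, hX.Pm_Pi hf.psiX.ne' hf.psiX'.ne', ← star_eq_adjoint, star_one]
  calc T1 = T1 * (adjoint (S.Pi x v e) * adjoint (S.Pm x v e)) := by rw [hinv, mul_one]
    _ = _ := by rw [← mul_assoc, hfin]

end Setup

end Vale.Agent.P084
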