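import Vale.Agent.P084.Tangency

/-!
The interpolated Jacobian is constant: comparison of volumes.
-/

open scoped RealInnerProductSpace NNReal ENNReal
open Set Filter Topology MeasureTheory ContinuousLinearMap Module

set_option linter.unusedSectionVars false

namespace Vale.Agent.P084

variable {E : Type*} [NormedAddCommGroup E] [InnerProductSpace ℝ E] [FiniteDimensional ℝ E]
  [Nontrivial E] [MeasurableSpace E] [BorelSpace E]

namespace Nrm

variable (N : Nrm E)

/-- the open ball -/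
def ball : Set E := {y | N y < 1}

/-- the closed dual ball -/
def dualBall : Set E := {φ | N.dual φ ≤ 1}

theorem isOpen_ball : IsOpen N.ball := isOpen_lt N.continuous continuous_const

theorem isCompact_dualBall : IsCompact N.dualBall := N.dual.isCompact_le 1

theorem ball_pos : 0 < volume N.ball :=
  N.isOpen_ball.measure_pos volume ⟨0, by simp [ball, N.map_zero]⟩

theorem ball_lt_top : volume N.ball < ∞ :=
  lt_of_le_of_lt (measure_mono fun y (hy : N y < 1) => show N y ≤ 1 from hy.le)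
    (N.isCompact_le 1).measure_lt_top

theorem dualBall_lt_top : volume N.dualBall < ∞ := N.isCompact_dualBall.measure_lt_top

theorem dualBall_pos : 0 < volume N.dualBall :=
  lt_of_lt_of_le
    ((isOpen_lt N.dual.continuous continuous_const).measure_pos volume
      ⟨(0 : E), by simp [N.dual.map_zero]⟩)
    (measure_mono fun φ (hφ : N.dual φ < 1) => show N.dual φ ≤ 1 from hφ.le)

end Nrm

namespace Setup

variable (S : Setup E)

/-- derivative of the chord map -/
noncomputable def Gam (q : E × E) : E →L[ℝ] E :=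
  (1 - S.tm q.1 (S.N.vv q.2) / S.D q.1 (S.N.vv q.2)) •
      S.Pm (S.W q.1 (S.N.vv q.2)) (S.N.vv q.2) (S.eI q.1 (S.N.vv q.2))
    + (S.tm q.1 (S.N.vv q.2) / S.D q.1 (S.N.vv q.2)) •
      S.Pm (S.X q.1 (S.N.vv q.2)) (S.N.vv q.2) (S.eI q.1 (S.N.vv q.2))

theorem measurable_Gam : Measurable S.Gam := by
  have ht : Measurable (fun q : E × E => S.tm q.1 (S.N.vv q.2) / S.D q.1 (S.N.vv q.2)) :=
    (S.measurable_tm.comp S.measurable_vsnd).div
      ((S.measurable_tp.add S.measurable_tm).comp S.measurable_vsnd)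
  have hv : Measurable (fun q : E × E => S.N.vv q.2) := S.N.measurable_vv.comp measurable_snd
  have he := S.measurable_eI.comp S.measurable_vsnd
  exact ((measurable_const.sub ht).smul
    (S.measurable_Pm (S.measurable_W.comp S.measurable_vsnd) hv he)).add
    (ht.smul (S.measurable_Pm (S.measurable_X.comp S.measurable_vsnd) hv he))

theorem measurable_absdet_Gam : Measurable (fun q => |(S.Gam q).det|) :=
  (continuous_abs.comp ContinuousLinearMap.continuous_det).measurable.comp S.measurable_Gam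

variable {S}

theorem hasFDerivAt_Gam {q : E × E} (h : q ∈ S.Pre) :
    HasFDerivAt (fun z => S.yI z (S.N.vv q.2)) (S.Gam q) q.1 :=
  (hasFDerivAt_chord h.1 (S.N.vv_unit _) h.2.2.2.1 h.2.2.2.2).2

theorem Gam_symm {q : E × E} (h : q ∈ S.Good) :
    S.symm.Gam (S.Psi q) =
      (1 - S.tm q.1 (S.N.vv q.2) / S.D q.1 (S.N.vv q.2)) •
          S.Pi (S.W q.1 (S.N.vv q.2)) (S.N.vv q.2) (S.eI q.1 (S.N.vv q.2))
        + (S.tm q.1 (S.N.vv q.2) / S.D q.1 (S.N.vv q.2)) •
          S.Pi (S.X q.1 (S.N.vv q.2)) (S.N.vv q.2) (S.eI q.1 (S.N.vv q.2)) := by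
  have hf := Pre.facts h.1
  have hy := h.1.1
  have hv := S.N.vv_unit q.2
  obtain ⟨-, -, hX, hW, he⟩ := Good.symm h
  have hvv := Good.vv_eq h
  have hyI := hf.yI_lt
  have e2 : S.symm.tm (S.Psi q).1 (S.M.vv (S.Psi q).2) = S.tm q.1 (S.N.vv q.2) := by
    rw [hvv]
    refine Nrm.exitT_unique (N := S.M) hyI (by rw [S.M.neg]; exact M_eI hy hv) (tm_pos hy hv).le ?_
    rw [← FW_eq, S.hMF, W_norm hy hv]
  have e1 : S.symm.tp (S.Psi q).1 (S.M.vv (S.Psi q).2) = S.tp q.1 (S.N.vv q.2) := by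
    rw [hvv]
    refine Nrm.exitT_unique (N := S.M) hyI (M_eI hy hv) (tp_pos hy hv).le ?_
    rw [← FX_eq hy hv, S.hMF, X_norm hy hv]
  have eD : S.symm.D (S.Psi q).1 (S.M.vv (S.Psi q).2) = S.D q.1 (S.N.vv q.2) := by
    rw [D, D, e1, e2]
  have eN : S.symm.N = S.M := rfl
  rw [Gam, eN, e2, eD, hX, hW, he, hvv]
  rfl

/-- The pointwise inequality between the two Jacobians. -/
theorem ae_det_ge (S : Setup E) :
    ∀ᵐ q : E × E, q ∈ S.Good → 1 ≤ |(S.Gam q).det| * |(S.symm.Gam (S.Psi q)).det| := by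
  have hm : MeasurableSet
      {q : E × E | q ∈ S.Good → 1 ≤ |(S.Gam q).det| * |(S.symm.Gam (S.Psi q)).det|} :=
    S.measurableSet_Good.imp (measurableSet_le measurable_const
      (S.measurable_absdet_Gam.mul (S.symm.measurable_absdet_Gam.comp S.measurable_Psi)))
  rw [Measure.volume_eq_prod, Measure.ae_prod_iff_ae_ae hm,
    Measure.ae_ae_comm (p := fun y φ => (y, φ) ∈ S.Good →
      1 ≤ |(S.Gam (y, φ)).det| * |(S.symm.Gam (S.Psi (y, φ))).det|) hm]
  refine Eventually.of_forall fun φ => ?_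
  by_cases hφ : φ ∈ S.N.alexSet
  swap
  · exact Eventually.of_forall fun y hy => absurd hy.1.2.2.1 hφ
  obtain ⟨hφ0, hd, T0, hT0, hsym, hpsd⟩ := S.N.alex_of_mem hφ
  set b := Module.finBasis ℝ (LinearMap.ker (T0 : E →ₗ[ℝ] E))
  have hker : ∀ᵐ y : E, ∀ i, (y, φ) ∈ S.Pre →
      adjoint (S.Pi (S.X y (S.N.vv φ)) (S.N.vv φ) (S.eI y (S.N.vv φ))) (b i)
        = adjoint (S.Pi (S.W y (S.N.vv φ)) (S.N.vv φ) (S.eI y (S.N.vv φ))) (b i) :=
    ae_all_iff.2 fun i => adjoint_Pi_eq hφ hT0 (b i).2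
  filter_upwards [hker] with y hy hgood
  have hpre := hgood.1
  have hf := Pre.facts hpre
  have hX : S.GoodS (S.X y (S.N.vv φ)) := hpre.2.2.2.1
  have hW : S.GoodS (S.W y (S.N.vv φ)) := hpre.2.2.2.2
  obtain ⟨hp0, hd', T1, hT1, hsym', hpsd'⟩ := S.M.alex_of_mem hgood.2
  set v := S.N.vv φ
  set e := S.eI y v
  set x := S.X y v
  set w := S.W y v
  have hkerall : ∀ η, T0 η = 0 → adjoint (S.Pi x v e) η = adjoint (S.Pi w v e) η := by
    intro η hη
    have heq : ((adjoint (S.Pi x v e) : E →L[ℝ] E) : E →ₗ[ℝ] E).comp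
          (LinearMap.ker (T0 : E →ₗ[ℝ] E)).subtype
        = ((adjoint (S.Pi w v e) : E →L[ℝ] E) : E →ₗ[ℝ] E).comp
          (LinearMap.ker (T0 : E →ₗ[ℝ] E)).subtype :=
      b.ext fun i => hy i hpre
    exact LinearMap.congr_fun heq ⟨η, hη⟩
  have hdet := det_interp_ge_one (P := S.Pm x v e) (Q := S.Pm w v e) (Pi := S.Pi x v e)
    (Qi := S.Pi w v e) (hX.Pi_Pm hf.psiX.ne' hf.psiX'.ne') (hW.Pi_Pm hf.psiW.ne hf.psiW'.ne)
    hsym hpsd hsym' hpsd' (hess_transport hpre.1 hφ0 hd hX hW hT0 hd' hT1) hkerall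
    (t := S.tm y v / S.D y v)
    (div_nonneg (tm_pos hpre.1 (S.N.vv_unit φ)).le (D_pos hpre.1 (S.N.vv_unit φ)).le)
    ((div_le_one (D_pos hpre.1 (S.N.vv_unit φ))).2
      (le_add_of_nonneg_left (tp_pos hpre.1 (S.N.vv_unit φ)).le))
  rw [Gam_symm hgood, ← abs_mul]
  exact hdet.trans (le_abs_self _)

theorem injOn_yI (φ : E) : InjOn (fun z => S.yI z (S.N.vv φ)) {y | (y, φ) ∈ S.Good} := by
  intro y₁ h₁ y₂ h₂ heq
  set v := S.N.vv φ
  have hv : S.N v = 1 := S.N.vv_unit φ
  have hy1 : S.N y₁ < 1 := h₁.1.1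
  have hy2 : S.N y₂ < 1 := h₂.1.1
  have hd := S.N.diff_of_mem h₁.1.2.2.1
  have hmax : S.N.IsMax φ v := S.N.vv_isMax hd
  have ha : 0 < S.N.dual φ := S.N.dual.pos (S.N.ne_zero_of_mem h₁.1.2.2.1)
  set x1 := S.X y₁ v
  set w1 := S.W y₁ v
  set x2 := S.X y₂ v
  set w2 := S.W y₂ v
  have k1 : S.N (x1 - w2) ≤ S.tp y₁ v + S.tm y₂ v := by
    rw [← S.hiso x1 w2 (X_norm hy1 hv) (W_norm hy2 hv),
      show S.F x1 = S.yI y₁ v + S.tp y₁ v • S.eI y₁ v from FX_eq hy1 hv,
      show S.F w2 = S.yI y₂ v + S.tm y₂ v • (-S.eI y₂ v) from FW_eq,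
      show S.yI y₁ v = S.yI y₂ v from heq, add_sub_add_left_eq_sub]
    refine (S.M.sub_le_add _ _).trans (le_of_eq ?_)
    rw [S.M.smul_nonneg (tp_pos hy1 hv).le, S.M.smul_nonneg (tm_pos hy2 hv).le, S.M.neg,
      M_eI hy1 hv, M_eI hy2 hv]
    ring
  have k2 : S.N (x2 - w1) ≤ S.tp y₂ v + S.tm y₁ v := by
    rw [← S.hiso x2 w1 (X_norm hy2 hv) (W_norm hy1 hv),
      show S.F x2 = S.yI y₂ v + S.tp y₂ v • S.eI y₂ v from FX_eq hy2 hv,
      show S.F w1 = S.yI y₁ v + S.tm y₁ v • (-S.eI y₁ v) from FW_eq,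
      show S.yI y₁ v = S.yI y₂ v from heq, add_sub_add_left_eq_sub]
    refine (S.M.sub_le_add _ _).trans (le_of_eq ?_)
    rw [S.M.smul_nonneg (tp_pos hy2 hv).le, S.M.smul_nonneg (tm_pos hy1 hv).le, S.M.neg,
      M_eI hy2 hv, M_eI hy1 hv]
    ring
  have l1 := S.N.inner_le_dual φ (x1 - w2)
  have l2 := S.N.inner_le_dual φ (x2 - w1)
  have hsum : ⟪φ, x1 - w2⟫ + ⟪φ, x2 - w1⟫ = S.N.dual φ * (S.D y₁ v + S.D y₂ v) := by
    rw [← inner_add_right, show (x1 - w2) + (x2 - w1) = (x1 - w1) + (x2 - w2) by abel,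
      inner_add_right, X_sub_W, X_sub_W, real_inner_smul_right, real_inner_smul_right, hmax.2]
    ring
  have m1 := mul_le_mul_of_nonneg_left k1 ha.le
  have m2 := mul_le_mul_of_nonneg_left k2 ha.le
  have heq1 : ⟪φ, x1 - w2⟫ = S.N.dual φ * S.N (x1 - w2) := by
    simp only [D] at hsum
    linarith
  have hon : x1 - w2 = S.N (x1 - w2) • v := by
    rcases eq_or_ne (x1 - w2) 0 with h0 | h0
    · rw [h0, S.N.map_zero, zero_smul]
    · have hp := S.N.pos h0
      have hmax' : S.N.IsMax φ ((S.N (x1 - w2))⁻¹ • (x1 - w2)) := by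
        refine ⟨S.N.norm_unit h0, ?_⟩
        rw [real_inner_smul_right, heq1]
        field_simp
      have hh : (S.N (x1 - w2))⁻¹ • (x1 - w2) = v := S.N.isMax_eq_vv hd hmax'
      calc x1 - w2 = S.N (x1 - w2) • ((S.N (x1 - w2))⁻¹ • (x1 - w2)) := by
            rw [smul_smul, mul_inv_cancel₀ hp.ne', one_smul]
        _ = _ := by rw [hh]
  -- both chords lie on one line
  set c := S.N (x1 - w2) - S.tp y₁ v - S.tm y₂ v with hc
  have hline : y₁ = y₂ + c • v := by
    have e1 : x1 = y₁ + S.tp y₁ v • v := rfl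
    have e2 : w2 = y₂ + S.tm y₂ v • (-v) := rfl
    rw [e1, e2] at hon
    rw [hc, e1, e2, ← sub_eq_zero]
    rw [← sub_eq_zero] at hon
    rw [← hon]
    module
  have hX12 : x1 = x2 := by
    rcases le_or_gt 0 (c + S.tp y₁ v) with h | h
    · have e : x1 = y₂ + (c + S.tp y₁ v) • v := by
        change y₁ + S.tp y₁ v • v = _
        rw [hline]; module
      have hn : S.N (y₂ + (c + S.tp y₁ v) • v) = 1 := by rw [← e]; exact X_norm hy1 hv
      rw [e]
      exact (Nrm.exitP_unique (N := S.N) hy2 hv h hn).symm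
    · exfalso
      have h0 : 0 ≤ S.tp y₁ v := (tp_pos hy1 hv).le
      have := Nrm.line_interp (N := S.N) y₁ v (a := 0) (b := S.tp y₁ v) (c := -c) h0
        (by linarith) (by linarith)
      have hy2e : y₁ + (-c) • v = y₂ := by rw [hline]; module
      rw [hy2e, zero_smul, add_zero, sub_zero, sub_zero,
        show S.N (y₁ + S.tp y₁ v • v) = 1 from X_norm hy1 hv] at this
      have hc0 : 0 < -c := by linarith
      have h1 : (-c - S.tp y₁ v) / -c * S.N y₁ < (-c - S.tp y₁ v) / -c * 1 :=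
        mul_lt_mul_of_pos_left hy1 (div_pos (by linarith) hc0)
      have h2 : S.tp y₁ v / -c * S.N y₂ ≤ S.tp y₁ v / -c * 1 :=
        mul_le_mul_of_nonneg_left hy2.le (div_nonneg h0 hc0.le)
      have h3 : (-c - S.tp y₁ v) / -c + S.tp y₁ v / -c = 1 := by
        rw [← add_div, sub_add_cancel, div_self hc0.ne']
      linarith
  have hW12 : w1 = w2 := by
    rcases le_or_gt 0 (S.tm y₁ v - c) with h | h
    · have e : w1 = y₂ + (S.tm y₁ v - c) • (-v) := by
        change y₁ + S.tm y₁ v • (-v) = _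
        rw [hline]; module
      have hn : S.N (y₂ + (S.tm y₁ v - c) • (-v)) = 1 := by rw [← e]; exact W_norm hy1 hv
      rw [e]
      exact (Nrm.exitP_unique (N := S.N) hy2 (by rwa [S.N.neg]) h hn).symm
    · exfalso
      have h0 : 0 ≤ S.tm y₁ v := (tm_pos hy1 hv).le
      have := Nrm.line_interp (N := S.N) y₁ (-v) (a := 0) (b := S.tm y₁ v) (c := c) h0
        (by linarith) (by linarith)
      have hy2e : y₁ + c • (-v) = y₂ := by rw [hline]; module
      rw [hy2e, zero_smul, add_zero, sub_zero, sub_zero,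
        show S.N (y₁ + S.tm y₁ v • (-v)) = 1 from W_norm hy1 hv] at this
      have hc0 : 0 < c := by linarith
      have h1 : (c - S.tm y₁ v) / c * S.N y₁ < (c - S.tm y₁ v) / c * 1 :=
        mul_lt_mul_of_pos_left hy1 (div_pos (by linarith) hc0)
      have h2 : S.tm y₁ v / c * S.N y₂ ≤ S.tm y₁ v / c * 1 :=
        mul_le_mul_of_nonneg_left hy2.le (div_nonneg h0 hc0.le)
      have h3 : (c - S.tm y₁ v) / c + S.tm y₁ v / c = 1 := by
        rw [← add_div, sub_add_cancel, div_self hc0.ne']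
      linarith
  have hDeq : S.D y₁ v = S.D y₂ v := by
    rw [← N_X_sub_W hy1 hv, ← N_X_sub_W hy2 hv]
    exact congrArg₂ (fun a b => S.N (a - b)) hX12 hW12
  have hee : S.eI y₁ v = S.eI y₂ v := by
    simp only [eI, hDeq, show S.X y₁ v = S.X y₂ v from hX12, show S.W y₁ v = S.W y₂ v from hW12]
  have htm : S.tm y₁ v = S.tm y₂ v := by
    have h := heq
    simp only [yI, show S.W y₁ v = S.W y₂ v from hW12, hee, add_right_inj] at h
    have hne : S.eI y₂ v ≠ 0 :=
      S.M.ne_zero_of_pos (by rw [M_eI hy2 hv]; exact one_pos)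
    exact smul_left_injective ℝ hne h
  have h1 : w1 = y₁ + S.tm y₁ v • (-v) := rfl
  have h2 : w2 = y₂ + S.tm y₂ v • (-v) := rfl
  rw [h1, h2, htm] at hW12
  exact add_right_cancel hW12

/-- the ratio of volumes -/
noncomputable def ratio (S : Setup E) : ℝ := (volume S.M.ball).toReal / (volume S.N.ball).toReal

theorem ratio_pos (S : Setup E) : 0 < S.ratio :=
  div_pos (ENNReal.toReal_pos S.M.ball_pos.ne' S.M.ball_lt_top.ne)
    (ENNReal.toReal_pos S.N.ball_pos.ne' S.N.ball_lt_top.ne)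

theorem volume_Good (S : Setup E) : volume S.Good = volume S.N.ball * volume S.N.dualBall := by
  rw [← Measure.prod_prod, ← Measure.volume_eq_prod]
  refine measure_congr ?_
  filter_upwards [S.ae_good] with q hq
  exact propext ⟨fun h => ⟨h.1.1, h.1.2.1⟩, fun h => hq h.1 h.2⟩

theorem volume_Good_symm (S : Setup E) : volume S.Good = volume S.symm.Good := by
  have h := S.preserve (H := fun _ => 1) measurable_const
  simpa using h

theorem measurableSet_slice (S : Setup E) (φ : E) : MeasurableSet {y | (y, φ) ∈ S.Good} :=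
  (measurable_id.prodMk measurable_const) S.measurableSet_Good

theorem image_subset_ball (S : Setup E) (φ : E) :
    (fun z => S.yI z (S.N.vv φ)) '' {y | (y, φ) ∈ S.Good} ⊆ S.M.ball := by
  rintro _ ⟨_, hy, rfl⟩
  exact (Pre.facts hy.1).yI_lt

theorem lintegral_slice (S : Setup E) (φ : E) (g : E → ℝ≥0∞) :
    ∫⁻ z in (fun z => S.yI z (S.N.vv φ)) '' {y | (y, φ) ∈ S.Good}, g z
      = ∫⁻ y in {y | (y, φ) ∈ S.Good},
          ENNReal.ofReal |(S.Gam (y, φ)).det| * g (S.yI y (S.N.vv φ)) :=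
  lintegral_image_eq_lintegral_abs_det_fderiv_mul volume (S.measurableSet_slice φ)
    (fun y hy => (hasFDerivAt_Gam hy.1).hasFDerivWithinAt) (S.injOn_yI φ) g

theorem lintegral_Good (S : Setup E) {g : E × E → ℝ≥0∞} (hg : Measurable g) :
    ∫⁻ q in S.Good, g q = ∫⁻ φ in S.N.dualBall, ∫⁻ y in {y | (y, φ) ∈ S.Good}, g (y, φ) := by
  rw [← lintegral_indicator S.measurableSet_Good, Measure.volume_eq_prod,
    lintegral_prod_symm _ (hg.indicator S.measurableSet_Good).aemeasurable]
  rw [← lintegral_indicator S.N.isCompact_dualBall.measurableSet]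
  refine lintegral_congr fun φ => ?_
  by_cases hφ : φ ∈ S.N.dualBall
  · rw [indicator_of_mem hφ, ← lintegral_indicator (S.measurableSet_slice φ)]
    refine lintegral_congr fun y => ?_
    by_cases h : (y, φ) ∈ S.Good
    · rw [indicator_of_mem h, indicator_of_mem (show y ∈ {y | (y, φ) ∈ S.Good} from h)]
    · rw [indicator_of_notMem h, indicator_of_notMem (show y ∉ {y | (y, φ) ∈ S.Good} from h)]
  · rw [indicator_of_notMem hφ]
    refine lintegral_eq_zero_of_ae_eq_zero (Eventually.of_forall fun y => ?_)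
    exact indicator_of_notMem (fun (h : (y, φ) ∈ S.Good) => hφ h.1.2.1) _

theorem lintegral_absdet_le (S : Setup E) :
    ∫⁻ q in S.Good, ENNReal.ofReal |(S.Gam q).det| ≤ volume S.M.ball * volume S.N.dualBall := by
  rw [S.lintegral_Good (S.measurable_absdet_Gam.ennreal_ofReal), ← setLIntegral_const]
  refine setLIntegral_mono measurable_const fun φ _ => ?_
  have h := S.lintegral_slice φ (fun _ => 1)
  simp only [mul_one, setLIntegral_one] at h
  rw [← h]
  exact measure_mono (S.image_subset_ball φ)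

/-- The Jacobian of the chord map is constant. -/
theorem jac_eq (S : Setup E) : ∀ᵐ q : E × E, q ∈ S.Good → |(S.Gam q).det| = S.ratio := by
  set r := S.ratio with hr
  have hr0 : 0 < r := S.ratio_pos
  set a : E × E → ℝ := fun q => |(S.Gam q).det| with ha
  set b : E × E → ℝ := fun q => |(S.symm.Gam (S.Psi q)).det| with hb
  have ham : Measurable a := S.measurable_absdet_Gam
  have hbm : Measurable b := S.symm.measurable_absdet_Gam.comp S.measurable_Psi
  have hA := S.lintegral_absdet_le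
  have hB : ∫⁻ q in S.Good, ENNReal.ofReal (b q) ≤ volume S.N.ball * volume S.M.dualBall := by
    rw [S.preserve (H := fun p => ENNReal.ofReal |(S.symm.Gam p).det|)
      S.symm.measurable_absdet_Gam.ennreal_ofReal]
    exact S.symm.lintegral_absdet_le
  set B := (volume S.N.ball).toReal with hBd
  set B' := (volume S.M.ball).toReal with hBd'
  set K := (volume S.N.dualBall).toReal with hKd
  set K' := (volume S.M.dualBall).toReal with hKd'
  have hB0 : 0 < B := ENNReal.toReal_pos S.N.ball_pos.ne' S.N.ball_lt_top.ne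
  have hB0' : 0 < B' := ENNReal.toReal_pos S.M.ball_pos.ne' S.M.ball_lt_top.ne
  have hP : B * K = B' * K' := by
    have h := congrArg ENNReal.toReal
      ((S.volume_Good).symm.trans (S.volume_Good_symm.trans S.symm.volume_Good))
    rw [ENNReal.toReal_mul, ENNReal.toReal_mul] at h
    exact h
  have eB : ENNReal.ofReal B = volume S.N.ball := ENNReal.ofReal_toReal S.N.ball_lt_top.ne
  have eB' : ENNReal.ofReal B' = volume S.M.ball := ENNReal.ofReal_toReal S.M.ball_lt_top.ne
  have eK : ENNReal.ofReal K = volume S.N.dualBall := ENNReal.ofReal_toReal S.N.dualBall_lt_top.ne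
  have eK' : ENNReal.ofReal K' = volume S.M.dualBall := ENNReal.ofReal_toReal S.M.dualBall_lt_top.ne
  set f : E × E → ℝ≥0∞ := fun q => ENNReal.ofReal (r⁻¹ * a q + r * b q) with hf
  have hfm : Measurable f := ((ham.const_mul r⁻¹).add (hbm.const_mul r)).ennreal_ofReal
  have hf2 : ∀ᵐ q ∂volume.restrict S.Good, ENNReal.ofReal 2 ≤ f q := by
    filter_upwards [ae_restrict_mem S.measurableSet_Good, ae_restrict_of_ae S.ae_det_ge] with q hq hq'
    refine ENNReal.ofReal_le_ofReal ?_
    have h1 : (r⁻¹ * a q) * (r * b q) = a q * b q := by field_simp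
    have h2 := hq' hq
    have h3 : 0 ≤ r⁻¹ * a q := mul_nonneg (inv_nonneg.2 hr0.le) (abs_nonneg _)
    have h4 : 0 ≤ r * b q := mul_nonneg hr0.le (abs_nonneg _)
    change 1 ≤ a q * b q at h2
    rw [← h1] at h2
    nlinarith [sq_nonneg (r⁻¹ * a q - r * b q)]
  have hle : ∫⁻ q in S.Good, f q ≤ ∫⁻ q in S.Good, ENNReal.ofReal 2 := by
    rw [setLIntegral_const, S.volume_Good]
    calc ∫⁻ q in S.Good, f q
        = ENNReal.ofReal r⁻¹ * (∫⁻ q in S.Good, ENNReal.ofReal (a q))
          + ENNReal.ofReal r * (∫⁻ q in S.Good, ENNReal.ofReal (b q)) := by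
          rw [← lintegral_const_mul _ ham.ennreal_ofReal, ← lintegral_const_mul _ hbm.ennreal_ofReal,
            ← lintegral_add_left (ham.ennreal_ofReal.const_mul _)]
          refine lintegral_congr fun q => ?_
          rw [hf, ← ENNReal.ofReal_mul (inv_nonneg.2 hr0.le), ← ENNReal.ofReal_mul hr0.le,
            ← ENNReal.ofReal_add (mul_nonneg (inv_nonneg.2 hr0.le) (abs_nonneg _))
              (mul_nonneg hr0.le (abs_nonneg _))]
      _ ≤ ENNReal.ofReal r⁻¹ * (volume S.M.ball * volume S.N.dualBall)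
          + ENNReal.ofReal r * (volume S.N.ball * volume S.M.dualBall) :=
          add_le_add (mul_le_mul' le_rfl hA) (mul_le_mul' le_rfl hB)
      _ = ENNReal.ofReal 2 * (volume S.N.ball * volume S.N.dualBall) := by
          have hK0 : 0 ≤ K := ENNReal.toReal_nonneg
          have hK0' : 0 ≤ K' := ENNReal.toReal_nonneg
          rw [← eB, ← eB', ← eK, ← eK', ← ENNReal.ofReal_mul hB0'.le, ← ENNReal.ofReal_mul hB0.le,
            ← ENNReal.ofReal_mul hB0.le, ← ENNReal.ofReal_mul (inv_nonneg.2 hr0.le),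
            ← ENNReal.ofReal_mul hr0.le, ← ENNReal.ofReal_mul two_pos.le,
            ← ENNReal.ofReal_add (by positivity) (by positivity)]
          congr 1
          rw [hr, ratio, ← hBd, ← hBd']
          field_simp
          linarith
  have heq : (fun _ => ENNReal.ofReal 2) =ᵐ[volume.restrict S.Good] f :=
    ae_eq_of_ae_le_of_lintegral_le hf2
      (by
        rw [setLIntegral_const, S.volume_Good]
        exact ENNReal.mul_ne_top ENNReal.ofReal_ne_top
          (ENNReal.mul_ne_top S.N.ball_lt_top.ne S.N.dualBall_lt_top.ne))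
      hfm.aemeasurable hle
  have h5 := (ae_restrict_iff' S.measurableSet_Good).1 heq
  filter_upwards [h5, S.ae_det_ge] with q hq hq' hmem
  have h1 := hq hmem
  rw [hf, ENNReal.ofReal_eq_ofReal_iff two_pos.le
    (add_nonneg (mul_nonneg (inv_nonneg.2 hr0.le) (abs_nonneg _))
      (mul_nonneg hr0.le (abs_nonneg _)))] at h1
  have h2 := hq' hmem
  change 1 ≤ a q * b q at h2
  have h3 : (r⁻¹ * a q) * (r * b q) = a q * b q := by field_simp
  rw [← h3] at h2
  have h4 : r⁻¹ * a q = 1 := by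
    nlinarith [sq_nonneg (r⁻¹ * a q - r * b q), sq_nonneg (r⁻¹ * a q - 1)]
  rw [inv_mul_eq_one₀ hr0.ne'] at h4
  exact h4.symm

/-- Change of variables along almost every family of parallel chords. -/
theorem change_var (S : Setup E) :
    ∀ᵐ φ : E, φ ∈ S.N.dualBall → ∀ g : E → ℝ≥0∞,
      ∫⁻ z in S.M.ball, g z
        = ENNReal.ofReal S.ratio * ∫⁻ y in {y | (y, φ) ∈ S.Good}, g (S.yI y (S.N.vv φ)) := by
  have h1 : ∀ᵐ φ : E, ∀ᵐ y : E, (y, φ) ∈ S.Good → |(S.Gam (y, φ)).det| = S.ratio := by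
    have hm : MeasurableSet {q : E × E | q ∈ S.Good → |(S.Gam q).det| = S.ratio} :=
      S.measurableSet_Good.imp (measurableSet_eq_fun S.measurable_absdet_Gam measurable_const)
    have h := S.jac_eq
    rw [Measure.volume_eq_prod, Measure.ae_prod_iff_ae_ae hm,
      Measure.ae_ae_comm (p := fun y φ => (y, φ) ∈ S.Good → |(S.Gam (y, φ)).det| = S.ratio) hm] at h
    exact h
  have h2 : ∀ᵐ φ : E, ∀ᵐ y : E, S.N y < 1 → S.N.dual φ ≤ 1 → (y, φ) ∈ S.Good := by
    have hm : MeasurableSet {q : E × E | S.N q.1 < 1 → S.N.dual q.2 ≤ 1 → q ∈ S.Good} :=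
      (measurableSet_lt (S.N.continuous.measurable.comp measurable_fst) measurable_const).imp
        ((measurableSet_le (S.N.dual.continuous.measurable.comp measurable_snd) measurable_const).imp
          S.measurableSet_Good)
    have h := S.ae_good
    rw [Measure.volume_eq_prod, Measure.ae_prod_iff_ae_ae hm,
      Measure.ae_ae_comm (p := fun y φ => S.N y < 1 → S.N.dual φ ≤ 1 → (y, φ) ∈ S.Good) hm] at h
    exact h
  filter_upwards [h1, h2] with φ hφ1 hφ2 hK g
  have hslice : ∀ g : E → ℝ≥0∞,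
      ∫⁻ z in (fun z => S.yI z (S.N.vv φ)) '' {y | (y, φ) ∈ S.Good}, g z
        = ENNReal.ofReal S.ratio * ∫⁻ y in {y | (y, φ) ∈ S.Good}, g (S.yI y (S.N.vv φ)) := by
    intro g
    rw [S.lintegral_slice φ g, ← lintegral_const_mul' _ _ ENNReal.ofReal_ne_top]
    refine setLIntegral_congr_fun_ae (S.measurableSet_slice φ) ?_
    filter_upwards [hφ1] with y hy hmem
    rw [hy hmem]
  rw [← hslice]
  have hvol : volume {y | (y, φ) ∈ S.Good} = volume S.N.ball := by
    refine measure_congr ?_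
    filter_upwards [hφ2] with y hy
    exact propext ⟨fun h => h.1.1, fun h => hy h hK⟩
  have himg : volume ((fun z => S.yI z (S.N.vv φ)) '' {y | (y, φ) ∈ S.Good}) = volume S.M.ball := by
    have h := hslice (fun _ => 1)
    simp only [setLIntegral_one] at h
    rw [h, hvol, ratio, ENNReal.ofReal_div_of_pos
      (ENNReal.toReal_pos S.N.ball_pos.ne' S.N.ball_lt_top.ne),
      ENNReal.ofReal_toReal S.M.ball_lt_top.ne, ENNReal.ofReal_toReal S.N.ball_lt_top.ne,
      ENNReal.div_mul_cancel S.N.ball_pos.ne' S.N.ball_lt_top.ne]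
  have hmeas : MeasurableSet ((fun z => S.yI z (S.N.vv φ)) '' {y | (y, φ) ∈ S.Good}) :=
    measurable_image_of_fderivWithin (S.measurableSet_slice φ)
      (fun y hy => (hasFDerivAt_Gam hy.1).hasFDerivWithinAt) (S.injOn_yI φ)
  have heq : (fun z => S.yI z (S.N.vv φ)) '' {y | (y, φ) ∈ S.Good} =ᵐ[volume] S.M.ball :=
    ae_eq_of_subset_of_measure_ge (S.image_subset_ball φ) himg.ge hmeas.nullMeasurableSet
      S.M.ball_lt_top.ne
  exact (setLIntegral_congr heq).symm

end Setup

end Vale.Agent.P084
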