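import Mathlib

/-!
Determinant inequalities for interpolated linear maps.
-/

open scoped RealInnerProductSpace Matrix
open ContinuousLinearMap

set_option linter.unusedSectionVars false

namespace Vale.Agent.P084

variable {E : Type*} [NormedAddCommGroup E] [InnerProductSpace ℝ E] [FiniteDimensional ℝ E]

theorem det_one_add_smulRight (ψ v : E) :
    (1 + (innerSL ℝ ψ).smulRight v : E →L[ℝ] E).det = 1 + ⟪ψ, v⟫ := by
  have h : ((1 + (innerSL ℝ ψ).smulRight v : E →L[ℝ] E) : E →ₗ[ℝ] E)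
      = LinearMap.transvection ((innerSL ℝ ψ : E →L[ℝ] ℝ) : E →ₗ[ℝ] ℝ) v := by
    ext x
    simp [LinearMap.transvection.apply]
  rw [ContinuousLinearMap.det, h, LinearMap.transvection.det]
  rfl

theorem det_mul_clm (A B : E →L[ℝ] E) : (A * B).det = A.det * B.det :=
  map_mul LinearMap.det (A : E →ₗ[ℝ] E) (B : E →ₗ[ℝ] E)

theorem matrix_det_one_add_ge_one {ι : Type*} [Fintype ι] [DecidableEq ι] {S : Matrix ι ι ℝ}
    (hS : S.PosSemidef) : 1 ≤ (1 + S).det := by
  have hH : S.IsHermitian := hS.isHermitian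
  set U : Matrix ι ι ℝ := (hH.eigenvectorUnitary : Matrix ι ι ℝ) with hU
  have h1 : S = (U * Matrix.diagonal hH.eigenvalues) * star U := by
    conv_lhs => rw [hH.spectral_theorem, Unitary.conjStarAlgAut_apply]
    congr 1
  have h2 : star U * U = 1 := Unitary.coe_star_mul_self hH.eigenvectorUnitary
  rw [h1, Matrix.det_one_add_mul_comm, ← mul_assoc, h2, one_mul, ← Matrix.diagonal_one,
    Matrix.diagonal_add, Matrix.det_diagonal]
  exact Finset.one_le_prod (fun i _ => le_add_of_nonneg_right (hS.eigenvalues_nonneg i))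

theorem matrix_det_one_add_mul_ge_one {ι : Type*} [Fintype ι] [DecidableEq ι]
    {A Z : Matrix ι ι ℝ} (hA : A.PosSemidef) (hZ : Z.PosSemidef) : 1 ≤ (1 + A * Z).det := by
  have hH : A.IsHermitian := hA.isHermitian
  set U : Matrix ι ι ℝ := (hH.eigenvectorUnitary : Matrix ι ι ℝ) with hU
  set D : Matrix ι ι ℝ := Matrix.diagonal fun i => Real.sqrt (hH.eigenvalues i) with hD
  set B : Matrix ι ι ℝ := D * star U with hB
  have h1 : A = Bᴴ * B := by
    have hDD : D * D = Matrix.diagonal hH.eigenvalues := by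
      rw [hD, Matrix.diagonal_mul_diagonal]
      congr 1
      ext i
      exact Real.mul_self_sqrt (hA.eigenvalues_nonneg i)
    have hDs : Dᴴ = D := by
      rw [hD, Matrix.diagonal_conjTranspose]
      congr 1
    rw [hB, Matrix.conjTranspose_mul, hDs, Matrix.star_eq_conjTranspose,
      Matrix.conjTranspose_conjTranspose, mul_assoc, ← mul_assoc D, hDD]
    conv_lhs => rw [hH.spectral_theorem, Unitary.conjStarAlgAut_apply]
    rw [← Matrix.star_eq_conjTranspose, mul_assoc]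
    rfl
  rw [h1, mul_assoc, Matrix.det_one_add_mul_comm]
  exact matrix_det_one_add_ge_one (hZ.mul_mul_conjTranspose_same B)

theorem det_one_add_mul_ge_one {A Z : E →L[ℝ] E}
    (hA : (A : E →ₗ[ℝ] E).IsPositive) (hZ : (Z : E →ₗ[ℝ] E).IsPositive) :
    1 ≤ (1 + A * Z).det := by
  set b := stdOrthonormalBasis ℝ E
  have hA' := (LinearMap.posSemidef_toMatrix_iff b).2 hA
  have hZ' := (LinearMap.posSemidef_toMatrix_iff b).2 hZ
  have h := matrix_det_one_add_mul_ge_one hA' hZ'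
  rw [← LinearMap.toMatrix_mul, ← LinearMap.toMatrix_one b.toBasis, ← map_add,
    LinearMap.det_toMatrix] at h
  exact h

/-- The key algebraic inequality. `P`, `Q` are the transport maps at the two ends of a chord,
`Pi`, `Qi` their inverses, `E0`, `E1` the two Hessians. -/
theorem det_interp_ge_one {P Q Pi Qi E0 E1 : E →L[ℝ] E}
    (hP : Pi * P = 1) (hQ : Qi * Q = 1)
    (hE0 : ∀ a b, ⟪E0 a, b⟫ = ⟪a, E0 b⟫) (hE0p : ∀ a, 0 ≤ ⟪E0 a, a⟫)
    (hE1 : ∀ a b, ⟪E1 a, b⟫ = ⟪a, E1 b⟫) (hE1p : ∀ a, 0 ≤ ⟪E1 a, a⟫)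
    (hE : E1 = Q * E0 * adjoint P)
    (hker : ∀ η, E0 η = 0 → adjoint Pi η = adjoint Qi η)
    {t : ℝ} (ht0 : 0 ≤ t) (ht1 : t ≤ 1) :
    1 ≤ ((1 - t) • Q + t • P).det * ((1 - t) • Qi + t • Pi).det := by
  have hP' : P * Pi = 1 := by
    have h0 : (Pi : E →ₗ[ℝ] E) * (P : E →ₗ[ℝ] E) = 1 :=
      congrArg (fun f : E →L[ℝ] E => (f : E →ₗ[ℝ] E)) hP
    exact ContinuousLinearMap.coe_injective (mul_eq_one_comm.1 h0)
  have hQ' : Q * Qi = 1 := by
    have h0 : (Qi : E →ₗ[ℝ] E) * (Q : E →ₗ[ℝ] E) = 1 :=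
      congrArg (fun f : E →L[ℝ] E => (f : E →ₗ[ℝ] E)) hQ
    exact ContinuousLinearMap.coe_injective (mul_eq_one_comm.1 h0)
  have sE0 : adjoint E0 = E0 := ((eq_adjoint_iff E0 E0).2 hE0).symm
  have sE1 : adjoint E1 = E1 := ((eq_adjoint_iff E1 E1).2 hE1).symm
  have adj_mul : ∀ A B : E →L[ℝ] E, adjoint (A * B) = adjoint B * adjoint A := adjoint_comp
  have adj_one : adjoint (1 : E →L[ℝ] E) = 1 := by
    rw [← star_eq_adjoint]; exact star_one _
  -- the transposed form of `hE`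
  have hE' : E1 = P * E0 * adjoint Q := by
    rw [← sE1, hE, adj_mul, adj_mul, adjoint_adjoint, sE0, mul_assoc]
  -- factorisation through the range of `E0`
  have hrange : LinearMap.range ((Pi - Qi : E →L[ℝ] E) : E →ₗ[ℝ] E)
      ≤ LinearMap.range (E0 : E →ₗ[ℝ] E) := by
    have hsym : (E0 : E →ₗ[ℝ] E).IsSymmetric := hE0
    have hk := hsym.orthogonal_range
    rintro _ ⟨y, rfl⟩
    rw [← Submodule.orthogonal_orthogonal (LinearMap.range (E0 : E →ₗ[ℝ] E)), hk,
      Submodule.mem_orthogonal]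
    intro η hη
    change ⟪η, (Pi - Qi) y⟫ = 0
    rw [← adjoint_inner_left, map_sub, sub_apply, hker η hη, sub_self, inner_zero_left]
  obtain ⟨M0, hM0⟩ := Module.projective_lifting_property
    (E0 : E →ₗ[ℝ] E).rangeRestrict
    (LinearMap.codRestrict (LinearMap.range (E0 : E →ₗ[ℝ] E))
      ((Pi - Qi : E →L[ℝ] E) : E →ₗ[ℝ] E) (fun c => hrange ⟨c, rfl⟩))
    (LinearMap.surjective_rangeRestrict _)
  have hM : E0 * LinearMap.toContinuousLinearMap M0 = Pi - Qi := by
    ext y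
    have := LinearMap.congr_fun hM0 y
    exact congrArg Subtype.val this
  set M : E →L[ℝ] E := adjoint Pi * LinearMap.toContinuousLinearMap M0 with hMdef
  have hR : Q * Pi - 1 = E1 * M := by
    have h1 : E1 * adjoint Pi = Q * E0 := by
      rw [hE, mul_assoc (Q * E0), ← adj_mul, hP, adj_one, mul_one]
    rw [hMdef, ← mul_assoc, h1, mul_assoc, hM, mul_sub, hQ']
  set R := Q * Pi with hRdef
  set Ri := P * Qi with hRidef
  have hRiR : Ri * R = 1 := by
    rw [hRdef, hRidef, mul_assoc, ← mul_assoc Qi, hQ, one_mul, hP']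
  set E2 : E →L[ℝ] E := P * E0 * adjoint P with hE2
  have hRiE1 : Ri * E1 = E2 := by
    rw [hRidef, hE, hE2, mul_assoc P Qi, ← mul_assoc Qi, ← mul_assoc Qi, hQ, one_mul, ← mul_assoc]
  have sE2 : adjoint E2 = E2 := by
    rw [hE2, adj_mul, adj_mul, adjoint_adjoint, sE0, mul_assoc]
  have hE2' : E2 = E1 * adjoint Ri := by
    rw [← sE2, ← hRiE1, adj_mul, sE1]
  have hRE1 : R * E1 = Q * E0 * adjoint Q := by
    rw [hRdef, hE', mul_assoc Q Pi, ← mul_assoc Pi, ← mul_assoc Pi, hP, one_mul, ← mul_assoc]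
  have sMM : adjoint (E1 * M * E1) = E1 * M * E1 := by
    rw [← hR, sub_mul, one_mul, hRE1, map_sub, sE1, adj_mul, adj_mul, adjoint_adjoint, sE0,
      mul_assoc]
  have sMM' : E1 * adjoint M * E1 = E1 * M * E1 := by
    rw [← sMM, adj_mul (E1 * M) E1, adj_mul E1 M, sE1, mul_assoc]
  set Z : E →L[ℝ] E := (t * (1 - t)) • (adjoint M * E2 * M) with hZ
  have key : ((1 - t) • Q + t • P) * ((1 - t) • Qi + t • Pi) = 1 + E1 * Z := by
    have h2 : (R - 1) * Ri * (R - 1) = E1 * (adjoint M * E2 * M) := by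
      rw [hR, mul_assoc E1 M Ri, mul_assoc E1 (M * Ri), mul_assoc M Ri, ← mul_assoc Ri, hRiE1,
        hE2']
      have := congrArg (fun X => X * (adjoint Ri * M)) sMM'
      simp only [mul_assoc] at this ⊢
      exact this.symm
    have h3 : (R - 1) * Ri * (R - 1) = R + Ri - (2 : ℝ) • (1 : E →L[ℝ] E) := by
      have hRRi : R * Ri = 1 := by
        rw [hRdef, hRidef, mul_assoc, ← mul_assoc Pi, hP, one_mul, hQ']
      rw [sub_mul R 1 Ri, one_mul, hRRi, sub_mul, one_mul, mul_sub, mul_one, hRiR, two_smul]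
      abel
    rw [h3] at h2
    rw [hZ, mul_smul_comm, ← h2, hRdef, hRidef]
    simp only [add_mul, mul_add, smul_mul_assoc, mul_smul_comm, hQ', hP']
    module
  rw [← det_mul_clm, key]
  refine det_one_add_mul_ge_one ?_ ?_
  · rw [LinearMap.isPositive_iff]
    exact ⟨hE1, hE1p⟩
  · rw [LinearMap.isPositive_iff]
    have hc : 0 ≤ t * (1 - t) := mul_nonneg ht0 (by linarith)
    have hval : ∀ a b, ⟪Z a, b⟫ = t * (1 - t) * ⟪E0 (adjoint P (M a)), adjoint P (M b)⟫ := by
      intro a b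
      rw [hZ]
      change ⟪(t * (1 - t)) • adjoint M (E2 (M a)), b⟫ = _
      rw [real_inner_smul_left, adjoint_inner_left, hE2]
      change t * (1 - t) * ⟪P (E0 (adjoint P (M a))), M b⟫ = _
      rw [← adjoint_inner_right]
    refine ⟨fun a b => ?_, fun a => ?_⟩
    · change ⟪Z a, b⟫ = ⟪a, Z b⟫
      rw [real_inner_comm (Z b) a, hval, hval, hE0, real_inner_comm]
    · change 0 ≤ ⟪Z a, a⟫
      rw [hval]
      exact mul_nonneg hc (hE0p _)

end Vale.Agent.P084
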