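import Vale.Agent.P084.GMap
import Vale.Agent.P084.DerivZero

/-!
Functions on the ball along one family of parallel chords.
-/

open scoped RealInnerProductSpace NNReal ENNReal
open Set Filter Topology MeasureTheory ContinuousLinearMap Module

set_option linter.unusedSectionVars false

namespace Vale.Agent.P084

variable {E : Type*} [NormedAddCommGroup E] [InnerProductSpace ℝ E] [FiniteDimensional ℝ E]
  [Nontrivial E] [MeasurableSpace E] [BorelSpace E]

namespace Setup

variable {S : Setup E}

theorem lt_tp {y v : E} (hy : S.N y < 1) (hv : S.N v = 1) {s : ℝ}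
    (hz : S.N (y + s • v) < 1) : s < S.tp y v := by
  by_contra hc
  have hc : S.tp y v ≤ s := not_lt.1 hc
  have ht := tp_pos (S := S) hy hv
  have hs : 0 < s := lt_of_lt_of_le ht hc
  have h := S.N.convex_comb_le (x := y) (y := y + s • v) (a := 1 - S.tp y v / s)
    (b := S.tp y v / s) (by rw [sub_nonneg, div_le_one hs]; exact hc) (div_nonneg ht.le hs.le)
  have e : (1 - S.tp y v / s) • y + (S.tp y v / s) • (y + s • v) = S.X y v := by
    change _ = y + S.tp y v • v
    rw [smul_add, smul_smul, div_mul_cancel₀ _ hs.ne']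
    module
  rw [e, X_norm hy hv] at h
  have h2 := mul_lt_mul_of_pos_left hz (div_pos ht hs)
  have h3 : (1 - S.tp y v / s) * S.N y ≤ (1 - S.tp y v / s) * 1 :=
    mul_le_mul_of_nonneg_left hy.le (by rw [sub_nonneg, div_le_one hs]; exact hc)
  linarith

theorem neg_tm_lt {y v : E} (hy : S.N y < 1) (hv : S.N v = 1) {s : ℝ}
    (hz : S.N (y + s • v) < 1) : -S.tm y v < s := by
  have h : -s < S.tp y (-v) := lt_tp hy (by rwa [S.N.neg]) (s := -s) (by rwa [neg_smul_neg])
  change -s < S.tm y v at h
  linarith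

/-- Nearby points of one chord define the same chord. -/
theorem line_chord {y v : E} (hy : S.N y < 1) (hv : S.N v = 1) {s : ℝ}
    (hz : S.N (y + s • v) < 1) :
    S.eI (y + s • v) v = S.eI y v ∧ S.yI (y + s • v) v = S.yI y v + s • S.eI y v := by
  have h1 := lt_tp hy hv hz
  have h2 := neg_tm_lt hy hv hz
  have hX1 : S.N ((y + s • v) + (S.tp y v - s) • v) = 1 := by
    rw [show (y + s • v) + (S.tp y v - s) • v = S.X y v by
      change _ = y + S.tp y v • v; module]
    exact X_norm hy hv
  have hW1 : S.N ((y + s • v) + (S.tm y v + s) • (-v)) = 1 := by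
    rw [show (y + s • v) + (S.tm y v + s) • (-v) = S.W y v by
      change _ = y + S.tm y v • (-v); module]
    exact W_norm hy hv
  have etp : S.tp (y + s • v) v = S.tp y v - s :=
    Nrm.exitT_unique (N := S.N) hz hv (by linarith) hX1
  have etm : S.tm (y + s • v) v = S.tm y v + s :=
    Nrm.exitT_unique (N := S.N) hz (by rwa [S.N.neg]) (by linarith) hW1
  have eX : S.X (y + s • v) v = S.X y v := by
    change (y + s • v) + S.tp (y + s • v) v • v = y + S.tp y v • v
    rw [etp]; module
  have eW : S.W (y + s • v) v = S.W y v := by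
    change (y + s • v) + S.tm (y + s • v) v • (-v) = y + S.tm y v • (-v)
    rw [etm]; module
  have eD : S.D (y + s • v) v = S.D y v := by simp only [D, etp, etm]; ring
  have ee : S.eI (y + s • v) v = S.eI y v := by rw [eI, eI, eD, eX, eW]
  refine ⟨ee, ?_⟩
  rw [yI, yI, ee, eW, etm]
  module

theorem volume_sphere' (S : Setup E) : volume {y | S.N y = 1} = 0 := by
  have hc : Convex ℝ {y | S.N y ≤ 1} := by
    intro x hx y hy a b ha hb hab
    change S.N (a • x + b • y) ≤ 1
    refine (S.N.convex_comb_le ha hb).trans ?_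
    have h1 := mul_le_mul_of_nonneg_left (show S.N x ≤ 1 from hx) ha
    have h2 := mul_le_mul_of_nonneg_left (show S.N y ≤ 1 from hy) hb
    linarith
  refine measure_mono_null ?_ (Convex.addHaar_frontier volume hc)
  intro y hy
  have hy : S.N y = 1 := hy
  rw [frontier, Set.mem_sdiff]
  refine ⟨subset_closure hy.le, fun hi => ?_⟩
  have hev : ∀ᶠ t : ℝ in 𝓝 1, t • y ∈ interior {y | S.N y ≤ 1} :=
    (continuous_id.smul continuous_const).continuousAt.preimage_mem_nhds
      (isOpen_interior.mem_nhds (show (1 : ℝ) • y ∈ _ by rwa [one_smul]))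
  obtain ⟨t, ht, ht1⟩ := ((hev.filter_mono nhdsWithin_le_nhds).and
    (self_mem_nhdsWithin : ∀ᶠ t : ℝ in 𝓝[>] 1, t ∈ Ioi 1)).exists
  have h := interior_subset ht
  change S.N (t • y) ≤ 1 at h
  have ht1 : 1 < t := ht1
  rw [S.N.smul_nonneg (by linarith), hy, mul_one] at h
  linarith

/-- A function vanishing at both ends of every chord has derivative of zero integral. -/
theorem line_zero (S : Setup E) {v : E} (hv : S.N v = 1) {f d : E → ℝ} {C : ℝ} (hC : 0 ≤ C)
    (hfm : Measurable f) (hp : ∀ y, S.N y < 1 → |f y| ≤ C * S.tp y v)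
    (hm : ∀ y, S.N y < 1 → |f y| ≤ C * S.tm y v)
    (hlip : ∀ y (s : ℝ), S.N y < 1 → S.N (y + s • v) < 1 → |f (y + s • v) - f y| ≤ C * |s|)
    (hd : ∀ᵐ y, S.N y < 1 → HasDerivAt (fun s : ℝ => f (y + s • v)) (d y) 0) :
    IntegrableOn d S.N.ball ∧ ∫ y in S.N.ball, d y = 0 := by
  obtain ⟨c, hc, hlo⟩ := S.N.exists_lower
  set h := S.N.ball.indicator f with hh
  set D := S.N.ball.indicator d with hD
  have hin : ∀ {y}, S.N y < 1 → h y = f y := fun {y} hy =>
    indicator_of_mem (show y ∈ S.N.ball from hy) f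
  have hout : ∀ {y}, ¬ S.N y < 1 → h y = 0 := fun {y} hy =>
    indicator_of_notMem (show y ∉ S.N.ball from hy) f
  have hb : ∀ y, |h y| ≤ C * 2 := by
    intro y
    by_cases hy : S.N y < 1
    · rw [hin hy]
      exact (hp y hy).trans (mul_le_mul_of_nonneg_left (Nrm.exitT_le_two hy hv) hC)
    · rw [hout hy, abs_zero]; linarith
  have hedge : ∀ y (s : ℝ), S.N y < 1 → ¬ S.N (y + s • v) < 1 → |f y| ≤ C * |s| := by
    intro y s hy hz
    rcases le_total 0 s with hs | hs
    · refine (hp y hy).trans (mul_le_mul_of_nonneg_left ?_ hC)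
      rw [abs_of_nonneg hs]
      by_contra hlt
      exact hz (Nrm.lt_one_of_lt_exit hy hv hs (not_le.1 hlt))
    · refine (hm y hy).trans (mul_le_mul_of_nonneg_left ?_ hC)
      rw [abs_of_nonpos hs]
      by_contra hlt
      refine hz ?_
      have := Nrm.lt_one_of_lt_exit (N := S.N) (v := -v) hy (by rwa [S.N.neg]) (s := -s)
        (by linarith) (not_le.1 hlt)
      rwa [neg_smul_neg] at this
  have hl : ∀ y (s : ℝ), |h (y + s • v) - h y| ≤ C * 2 * |s| := by
    intro y s
    have hCs : C * |s| ≤ C * 2 * |s| := by nlinarith [abs_nonneg s]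
    by_cases hy : S.N y < 1 <;> by_cases hz : S.N (y + s • v) < 1
    · rw [hin hy, hin hz]; exact (hlip y s hy hz).trans hCs
    · rw [hin hy, hout hz, zero_sub, abs_neg]; exact (hedge y s hy hz).trans hCs
    · rw [hout hy, hin hz, sub_zero]
      have hback : y + s • v + (-s) • v = y := by module
      have := hedge (y + s • v) (-s) hz (by rwa [hback])
      rw [abs_neg] at this
      exact this.trans hCs
    · rw [hout hy, hout hz, sub_zero, abs_zero]; positivity
  have hsph : ∀ᵐ y, S.N y ≠ 1 := by
    rw [ae_iff]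
    simpa using S.volume_sphere'
  have hder : ∀ᵐ y, HasDerivAt (fun s : ℝ => h (y + s • v)) (D y) 0 := by
    filter_upwards [hd, hsph] with y hy hne
    have hcont : ContinuousAt (fun s : ℝ => S.N (y + s • v)) 0 :=
      (S.N.continuous.comp
        (continuous_const.add (continuous_id.smul continuous_const))).continuousAt
    rcases lt_or_gt_of_ne hne with hlt | hgt
    · rw [hD, indicator_of_mem (show y ∈ S.N.ball from hlt)]
      refine (hy hlt).congr_of_eventuallyEq ?_
      have hev : ∀ᶠ s : ℝ in 𝓝 0, S.N (y + s • v) < 1 :=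
        hcont.eventually_lt continuousAt_const (by simpa using hlt)
      filter_upwards [hev] with s hs
      exact hin hs
    · rw [hD, indicator_of_notMem (show y ∉ S.N.ball from not_lt.2 hgt.le)]
      refine (hasDerivAt_const (0 : ℝ) (0 : ℝ)).congr_of_eventuallyEq ?_
      have hev : ∀ᶠ s : ℝ in 𝓝 0, 1 < S.N (y + s • v) :=
        continuousAt_const.eventually_lt hcont (by simpa using hgt)
      filter_upwards [hev] with s hs
      exact hout (not_lt.2 hs.le)
  obtain ⟨hi, h0⟩ := integral_lineDeriv_eq_zero (C := C * 2) (R := c⁻¹)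
    (hfm.indicator S.N.measurableSet_ball) hb (fun y hy => hout fun hlt => by
      have h1 := hlo y
      have h2 : ‖y‖ ≤ c⁻¹ := by
        rw [← one_div, le_div_iff₀ hc]; linarith
      linarith) hl hder
  exact ⟨(integrable_indicator_iff S.N.measurableSet_ball).1 hi,
    by rwa [← integral_indicator S.N.measurableSet_ball]⟩

/-- the difference between the extension and the chord map -/
noncomputable def R (S : Setup E) (v y : E) : E := S.ext y - S.yI y v

theorem measurable_R (S : Setup E) (v : E) : Measurable (S.R v) :=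
  S.measurable_ext.sub
    (S.measurable_yI.comp (f := fun y => (y, v)) (measurable_id.prodMk measurable_const))

theorem exists_R_bounds (S : Setup E) :
    ∃ L : ℝ, 0 ≤ L ∧ ∀ {v : E}, S.N v = 1 → ∀ y, S.N y < 1 →
      S.M (S.R v y) ≤ L * S.tp y v ∧ S.M (S.R v y) ≤ L * S.tm y v ∧
      ∀ s : ℝ, S.N (y + s • v) < 1 → S.M (S.R v (y + s • v) - S.R v y) ≤ L * |s| := by
  obtain ⟨L, hL, h⟩ := S.exists_ext_le
  refine ⟨L + 1, by linarith, fun {v} hv y hy => ?_⟩
  have he : S.M (S.eI y v) = 1 := M_eI hy hv
  have htp := (tp_pos (S := S) hy hv).le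
  have htm := (tm_pos (S := S) hy hv).le
  refine ⟨?_, ?_, fun s hs => ?_⟩
  · have e : S.R v y = (S.ext y - S.ext (S.X y v)) + S.tp y v • S.eI y v := by
      rw [R, S.ext_boundary (X_norm hy hv), FX_eq hy hv]; abel
    have h1 := h y (S.X y v)
    have h2 : S.N (y - S.X y v) = S.tp y v := by
      rw [S.N.sub_comm, show S.X y v - y = S.tp y v • v from add_sub_cancel_left y _,
        S.N.smul_nonneg htp, hv, mul_one]
    rw [h2] at h1
    rw [e]
    refine (S.M.add_le _ _).trans ?_
    rw [S.M.smul_nonneg htp, he]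
    linarith
  · have e : S.R v y = (S.ext y - S.ext (S.W y v)) + S.tm y v • (-S.eI y v) := by
      rw [R, S.ext_boundary (W_norm hy hv), FW_eq]; abel
    have h1 := h y (S.W y v)
    have h2 : S.N (y - S.W y v) = S.tm y v := by
      rw [S.N.sub_comm, show S.W y v - y = S.tm y v • (-v) from add_sub_cancel_left y _,
        S.N.smul_nonneg htm, S.N.neg, hv, mul_one]
    rw [h2] at h1
    rw [e]
    refine (S.M.add_le _ _).trans ?_
    rw [S.M.smul_nonneg htm, S.M.neg, he]
    linarith
  · have e : S.R v (y + s • v) - S.R v y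
        = (S.ext (y + s • v) - S.ext y) + (-s) • S.eI y v := by
      rw [R, R, (line_chord hy hv hs).2]; module
    have h1 := h (y + s • v) y
    rw [add_sub_cancel_left, S.N.smul, hv, mul_one] at h1
    rw [e]
    refine (S.M.add_le _ _).trans ?_
    rw [S.M.smul, abs_neg, he]
    linarith

theorem hasDerivAt_R {v y : E} (hy : S.N y < 1) (hv : S.N v = 1)
    (hd : DifferentiableAt ℝ S.ext y) :
    HasDerivAt (fun s : ℝ => S.R v (y + s • v)) (fderiv ℝ S.ext y v - S.eI y v) 0 := by
  have hline : HasDerivAt (fun s : ℝ => y + s • v) v 0 := by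
    simpa using ((hasDerivAt_id (0 : ℝ)).smul_const v).const_add y
  have hex : HasFDerivAt S.ext (fderiv ℝ S.ext y) (y + (0 : ℝ) • v) := by
    rw [zero_smul, add_zero]; exact hd.hasFDerivAt
  have h1 : HasDerivAt (fun s : ℝ => S.ext (y + s • v)) (fderiv ℝ S.ext y v) 0 :=
    hex.comp_hasDerivAt (f := fun s : ℝ => y + s • v) 0 hline
  have h2 : HasDerivAt (fun s : ℝ => S.yI y v + s • S.eI y v) (S.eI y v) 0 := by
    simpa using ((hasDerivAt_id (0 : ℝ)).smul_const (S.eI y v)).const_add (S.yI y v)
  refine (h1.fun_sub h2).congr_of_eventuallyEq ?_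
  have hev : ∀ᶠ s : ℝ in 𝓝 0, S.N (y + s • v) < 1 :=
    ((S.N.continuous.comp
      (continuous_const.add (continuous_id.smul continuous_const))).continuousAt).eventually_lt
      continuousAt_const (by simpa using hy)
  filter_upwards [hev] with s hs
  rw [R, (line_chord hy hv hs).2]

end Setup

end Vale.Agent.P084
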