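import Vale.Agent.P084.Setup

/-!
Transfer from arbitrary finite dimensional normed spaces to two norms on a Euclidean space.
-/

open Set Metric Module
open scoped NNReal

namespace Vale.Agent.P084

section Hom

variable {X : Type*} [NormedAddCommGroup X] [NormedSpace ℝ X]
variable {Y : Type*} [NormedAddCommGroup Y] [NormedSpace ℝ Y]

/-- Positively homogeneous extension of a map of unit spheres. -/
noncomputable def homExt (f : sphere (0 : X) 1 → sphere (0 : Y) 1) (x : X) : Y :=
  open Classical in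
  if h : x = 0 then 0
  else ‖x‖ • ((f ⟨‖x‖⁻¹ • x, by
    rw [mem_sphere_zero_iff_norm, norm_smul, norm_inv, norm_norm,
      inv_mul_cancel₀ (norm_ne_zero_iff.2 h)]⟩ : sphere (0 : Y) 1) : Y)

variable (f : sphere (0 : X) 1 → sphere (0 : Y) 1)

theorem homExt_zero : homExt f 0 = 0 := by simp [homExt]

theorem homExt_sphere (x : sphere (0 : X) 1) : homExt f x = f x := by
  have hx : ‖(x : X)‖ = 1 := mem_sphere_zero_iff_norm.1 x.2
  have h0 : (x : X) ≠ 0 := fun h => by simp [h] at hx
  rw [homExt, dif_neg h0]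
  simp only [hx, inv_one, one_smul]

theorem homExt_smul_sphere {t : ℝ} (ht : 0 ≤ t) (x : sphere (0 : X) 1) :
    homExt f (t • (x : X)) = t • (f x : Y) := by
  have hx : ‖(x : X)‖ = 1 := mem_sphere_zero_iff_norm.1 x.2
  rcases eq_or_lt_of_le ht with rfl | ht0
  · simp [homExt_zero]
  have h0 : t • (x : X) ≠ 0 := smul_ne_zero ht0.ne' fun h => by simp [h] at hx
  rw [homExt, dif_neg h0]
  simp only [norm_smul, Real.norm_of_nonneg ht, hx, mul_one, smul_smul, inv_mul_cancel₀ ht0.ne',
    one_smul]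

theorem exists_polar {x : X} (h : x ≠ 0) :
    ∃ u : sphere (0 : X) 1, x = ‖x‖ • (u : X) := by
  refine ⟨⟨‖x‖⁻¹ • x, by
    rw [mem_sphere_zero_iff_norm, norm_smul, norm_inv, norm_norm,
      inv_mul_cancel₀ (norm_ne_zero_iff.2 h)]⟩, ?_⟩
  simp [smul_smul, mul_inv_cancel₀ (norm_ne_zero_iff.2 h)]

theorem norm_homExt (x : X) : ‖homExt f x‖ = ‖x‖ := by
  rcases eq_or_ne x 0 with rfl | h
  · simp [homExt_zero]
  obtain ⟨u, hu⟩ := exists_polar h
  rw [hu, homExt_smul_sphere f (norm_nonneg x), norm_smul, norm_smul,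
    mem_sphere_zero_iff_norm.1 u.2, mem_sphere_zero_iff_norm.1 (f u).2]

theorem homExt_smul {t : ℝ} (ht : 0 ≤ t) (x : X) : homExt f (t • x) = t • homExt f x := by
  rcases eq_or_ne x 0 with rfl | h
  · simp [homExt_zero]
  obtain ⟨u, hu⟩ := exists_polar h
  rw [hu, smul_smul, homExt_smul_sphere f (mul_nonneg ht (norm_nonneg x)),
    homExt_smul_sphere f (norm_nonneg x), smul_smul]

theorem homExt_homExt {g : sphere (0 : Y) 1 → sphere (0 : X) 1} (hg : ∀ u, g (f u) = u) (x : X) :
    homExt g (homExt f x) = x := by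
  rcases eq_or_ne x 0 with rfl | h
  · simp [homExt_zero]
  obtain ⟨u, hu⟩ := exists_polar h
  rw [hu, homExt_smul_sphere f (norm_nonneg x), homExt_smul_sphere g (norm_nonneg x), hg]

theorem homExt_lipschitz (hf : Isometry f) : LipschitzWith 3 (homExt f) := by
  refine LipschitzWith.of_dist_le_mul fun a b => ?_
  rw [dist_eq_norm, dist_eq_norm, NNReal.coe_ofNat]
  rcases eq_or_ne a 0 with rfl | ha
  · rw [homExt_zero, zero_sub, norm_neg, norm_homExt, zero_sub, norm_neg]
    linarith [norm_nonneg b]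
  rcases eq_or_ne b 0 with rfl | hb
  · rw [homExt_zero, sub_zero, sub_zero, norm_homExt]
    linarith [norm_nonneg a]
  obtain ⟨u, hu⟩ := exists_polar ha
  obtain ⟨w, hw⟩ := exists_polar hb
  have e1 : homExt f a - homExt f b
      = (‖a‖ - ‖b‖) • (f u : Y) + ‖b‖ • ((f u : Y) - f w) := by
    conv_lhs => rw [hu, hw, homExt_smul_sphere f (norm_nonneg a),
      homExt_smul_sphere f (norm_nonneg b)]
    module
  have e2 : ‖b‖ • ((u : X) - w) = (a - b) + (‖b‖ - ‖a‖) • (u : X) := by
    conv_rhs => rw [sub_smul, ← hu]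
    rw [smul_sub, ← hw]
    abel
  have h1 : ‖((f u : Y) - f w)‖ = ‖(u : X) - w‖ := by
    have := hf.dist_eq u w
    rwa [Subtype.dist_eq, Subtype.dist_eq, dist_eq_norm, dist_eq_norm] at this
  have h2 : ‖b‖ * ‖(u : X) - w‖ ≤ ‖a - b‖ + |‖b‖ - ‖a‖| := by
    have := norm_add_le (a - b) ((‖b‖ - ‖a‖) • (u : X))
    rw [← e2, norm_smul, norm_norm, norm_smul, mem_sphere_zero_iff_norm.1 u.2, mul_one,
      Real.norm_eq_abs] at this
    exact this
  have h3 := abs_norm_sub_norm_le a b
  have h4 := norm_add_le ((‖a‖ - ‖b‖) • (f u : Y)) (‖b‖ • ((f u : Y) - f w))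
  rw [← e1, norm_smul, norm_smul, norm_norm, mem_sphere_zero_iff_norm.1 (f u).2, mul_one,
    Real.norm_eq_abs, h1] at h4
  rw [abs_sub_comm ‖b‖] at h2
  linarith

end Hom

/-- The norm obtained from a linear equivalence with a normed space. -/
noncomputable def nrmOfEquiv {E : Type*} [AddCommGroup E] [Module ℝ E] {X : Type*}
    [NormedAddCommGroup X] [NormedSpace ℝ X] (e : X ≃ₗ[ℝ] E) : Nrm E where
  toFun z := ‖e.symm z‖
  add_le' a b := by simpa only [map_add] using norm_add_le (e.symm a) (e.symm b)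
  smul' c a := by rw [map_smul, norm_smul, Real.norm_eq_abs]
  pos' a ha := by simpa using ha

theorem finiteDimensional_of_sphere_image {X Y : Type*} [NormedAddCommGroup X] [NormedSpace ℝ X]
    [FiniteDimensional ℝ X] [NormedAddCommGroup Y] [NormedSpace ℝ Y]
    (f : sphere (0 : X) 1 → sphere (0 : Y) 1) (hf : Isometry f) (hs : Function.Surjective f) :
    FiniteDimensional ℝ Y := by
  have himg : closedBall (0 : Y) 1 = homExt f '' closedBall (0 : X) 1 := by
    ext y
    simp only [mem_image, mem_closedBall_zero_iff]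
    constructor
    · intro hy
      rcases eq_or_ne y 0 with rfl | h
      · exact ⟨0, by simp, homExt_zero f⟩
      obtain ⟨w, hw⟩ := exists_polar h
      obtain ⟨u, rfl⟩ := hs w
      refine ⟨‖y‖ • (u : X), ?_, by rw [homExt_smul_sphere f (norm_nonneg y), ← hw]⟩
      rwa [norm_smul, norm_norm, mem_sphere_zero_iff_norm.1 u.2, mul_one]
    · rintro ⟨x, hx, rfl⟩
      rwa [norm_homExt]
  have hc : IsCompact (closedBall (0 : Y) 1) := by
    rw [himg]
    exact (isCompact_closedBall 0 1).image (homExt_lipschitz f hf).continuous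
  exact FiniteDimensional.of_isCompact_closedBall₀ ℝ one_pos hc

/-- The extension theorem follows from linearity of every `Setup` on a Euclidean space. -/
theorem reduction
    (core : ∀ (n : ℕ) [Nontrivial (EuclideanSpace ℝ (Fin n))]
      (S : Setup (EuclideanSpace ℝ (Fin n))),
      ∃ L : EuclideanSpace ℝ (Fin n) →ₗ[ℝ] EuclideanSpace ℝ (Fin n), ∀ x, S.F x = L x) :
    ∀ (X : Type*) [NormedAddCommGroup X] [NormedSpace ℝ X] [FiniteDimensional ℝ X]
      (Y : Type*) [NormedAddCommGroup Y] [NormedSpace ℝ Y]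
      (f : sphere (0 : X) 1 → sphere (0 : Y) 1), Isometry f → Function.Surjective f →
      ∃ T : X ≃ₗᵢ[ℝ] Y, ∀ x : sphere (0 : X) 1, T (x : X) = (f x : Y) := by
  intro X _ _ _ Y _ _ f hf hs
  classical
  have := finiteDimensional_of_sphere_image f hf hs
  set g : sphere (0 : Y) 1 → sphere (0 : X) 1 := Function.surjInv hs with hg
  have hfg : ∀ w, f (g w) = w := Function.surjInv_eq hs
  have hgf : ∀ u, g (f u) = u := fun u => hf.injective (hfg (f u))
  have hgiso : Isometry g := Isometry.of_dist_eq fun a b => by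
    rw [← hf.dist_eq, hfg, hfg]
  set P := homExt f with hP
  set Q := homExt g with hQ
  have hQP : ∀ x, Q (P x) = x := homExt_homExt f hgf
  have hPQ : ∀ y, P (Q y) = y := homExt_homExt g hfg
  rcases subsingleton_or_nontrivial X with hX | hX
  · have hY : Subsingleton Y := ⟨fun a b => by
      rw [← hPQ a, ← hPQ b, Subsingleton.elim (Q a) (Q b)]⟩
    exact ⟨{ (0 : X ≃ₗ[ℝ] Y) with norm_map' := fun x => by simp [Subsingleton.elim x 0] },
      fun x => Subsingleton.elim _ _⟩
  have hrank : finrank ℝ X = finrank ℝ Y := by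
    have h1 : dimH (univ : Set Y) ≤ dimH (univ : Set X) := by
      have := (homExt_lipschitz f hf).dimH_range_le
      rwa [Function.Surjective.range_eq fun y => ⟨Q y, hPQ y⟩] at this
    have h2 : dimH (univ : Set X) ≤ dimH (univ : Set Y) := by
      have := (homExt_lipschitz g hgiso).dimH_range_le
      rwa [Function.Surjective.range_eq fun x => ⟨P x, hQP x⟩] at this
    have h3 := le_antisymm h2 h1
    rw [Real.dimH_univ_eq_finrank X, Real.dimH_univ_eq_finrank Y] at h3
    exact_mod_cast h3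
  set n := finrank ℝ X with hn
  have : Nontrivial (EuclideanSpace ℝ (Fin n)) :=
    nontrivial_of_finrank_pos (R := ℝ) (by rw [finrank_euclideanSpace_fin]; exact finrank_pos)
  set eX : X ≃ₗ[ℝ] EuclideanSpace ℝ (Fin n) :=
    LinearEquiv.ofFinrankEq _ _ (by rw [finrank_euclideanSpace_fin]) with heX
  set eY : Y ≃ₗ[ℝ] EuclideanSpace ℝ (Fin n) :=
    LinearEquiv.ofFinrankEq _ _ (by rw [finrank_euclideanSpace_fin, ← hrank]) with heY
  let S : Setup (EuclideanSpace ℝ (Fin n)) :=
    { N := nrmOfEquiv eX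
      M := nrmOfEquiv eY
      F := fun z => eY (P (eX.symm z))
      G := fun z => eX (Q (eY.symm z))
      hMF := fun z => by simp [nrmOfEquiv, hP, norm_homExt]
      hsmul := fun t z ht => by simp [hP, homExt_smul f ht]
      hGF := fun z => by simp [hQP]
      hFG := fun z => by simp [hPQ]
      hiso := fun a b ha hb => by
        simp only [nrmOfEquiv] at ha hb ⊢
        rw [map_sub, map_sub, LinearEquiv.symm_apply_apply, LinearEquiv.symm_apply_apply]
        have hu : eX.symm a ∈ sphere (0 : X) 1 := mem_sphere_zero_iff_norm.2 ha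
        have hw : eX.symm b ∈ sphere (0 : X) 1 := mem_sphere_zero_iff_norm.2 hb
        rw [show P (eX.symm a) = f ⟨_, hu⟩ from homExt_sphere f ⟨_, hu⟩,
          show P (eX.symm b) = f ⟨_, hw⟩ from homExt_sphere f ⟨_, hw⟩]
        have := hf.dist_eq ⟨_, hu⟩ ⟨_, hw⟩
        rwa [Subtype.dist_eq, Subtype.dist_eq, dist_eq_norm, dist_eq_norm] at this }
  obtain ⟨L, hL⟩ := core n S
  set T₀ : X →ₗ[ℝ] Y := eY.symm.toLinearMap.comp (L.comp eX.toLinearMap) with hT₀
  have hT : ∀ x, T₀ x = P x := fun x => by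
    simp only [hT₀, LinearMap.comp_apply, LinearEquiv.coe_coe]
    rw [← hL]
    simp [S]
  refine ⟨LinearIsometryEquiv.ofSurjective
    { toLinearMap := T₀, norm_map' := fun x => by rw [hT]; exact norm_homExt f x }
    (fun y => ⟨Q y, by simp [hT, hPQ]⟩), fun x => ?_⟩
  change T₀ (x : X) = _
  rw [hT]
  exact homExt_sphere f x

end Vale.Agent.P084
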