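import Vale.Agent.P084.Jacobian

/-!
The potentials of functionals on the target, pulled back by the boundary map.
-/

open scoped RealInnerProductSpace NNReal ENNReal
open Set Filter Topology MeasureTheory ContinuousLinearMap Module

set_option linter.unusedSectionVars false

namespace Vale.Agent.P084

variable {E : Type*} [NormedAddCommGroup E] [InnerProductSpace ℝ E] [FiniteDimensional ℝ E]
  [Nontrivial E] [MeasurableSpace E] [BorelSpace E]

namespace Setup

variable (S : Setup E)

/-- the inf-convolution of boundary values of a functional -/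
noncomputable def U (p y : E) : ℝ :=
  sInf ((fun b => ⟪p, S.F b⟫ + S.M.dual p * S.N (y - b)) '' {b | S.N b = 1})

theorem continuous_U_aux (p y : E) :
    Continuous (fun b => ⟪p, S.F b⟫ + S.M.dual p * S.N (y - b)) :=
  (continuous_const.inner S.continuous_F).add
    (continuous_const.mul (S.N.continuous.comp (continuous_const.sub continuous_id)))

theorem U_le (p y : E) {b : E} (hb : S.N b = 1) :
    S.U p y ≤ ⟪p, S.F b⟫ + S.M.dual p * S.N (y - b) :=
  csInf_le (S.N.isCompact_sphere'.image (S.continuous_U_aux p y)).bddBelow ⟨b, hb, rfl⟩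

theorem le_U (p y : E) {c : ℝ}
    (h : ∀ b, S.N b = 1 → c ≤ ⟪p, S.F b⟫ + S.M.dual p * S.N (y - b)) : c ≤ S.U p y := by
  obtain ⟨u, hu⟩ := S.N.exists_unit
  refine le_csInf ⟨_, u, hu, rfl⟩ ?_
  rintro _ ⟨b, hb, rfl⟩
  exact h b hb

theorem U_boundary (p : E) {x : E} (hx : S.N x = 1) : S.U p x = ⟪p, S.F x⟫ := by
  refine le_antisymm ?_ (S.le_U p x fun b hb => ?_)
  · have := S.U_le p x hx
    rwa [sub_self, S.N.map_zero, mul_zero, add_zero] at this
  · have h := S.M.inner_le_dual p (S.F x - S.F b)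
    rw [S.hiso x b hx hb, inner_sub_right] at h
    linarith

theorem U_sub_le (p y z : E) : S.U p y - S.U p z ≤ S.M.dual p * S.N (y - z) := by
  rw [sub_le_iff_le_add, add_comm, ← sub_le_iff_le_add]
  refine S.le_U p z fun b hb => ?_
  have h := S.U_le p y hb
  have h1 := S.N.add_le (y - z) (z - b)
  rw [sub_add_sub_cancel] at h1
  have h2 := mul_le_mul_of_nonneg_left h1 (S.M.dual.nonneg p)
  linarith

theorem abs_U_sub_le (p y z : E) : |S.U p y - S.U p z| ≤ S.M.dual p * S.N (y - z) := by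
  rw [abs_le]
  refine ⟨?_, S.U_sub_le p y z⟩
  have := S.U_sub_le p z y
  rw [S.N.sub_comm] at this
  linarith

theorem continuous_U : Continuous (fun q : E × E => S.U q.1 q.2) := by
  have hF := S.continuous_F
  have hN := S.N.continuous
  have hM := S.M.dual.continuous
  exact (S.N.isCompact_sphere').continuous_sInf
    (f := fun (q : E × E) b => ⟪q.1, S.F b⟫ + S.M.dual q.1 * S.N (q.2 - b)) (by fun_prop)

theorem exists_lip_U :
    ∃ C : ℝ, 0 ≤ C ∧ ∀ p y z, |S.U p y - S.U p z| ≤ S.M.dual p * (C * ‖y - z‖) := by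
  obtain ⟨C, hC, h⟩ := S.N.exists_upper
  exact ⟨C, hC.le, fun p y z =>
    (S.abs_U_sub_le p y z).trans (mul_le_mul_of_nonneg_left (h _) (S.M.dual.nonneg p))⟩

theorem exists_lipschitzWith_U (p : E) : ∃ C : ℝ≥0, LipschitzWith C (S.U p) := by
  obtain ⟨C, hC, h⟩ := S.exists_lip_U
  refine ⟨(S.M.dual p * C).toNNReal, LipschitzWith.of_dist_le_mul fun y z => ?_⟩
  rw [Real.coe_toNNReal _ (mul_nonneg (S.M.dual.nonneg p) hC), Real.dist_eq, dist_eq_norm, mul_assoc]
  exact h p y z

theorem ae_diff_U (p : E) : ∀ᵐ y : E, DifferentiableAt ℝ (S.U p) y := by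
  obtain ⟨C, hC⟩ := S.exists_lipschitzWith_U p
  exact hC.ae_differentiableAt

theorem measurable_grad_U : Measurable (fun q : E × E => gradient (S.U q.1) q.2) :=
  (InnerProductSpace.toDual ℝ E).symm.continuous.measurable.comp
    (measurable_fderiv_with_param ℝ (f := S.U) S.continuous_U)

theorem measurableSet_diff_U : MeasurableSet {q : E × E | DifferentiableAt ℝ (S.U q.1) q.2} :=
  measurableSet_of_differentiableAt_with_param ℝ (f := S.U) S.continuous_U

theorem norm_fderiv_U {C : ℝ} (hC : 0 ≤ C)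
    (h : ∀ p y z, |S.U p y - S.U p z| ≤ S.M.dual p * (C * ‖y - z‖)) (p y : E) :
    ‖fderiv ℝ (S.U p) y‖ ≤ S.M.dual p * C := by
  have hL : LipschitzWith (S.M.dual p * C).toNNReal (S.U p) :=
    LipschitzWith.of_dist_le_mul fun a b => by
      rw [Real.coe_toNNReal _ (mul_nonneg (S.M.dual.nonneg p) hC), Real.dist_eq, dist_eq_norm,
        mul_assoc]
      exact h p a b
  have h2 := norm_fderiv_le_of_lipschitz ℝ hL (x₀ := y)
  rwa [Real.coe_toNNReal _ (mul_nonneg (S.M.dual.nonneg p) hC)] at h2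

/-- On the pulled back point the potential is the linear functional itself. -/
theorem U_symm_yI {p : E} (hd : DifferentiableAt ℝ (fun ψ => S.M.dual ψ) p) {z : E}
    (hz : S.M z < 1) : S.U p (S.symm.yI z (S.M.vv p)) = ⟪p, z⟫ := by
  set e := S.M.vv p
  have hmax : S.M.IsMax p e := S.M.vv_isMax hd
  have hpe : ⟪p, e⟫ = S.M.dual p := hmax.2
  have he : S.symm.N e = 1 := hmax.1
  have hz' : S.symm.N z < 1 := hz
  set f := S.symm.eI z e with hf
  have hNf : S.N f = 1 := M_eI (S := S.symm) hz' he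
  have hx : S.G (S.symm.X z e) = S.symm.yI z e + S.symm.tp z e • f := FX_eq (S := S.symm) hz' he
  have hw : S.G (S.symm.W z e) = S.symm.yI z e + S.symm.tm z e • (-f) := FW_eq (S := S.symm)
  have hxn : S.M (S.symm.X z e) = 1 := X_norm (S := S.symm) hz' he
  have hwn : S.M (S.symm.W z e) = 1 := W_norm (S := S.symm) hz' he
  have htp : 0 ≤ S.symm.tp z e := (tp_pos (S := S.symm) hz' he).le
  have htm : 0 ≤ S.symm.tm z e := (tm_pos (S := S.symm) hz' he).le
  set y := S.symm.yI z e
  refine le_antisymm ?_ (S.le_U p y fun b hb => ?_)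
  · have h := S.U_le p y (b := S.G (S.symm.W z e)) (by rw [S.hNG, hwn])
    have e1 : y - S.G (S.symm.W z e) = S.symm.tm z e • f := by rw [hw]; module
    have e2 : S.symm.W z e = z + S.symm.tm z e • (-e) := rfl
    rw [S.hFG, e1, S.N.smul_nonneg htm, hNf, mul_one, e2, inner_add_right, real_inner_smul_right,
      inner_neg_right, hpe] at h
    linarith
  · have h1 := S.M.inner_le_dual p (S.symm.X z e - S.F b)
    have h2 : S.M (S.symm.X z e - S.F b) = S.N (S.G (S.symm.X z e) - b) := by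
      have := S.hiso (S.G (S.symm.X z e)) b (by rw [S.hNG, hxn]) hb
      rwa [S.hFG] at this
    have e2 : S.symm.X z e = z + S.symm.tp z e • e := rfl
    have h3 := S.N.add_le (S.symm.tp z e • f) (y - b)
    have e3 : S.symm.tp z e • f + (y - b) = S.G (S.symm.X z e) - b := by rw [hx]; abel
    rw [e3, S.N.smul_nonneg htp, hNf, mul_one] at h3
    rw [h2] at h1
    have h4 := mul_le_mul_of_nonneg_left h3 (S.M.dual.nonneg p)
    rw [e2, inner_sub_right, inner_add_right, real_inner_smul_right, hpe] at h1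
    rw [mul_add] at h4
    rw [mul_comm (S.M.dual p) (S.symm.tp z e)] at h4
    rw [← e2] at h1
    linarith

theorem inner_pI_Gam {q : E × E} (h : q ∈ S.Pre) (u : E) :
    ⟪S.pI q.1 q.2, S.Gam q u⟫ = ⟪q.2, u⟫ := by
  have hf : Facts S q.1 q.2 := Pre.facts h
  have a1 := inner_pI_PmW hf h.2.2.2.2 u
  have a2 : ⟪S.pI q.1 q.2,
      S.Pm (S.X q.1 (S.N.vv q.2)) (S.N.vv q.2) (S.eI q.1 (S.N.vv q.2)) u⟫ = ⟪q.2, u⟫ :=
    pOf_Pm h.2.2.2.1 hf.psiX.ne' hf.psiX'.ne' u
  simp only [Gam, add_apply, smul_apply, inner_add_right, real_inner_smul_right, a1, a2]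
  ring

theorem hasFDerivAt_Gam' {y φ : E} (h : (y, φ) ∈ S.Pre) :
    HasFDerivAt (fun z => S.yI z (S.N.vv φ)) (S.Gam (y, φ)) y :=
  hasFDerivAt_Gam (q := (y, φ)) h

/-- At a nondegenerate point the gradient of the potential is the transported functional. -/
theorem grad_U_eq {z p : E} (h : (z, p) ∈ S.symm.Good)
    (hdiff : DifferentiableAt ℝ (S.U p) (S.symm.yI z (S.M.vv p)))
    (hdet : (S.symm.Gam (z, p)).det ≠ 0) :
    gradient (S.U p) (S.symm.yI z (S.M.vv p)) = S.symm.pI z p := by
  have hz : S.M z < 1 := h.1.1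
  have hd : DifferentiableAt ℝ (fun ψ => S.M.dual ψ) p := S.M.diff_of_mem h.1.2.2.1
  have h1 : HasFDerivAt (fun x => S.symm.yI x (S.symm.N.vv p)) (S.symm.Gam (z, p)) z :=
    S.symm.hasFDerivAt_Gam' h.1
  have e0 : S.symm.N = S.M := rfl
  rw [e0] at h1
  have h5 : ∀ u, ⟪S.symm.pI z p, S.symm.Gam (z, p) u⟫ = ⟪p, u⟫ :=
    fun u => S.symm.inner_pI_Gam h.1 u
  generalize S.symm.Gam (z, p) = L at h1 h5 hdet
  have h2 := hdiff.hasFDerivAt.comp z h1
  have h3 : HasFDerivAt (fun x => ⟪p, x⟫) ((fderiv ℝ (S.U p) (S.symm.yI z (S.M.vv p))).comp L) z := by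
    refine h2.congr_of_eventuallyEq ?_
    filter_upwards [(S.M.isOpen_ball).mem_nhds hz] with x hx
    exact (S.U_symm_yI hd hx).symm
  have h4 := h3.unique (innerSL ℝ p).hasFDerivAt
  have hsurj : Function.Surjective L := by
    have hu : IsUnit (L : E →ₗ[ℝ] E).det := isUnit_iff_ne_zero.2 hdet
    exact ((LinearMap.isUnit_iff_isUnit_det _).2 hu |> (Module.End.isUnit_iff _).1).2
  apply ext_inner_right ℝ
  intro w
  obtain ⟨u, rfl⟩ := hsurj w
  rw [h5 u, inner_gradient_left]
  exact congrArg (fun T : E →L[ℝ] ℝ => T u) h4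

/-- Distribution of the gradients of the potentials. -/
theorem grad_distribution (S : Setup E) {H : E → ℝ≥0∞} (hH : Measurable H) :
    ∫⁻ p in S.M.dualBall, ∫⁻ y in S.N.ball, H (gradient (S.U p) y)
      = ENNReal.ofReal S.symm.ratio * (volume S.N.ball * ∫⁻ φ in S.N.dualBall, H φ) := by
  have h1 : ∀ᵐ p : E, ∀ᵐ z : E, (z, p) ∈ S.symm.Good →
      |(S.symm.Gam (z, p)).det| = S.symm.ratio := by
    have hm : MeasurableSet {q : E × E | q ∈ S.symm.Good → |(S.symm.Gam q).det| = S.symm.ratio} :=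
      S.symm.measurableSet_Good.imp
        (measurableSet_eq_fun S.symm.measurable_absdet_Gam measurable_const)
    have h := S.symm.jac_eq
    rw [Measure.volume_eq_prod, Measure.ae_prod_iff_ae_ae hm,
      Measure.ae_ae_comm
        (p := fun z p => (z, p) ∈ S.symm.Good → |(S.symm.Gam (z, p)).det| = S.symm.ratio) hm] at h
    exact h
  have hkey : ∀ᵐ p : E, p ∈ S.M.dualBall →
      ∫⁻ y in S.N.ball, H (gradient (S.U p) y)
        = ENNReal.ofReal S.symm.ratio *
          ∫⁻ z in {z | (z, p) ∈ S.symm.Good}, H (S.symm.pI z p) := by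
    filter_upwards [h1, S.symm.change_var] with p hp1 hp2 hpK
    have hcv : ∀ g : E → ℝ≥0∞, ∫⁻ y in S.N.ball, g y = ENNReal.ofReal S.symm.ratio *
        ∫⁻ z in {z | (z, p) ∈ S.symm.Good}, g (S.symm.yI z (S.M.vv p)) := hp2 hpK
    rw [hcv]
    congr 1
    have hbad : MeasurableSet {y | ¬ DifferentiableAt ℝ (S.U p) y} :=
      (measurableSet_of_differentiableAt ℝ (S.U p)).compl
    have hzero : ∫⁻ z in {z | (z, p) ∈ S.symm.Good},
        {y | ¬ DifferentiableAt ℝ (S.U p) y}.indicator (fun _ => (1 : ℝ≥0∞))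
          (S.symm.yI z (S.M.vv p)) = 0 := by
      have h := hcv ({y | ¬ DifferentiableAt ℝ (S.U p) y}.indicator fun _ => (1 : ℝ≥0∞))
      have h0 : ∫⁻ y in S.N.ball,
          {y | ¬ DifferentiableAt ℝ (S.U p) y}.indicator (fun _ => (1 : ℝ≥0∞)) y = 0 := by
        refine lintegral_eq_zero_of_ae_eq_zero (ae_restrict_of_ae ?_)
        filter_upwards [S.ae_diff_U p] with y hy
        exact indicator_of_notMem (fun hc : y ∈ {y | ¬ DifferentiableAt ℝ (S.U p) y} => hc hy) _
      rw [h0] at h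
      exact (mul_eq_zero.1 h.symm).resolve_left
        (ne_of_gt (ENNReal.ofReal_pos.2 S.symm.ratio_pos))
    have hdiff : ∀ᵐ z : E, (z, p) ∈ S.symm.Good →
        DifferentiableAt ℝ (S.U p) (S.symm.yI z (S.M.vv p)) := by
      have hmy : Measurable (fun z => S.symm.yI z (S.M.vv p)) :=
        S.symm.measurable_yI.comp (f := fun z => (z, S.M.vv p))
          (measurable_id.prodMk measurable_const)
      have hmi : Measurable (fun z => {y | ¬ DifferentiableAt ℝ (S.U p) y}.indicator
          (fun _ => (1 : ℝ≥0∞)) (S.symm.yI z (S.M.vv p))) :=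
        (measurable_const.indicator hbad).comp hmy
      rw [setLIntegral_eq_zero_iff (S.symm.measurableSet_slice p) hmi] at hzero
      filter_upwards [hzero] with z hz hmem
      by_contra hc
      have h := hz hmem
      rw [indicator_of_mem (show S.symm.yI z (S.M.vv p) ∈ {y | ¬ DifferentiableAt ℝ (S.U p) y}
        from hc)] at h
      exact one_ne_zero h
    refine setLIntegral_congr_fun_ae (S.symm.measurableSet_slice p) ?_
    filter_upwards [hdiff, hp1] with z hz1 hz2 hmem
    rw [S.grad_U_eq hmem (hz1 hmem) fun h0 => ?_]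
    have := hz2 hmem
    rw [h0, abs_zero] at this
    exact S.symm.ratio_pos.ne this
  rw [setLIntegral_congr_fun_ae S.M.isCompact_dualBall.measurableSet hkey,
    lintegral_const_mul' _ _ ENNReal.ofReal_ne_top]
  congr 1
  have hg : Measurable (fun q : E × E => H (S.symm.pI q.1 q.2)) := hH.comp S.symm.measurable_pI
  calc ∫⁻ p in S.M.dualBall, ∫⁻ z in {z | (z, p) ∈ S.symm.Good}, H (S.symm.pI z p)
      = ∫⁻ q in S.symm.Good, H (S.symm.pI q.1 q.2) := (S.symm.lintegral_Good hg).symm
    _ = ∫⁻ q in S.Good, H q.2 := S.symm.preserve (H := fun q => H q.2) (hH.comp measurable_snd)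
    _ = ∫⁻ q in S.N.ball ×ˢ S.N.dualBall, H q.2 := by
        refine setLIntegral_congr ?_
        filter_upwards [S.ae_good] with q hq
        exact propext ⟨fun h => ⟨h.1.1, h.1.2.1⟩, fun h => hq h.1 h.2⟩
    _ = volume S.N.ball * ∫⁻ φ in S.N.dualBall, H φ := by
        rw [Measure.volume_eq_prod, ← Measure.prod_restrict]
        have h := lintegral_prod_mul (μ := volume.restrict S.N.ball)
          (ν := volume.restrict S.N.dualBall) (f := fun _ => (1 : ℝ≥0∞)) (g := H)
          aemeasurable_const hH.aemeasurable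
        simpa using h

end Setup

end Vale.Agent.P084
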