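import Vale.Agent.P084.Theta

/-!
The correspondence of chords preserves Lebesgue measure on pairs.
-/

open scoped RealInnerProductSpace NNReal ENNReal
open Set Filter Topology MeasureTheory ContinuousLinearMap Module

set_option linter.unusedSectionVars false

namespace Vale.Agent.P084

variable {E : Type*} [NormedAddCommGroup E] [InnerProductSpace ℝ E] [FiniteDimensional ℝ E]
  [Nontrivial E] [MeasurableSpace E] [BorelSpace E]

namespace Setup

variable (S : Setup E)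

/-- fibre of a set of chords over a point of the auxiliary domain -/
def fib (T : Set (E × E)) (a : E) : Set E :=
  {φ | a ∈ S.dom (S.N.vv φ) ∧ (S.theta a (S.N.vv φ), φ) ∈ T}

/-- the transported functional at a fixed end -/
noncomputable def fibMap (a φ : E) : E := S.pI (S.theta a (S.N.vv φ)) φ

theorem measurable_fibPair : Measurable (fun q : E × E => (S.theta q.1 (S.N.vv q.2), q.2)) :=
  (S.measurable_theta.comp S.measurable_vsnd).prodMk measurable_snd

theorem measurableSet_rel {T : Set (E × E)} (hT : MeasurableSet T) :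
    MeasurableSet {q : E × E | q.2 ∈ S.fib T q.1} :=
  (S.measurable_vsnd S.measurableSet_dom').inter (S.measurable_fibPair hT)

theorem measurableSet_fib {T : Set (E × E)} (hT : MeasurableSet T) (a : E) :
    MeasurableSet (S.fib T a) :=
  (measurable_const.prodMk measurable_id) (S.measurableSet_rel hT)

theorem slice {T : Set (E × E)} (hT : MeasurableSet T) (hsub : T ⊆ S.Pre) {g : E × E → ℝ≥0∞}
    (hg : Measurable g) :
    ∫⁻ q in T, g q = ∫⁻ a, ∫⁻ φ in S.fib T a,
      ENNReal.ofReal (S.cw a * ⟪S.psi a, S.N.vv φ⟫) * g (S.theta a (S.N.vv φ), φ) := by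
  set G : E × E → ℝ≥0∞ := T.indicator g with hG
  have hGm : Measurable G := hg.indicator hT
  set R : E × E → ℝ≥0∞ := {q : E × E | q.2 ∈ S.fib T q.1}.indicator (fun q =>
    ENNReal.ofReal (S.cw q.1 * ⟪S.psi q.1, S.N.vv q.2⟫) * g (S.theta q.1 (S.N.vv q.2), q.2))
    with hR
  have hRm : Measurable R := by
    refine Measurable.indicator ?_ (S.measurableSet_rel hT)
    exact (((S.measurable_cw.comp measurable_fst).mul (measurable_inner'
      (S.measurable_psi.comp measurable_fst) (S.N.measurable_vv.comp measurable_snd))).ennreal_ofReal).mul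
        (hg.comp S.measurable_fibPair)
  have step : ∀ φ, ∫⁻ y, G (y, φ) = ∫⁻ a, R (a, φ) := by
    intro φ
    set v := S.N.vv φ
    have hv : S.N v = 1 := S.N.vv_unit φ
    have hsupp : ∀ y ∉ {y | S.N y < 1 ∧ S.GoodS (S.X y v)}, G (y, φ) = 0 := fun y hy =>
      indicator_of_notMem (fun hm => hy ⟨(hsub hm).1, (hsub hm).2.2.2.1⟩) _
    rw [← setLIntegral_eq_of_support_subset (s := {y | S.N y < 1 ∧ S.GoodS (S.X y v)})
      (fun y hy => by_contra fun h => hy (hsupp y h)), lintegral_theta hv,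
      ← lintegral_indicator (S.measurableSet_dom v)]
    refine lintegral_congr fun a => ?_
    by_cases ha : a ∈ S.dom v
    · rw [indicator_of_mem ha]
      by_cases ht : (S.theta a v, φ) ∈ T
      · rw [hG, indicator_of_mem ht, hR,
          indicator_of_mem (show (a, φ) ∈ {q : E × E | q.2 ∈ S.fib T q.1} from ⟨ha, ht⟩)]
      · rw [hG, indicator_of_notMem ht, mul_zero, hR,
          indicator_of_notMem (show (a, φ) ∉ {q : E × E | q.2 ∈ S.fib T q.1} from fun h => ht h.2)]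
    · rw [indicator_of_notMem ha, hR,
        indicator_of_notMem (show (a, φ) ∉ {q : E × E | q.2 ∈ S.fib T q.1} from fun h => ha h.1)]
  rw [← lintegral_indicator hT, Measure.volume_eq_prod, lintegral_prod_symm _ hGm.aemeasurable,
    lintegral_congr step]
  rw [← lintegral_lintegral_swap (f := fun a φ => R (a, φ)) hRm.aemeasurable]
  refine lintegral_congr fun a => ?_
  rw [← lintegral_indicator (S.measurableSet_fib hT a)]
  refine lintegral_congr fun φ => ?_
  by_cases h : φ ∈ S.fib T a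
  · rw [hR, indicator_of_mem h,
      indicator_of_mem (show (a, φ) ∈ {q : E × E | q.2 ∈ S.fib T q.1} from h)]
  · rw [hR, indicator_of_notMem h,
      indicator_of_notMem (show (a, φ) ∉ {q : E × E | q.2 ∈ S.fib T q.1} from h)]

variable {S}

theorem chord_unique {y v : E} (hy : S.N y < 1) (hv : S.N v = 1) {s : ℝ} (hs : 0 < s)
    (hn : S.N (S.X y v - s • v) = 1) : S.D y v = s := by
  have hT := tp_pos (S := S) hy hv
  rcases lt_or_ge s (S.tp y v) with h | h
  · have e : S.X y v - s • v = y + (S.tp y v - s) • v := by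
      simp only [X, Nrm.exitP, tp]; module
    have := Nrm.lt_one_of_lt_exit (N := S.N) hy hv (s := S.tp y v - s) (by linarith)
      (show S.tp y v - s < S.N.exitT y v by change _ < S.tp y v; linarith)
    rw [← e, hn] at this
    exact absurd this (lt_irrefl _)
  · have e : S.X y v - s • v = y + (s - S.tp y v) • (-v) := by
      simp only [X, Nrm.exitP, tp]; module
    have h2 := Nrm.exitT_unique (N := S.N) (v := -v) hy (by rwa [S.N.neg])
      (by linarith : 0 ≤ s - S.tp y v) (by rw [← e, hn])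
    simp only [D, tm, h2]
    ring

theorem fib_pre {a φ : E} (h : φ ∈ S.fib S.Pre a) :
    S.X (S.theta a (S.N.vv φ)) (S.N.vv φ) = (S.N a)⁻¹ • a ∧
      S.tp (S.theta a (S.N.vv φ)) (S.N.vv φ) = 3 * S.N a :=
  theta_chord h.1 (S.N.vv_unit φ)

theorem hasFDerivWithinAt_fibMap {a φ : E} (h : φ ∈ S.fib S.Pre a) :
    HasFDerivWithinAt (S.fibMap a)
      (adjoint (S.Pi (S.X (S.theta a (S.N.vv φ)) (S.N.vv φ)) (S.N.vv φ)
        (S.eI (S.theta a (S.N.vv φ)) (S.N.vv φ)))) (S.fib S.Pre a) φ := by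
  obtain ⟨hy, hK, hAN, hX, hW⟩ := h.2
  obtain ⟨hx, ht⟩ := fib_pre h
  have hd := S.N.diff_of_mem hAN
  obtain ⟨hφ, -, T0, hT0, -, -⟩ := S.N.alex_of_mem hAN
  have hf : Facts S (S.theta a (S.N.vv φ)) φ := Pre.facts h.2
  obtain ⟨vf, dv, hvf0, dvf, hvmax, -⟩ := exists_selection hφ hd hT0
  obtain ⟨Wf, ef, Df, de, hef0, def', hde, hch⟩ := moving_chord hy (S.N.vv_unit φ) hW hf.psiW.ne
    hvf0 dvf (hvmax.mono fun _ h => h.1)
  obtain ⟨pf, hpf0, dpf, -, hform⟩ :=
    moving_functional hy hd hX hW hvf0 dvf hvmax hef0 def' hde hch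
  refine dpf.hasFDerivWithinAt.congr_of_eventuallyEq ?_ hpf0.symm
  filter_upwards [self_mem_nhdsWithin, nhdsWithin_le_nhds hvmax, nhdsWithin_le_nhds hch]
    with ψ hψ hm ⟨hD, hxW, hn, he⟩
  have hvψ : vf ψ = S.N.vv ψ := S.N.isMax_eq_vv (S.N.diff_of_mem hψ.2.2.2.1) hm
  obtain ⟨hxψ, -⟩ := fib_pre hψ
  rw [hform, fibMap, pI, hvψ, hxψ, hx]
  have hv := S.N.vv_unit ψ
  have hWeq : Wf ψ = (S.N a)⁻¹ • a - Df ψ • S.N.vv ψ := by
    rw [← hx, ← hvψ, ← hxW]; abel
  have hDeq : S.D (S.theta a (S.N.vv ψ)) (S.N.vv ψ) = Df ψ := by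
    refine chord_unique hψ.2.1 hv hD ?_
    rw [hxψ, ← hWeq, hn]
  have hW2 : S.W (S.theta a (S.N.vv ψ)) (S.N.vv ψ) = Wf ψ := by
    have := X_sub_W (S := S) (y := S.theta a (S.N.vv ψ)) (v := S.N.vv ψ)
    rw [hDeq, hxψ] at this
    rw [hWeq, ← this]
    abel
  rw [show S.eI (S.theta a (S.N.vv ψ)) (S.N.vv ψ) = ef ψ by rw [eI, hDeq, hxψ, hW2, he, hx]]

theorem injOn_fibMap {a : E} : InjOn (S.fibMap a) (S.fib S.Pre a) := by
  intro φ hφ ψ hψ h
  have key : ∀ χ, χ ∈ S.fib S.Pre a →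
      (∀ u, ⟪S.psi a, u⟫ = 0 → ⟪S.fibMap a χ, S.A a u⟫ = ⟪χ, u⟫) ∧
      S.M.dual (S.fibMap a χ) = S.N.dual χ := by
    intro χ hχ
    have hf : Facts S (S.theta a (S.N.vv χ)) χ := Pre.facts hχ.2
    obtain ⟨hx, -⟩ := fib_pre hχ
    refine ⟨fun u hu => ?_, hf.dual_eq⟩
    have hg := hχ.2.2.2.2.1
    have := pOf_Pm (φ := χ) hg hf.psiX.ne' hf.psiX'.ne' u
    have hu' : ⟪S.psi (S.X (S.theta a (S.N.vv χ)) (S.N.vv χ)), u⟫ = 0 := by
      rw [hx, (unit_of_goodS hχ.1.1).2.2.1, hu]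
    rw [GoodS.Pm_tangent hu'] at this
    rw [hx, (unit_of_goodS hχ.1.1).2.1] at this
    simp only [fibMap, pI]
    rw [hx]
    exact this
  obtain ⟨k1, d1⟩ := key φ hφ
  obtain ⟨k2, d2⟩ := key ψ hψ
  rw [h] at k1 d1
  have hψv : 0 < ⟪S.psi a, S.N.vv φ⟫ := hφ.1.2.1
  have hψv2 : 0 < ⟪S.psi a, S.N.vv ψ⟫ := hψ.1.2.1
  set c := ⟪ψ - φ, S.N.vv φ⟫ / ⟪S.psi a, S.N.vv φ⟫ with hc
  have hlin : ψ - φ = c • S.psi a := by
    apply ext_inner_right ℝ
    intro u
    set t := u - (⟪S.psi a, u⟫ / ⟪S.psi a, S.N.vv φ⟫) • S.N.vv φ with ht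
    have htt : ⟪S.psi a, t⟫ = 0 := by
      rw [ht, inner_sub_right, real_inner_smul_right, div_mul_cancel₀ _ hψv.ne', sub_self]
    have h0 : ⟪ψ - φ, t⟫ = 0 := by rw [inner_sub_left, ← k1 t htt, ← k2 t htt, sub_self]
    rw [ht, inner_sub_right, real_inner_smul_right, sub_eq_zero] at h0
    rw [real_inner_smul_left, h0, hc]
    ring
  have m1 := S.N.vv_isMax (S.N.diff_of_mem hφ.2.2.2.1)
  have m2 := S.N.vv_isMax (S.N.diff_of_mem hψ.2.2.2.1)
  have l1 := S.N.inner_le_dual ψ (S.N.vv φ)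
  have l2 := S.N.inner_le_dual φ (S.N.vv ψ)
  rw [S.N.vv_unit, mul_one, show ψ = φ + c • S.psi a by rw [← hlin]; abel, inner_add_left,
    m1.2, real_inner_smul_left, ← show ψ = φ + c • S.psi a by rw [← hlin]; abel] at l1
  rw [S.N.vv_unit, mul_one, show φ = ψ - c • S.psi a by rw [← hlin]; abel, inner_sub_left,
    m2.2, real_inner_smul_left, ← show φ = ψ - c • S.psi a by rw [← hlin]; abel] at l2
  have : c = 0 := by
    rcases lt_trichotomy c 0 with hh | hh | hh
    · nlinarith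
    · exact hh
    · nlinarith
  rw [this, zero_smul, sub_eq_zero] at hlin
  exact hlin.symm

theorem det_fib {a φ : E} (h : φ ∈ S.fib S.Pre a) :
    0 < |(adjoint (S.Pi (S.X (S.theta a (S.N.vv φ)) (S.N.vv φ)) (S.N.vv φ)
        (S.eI (S.theta a (S.N.vv φ)) (S.N.vv φ)))).det| ∧
      |(adjoint (S.Pi (S.X (S.theta a (S.N.vv φ)) (S.N.vv φ)) (S.N.vv φ)
        (S.eI (S.theta a (S.N.vv φ)) (S.N.vv φ)))).det| * |(S.A a).det| *
        ⟪S.symm.psi (S.F a), S.eI (S.theta a (S.N.vv φ)) (S.N.vv φ)⟫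
      = ⟪S.psi a, S.N.vv φ⟫ := by
  have hf : Facts S (S.theta a (S.N.vv φ)) φ := Pre.facts h.2
  have hg : S.GoodS (S.X (S.theta a (S.N.vv φ)) (S.N.vv φ)) := h.2.2.2.2.1
  obtain ⟨hx, -⟩ := fib_pre h
  set v := S.N.vv φ
  set e := S.eI (S.theta a v) v
  set x := S.X (S.theta a v) v with hx'
  have h1 : (S.Pi x v e).det * (S.Pm x v e).det = 1 := by
    rw [← det_mul_clm, hg.Pi_Pm hf.psiX.ne' hf.psiX'.ne', ContinuousLinearMap.det]
    exact map_one LinearMap.det
  rw [det_adjoint]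
  have hne : (S.Pi x v e).det ≠ 0 := fun h0 => by rw [h0, zero_mul] at h1; exact zero_ne_one h1
  refine ⟨abs_pos.2 hne, ?_⟩
  have hA : S.A x = S.A a := by rw [hx, (unit_of_goodS h.1.1).2.1]
  have hp : S.psi x = S.psi a := by rw [hx, (unit_of_goodS h.1.1).2.2.1]
  have hp' : S.symm.psi (S.F x) = S.symm.psi (S.F a) := by
    rw [hx, S.hsmul _ _ (inv_nonneg.2 (S.N.nonneg a))]
    exact (h.1.1.symm.smul (inv_pos.2 (S.N.pos h.1.1.1))).2.2
  have hpx : 0 < ⟪S.psi a, v⟫ := h.1.2.1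
  have hpx' : 0 < ⟪S.symm.psi (S.F a), e⟫ := by rw [← hp']; exact hf.psiX'
  rw [hg.det_Pm hf.psiX.ne', hA, hp, hp'] at h1
  have h2 := congrArg (fun r => |r|) h1
  simp only [abs_mul, abs_div, abs_one, abs_of_pos hpx'] at h2
  have hpos : 0 < ⟪S.psi a, S.N.vv φ⟫ := hpx
  rw [abs_of_pos hpos, ← mul_div_assoc, ← mul_div_assoc, div_eq_one_iff_eq hpos.ne', ← mul_assoc] at h2
  exact h2

theorem fib_symm {a φ : E} (h : φ ∈ S.fib S.Good a) :
    S.fibMap a φ ∈ S.symm.fib S.symm.Good (S.F a) ∧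
      (S.symm.theta (S.F a) (S.M.vv (S.fibMap a φ)), S.fibMap a φ)
        = S.Psi (S.theta a (S.N.vv φ), φ) ∧
      S.M.vv (S.fibMap a φ) = S.eI (S.theta a (S.N.vv φ)) (S.N.vv φ) := by
  have hp : φ ∈ S.fib S.Pre a := ⟨h.1, h.2.1⟩
  have hf : Facts S (S.theta a (S.N.vv φ)) φ := Pre.facts hp.2
  have h2 : (S.theta a (S.N.vv φ), φ) ∈ S.Good := h.2
  have hmax : S.M.IsMax (S.fibMap a φ) (S.eI (S.theta a (S.N.vv φ)) (S.N.vv φ)) := hf.isMax
  have hAM : S.fibMap a φ ∈ S.M.alexSet := h2.2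
  have hvv : S.M.vv (S.fibMap a φ) = S.eI (S.theta a (S.N.vv φ)) (S.N.vv φ) :=
    (S.M.isMax_eq_vv (S.M.diff_of_mem hAM) hmax).symm
  obtain ⟨hx, ht⟩ := fib_pre hp
  have hy := h.2.1.1
  have hv := S.N.vv_unit φ
  have hr : S.symm.N (S.F a) = S.N a := S.hMF a
  have hth : S.symm.theta (S.F a) (S.M.vv (S.fibMap a φ))
      = S.yI (S.theta a (S.N.vv φ)) (S.N.vv φ) := by
    rw [hvv, theta, hr, ← S.hsmul _ _ (inv_nonneg.2 (S.N.nonneg a)), ← hx, ← ht,
      FX_eq hy hv]
    abel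
  have hpair : (S.symm.theta (S.F a) (S.M.vv (S.fibMap a φ)), S.fibMap a φ)
      = S.Psi (S.theta a (S.N.vv φ), φ) := Prod.ext hth rfl
  have hgood : S.symm.GoodS (S.F a) := GoodS.symm h.1.1
  have g1 : 0 < ⟪S.symm.psi (S.F a), S.M.vv (S.fibMap a φ)⟫ := by
    have hpx := hf.psiX'
    rw [hx, S.hsmul _ _ (inv_nonneg.2 (S.N.nonneg a)),
      (hgood.smul (inv_pos.2 (S.N.pos h.1.1.1))).2.2] at hpx
    rw [hvv]
    exact hpx
  have g2 : S.symm.N (S.F a) < 1 := by rw [hr]; exact h.1.2.2.1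
  have g3 : S.symm.N (S.symm.theta (S.F a) (S.M.vv (S.fibMap a φ))) < 1 := by
    rw [hth]
    exact hf.yI_lt
  have g4 : S.F a ∈ S.symm.dom (S.M.vv (S.fibMap a φ)) := ⟨hgood, g1, g2, g3⟩
  have g5 : (S.symm.theta (S.F a) (S.M.vv (S.fibMap a φ)), S.fibMap a φ) ∈ S.symm.Good := by
    rw [hpair]; exact (Good.symm h.2).1
  have g6 : S.fibMap a φ ∈ S.symm.fib S.symm.Good (S.F a) := And.intro g4 g5
  exact ⟨g6, hpair, hvv⟩

theorem image_fib (a : E) :
    S.fibMap a '' S.fib S.Good a = S.symm.fib S.symm.Good (S.F a) := by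
  refine Subset.antisymm (fun p ⟨φ, hφ, e⟩ => e ▸ (fib_symm hφ).1) fun p hp => ?_
  obtain ⟨h1, h2, -⟩ := fib_symm (S := S.symm) hp
  have e1 : S.symm.F (S.F a) = a := S.hGF a
  rw [e1] at h1 h2
  refine ⟨S.symm.fibMap (S.F a) p, h1, ?_⟩
  change (S.Psi (S.theta a (S.N.vv (S.symm.fibMap (S.F a) p)), S.symm.fibMap (S.F a) p)).2 = p
  have h3 := (Good.symm (S := S.symm) hp.2).2.1
  have h2' : (S.theta a (S.N.vv (S.symm.fibMap (S.F a) p)), S.symm.fibMap (S.F a) p)
      = S.symm.Psi (S.symm.theta (S.F a) (S.M.vv p), p) := h2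
  rw [h2']
  exact congrArg Prod.snd h3

theorem null_fib_bad (a : E) :
    volume (S.fib (S.Pre \ S.Good) a) = 0 := by
  set T := S.fib (S.Pre \ S.Good) a
  have hT : MeasurableSet T :=
    S.measurableSet_fib (S.measurableSet_Pre.diff S.measurableSet_Good) a
  have hsub : T ⊆ S.fib S.Pre a := fun φ h => ⟨h.1, h.2.1⟩
  have himg : S.fibMap a '' T ⊆ S.M.alexSetᶜ := by
    rintro _ ⟨φ, h, rfl⟩ hc
    exact h.2.2 ⟨h.2.1, hc⟩
  have h0 : volume (S.fibMap a '' T) = 0 :=
    measure_mono_null himg (ae_iff.1 S.M.ae_alexSet)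
  rw [← setLIntegral_one, lintegral_image_eq_lintegral_abs_det_fderiv_mul volume hT
    (fun φ hφ => (hasFDerivWithinAt_fibMap (hsub hφ)).mono hsub) (injOn_fibMap.mono hsub)] at h0
  simp only [mul_one] at h0
  rw [setLIntegral_eq_zero_iff hT] at h0
  · rw [← compl_mem_ae_iff]
    filter_upwards [h0] with φ hφ hT'
    have := (det_fib (hsub hT')).1
    have h1 := hφ hT'
    rw [ENNReal.ofReal_eq_zero] at h1
    linarith
  · exact (((continuous_abs.comp ContinuousLinearMap.continuous_det).measurable.comp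
      ((adjoint : (E →L[ℝ] E) ≃ₗᵢ⋆[ℝ] E →L[ℝ] E).continuous.measurable.comp (S.measurable_Pi
        (S.measurable_X.comp (((S.measurable_theta.comp
          (measurable_const.prodMk S.N.measurable_vv))).prodMk S.N.measurable_vv))
        S.N.measurable_vv
        (S.measurable_eI.comp (((S.measurable_theta.comp
          (measurable_const.prodMk S.N.measurable_vv))).prodMk S.N.measurable_vv))))).ennreal_ofReal)

theorem Pre_diff_Good_null (S : Setup E) : volume (S.Pre \ S.Good) = 0 := by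
  rw [← setLIntegral_one, slice S (S.measurableSet_Pre.diff S.measurableSet_Good) sdiff_subset
    measurable_const]
  refine lintegral_eq_zero_of_ae_eq_zero (Eventually.of_forall fun a => ?_)
  exact setLIntegral_measure_zero _ _ (null_fib_bad a)

/-- Almost every pair in the product of the ball and the dual ball is a good chord. -/
theorem ae_good (S : Setup E) :
    ∀ᵐ q : E × E, S.N q.1 < 1 → S.N.dual q.2 ≤ 1 → q ∈ S.Good := by
  have h1 : ∀ᵐ q : E × E, S.N q.1 < 1 → S.N.dual q.2 ≤ 1 → q ∈ S.Pre := by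
    have hm : MeasurableSet {q : E × E | S.N q.1 < 1 → S.N.dual q.2 ≤ 1 → q ∈ S.Pre} := by
      have hb : MeasurableSet {q : E × E | S.N q.1 < 1} :=
        measurableSet_lt (S.N.continuous.measurable.comp measurable_fst) measurable_const
      have hk : MeasurableSet {q : E × E | S.N.dual q.2 ≤ 1} :=
        measurableSet_le (S.N.dual.continuous.measurable.comp measurable_snd) measurable_const
      exact hb.imp (hk.imp S.measurableSet_Pre)
    rw [Measure.volume_eq_prod, Measure.ae_prod_iff_ae_ae hm]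
    rw [Measure.ae_ae_comm (p := fun y φ => S.N y < 1 → S.N.dual φ ≤ 1 → (y, φ) ∈ S.Pre) hm]
    filter_upwards [S.N.ae_alexSet] with φ hφ
    have hv := S.N.vv_unit φ
    have e1 := null_not_goodS_X (S := S) hv
    have e2 := null_not_goodS_X (S := S) (v := -S.N.vv φ) (by rwa [S.N.neg])
    rw [← compl_mem_ae_iff] at e1 e2
    filter_upwards [e1, e2] with y h1 h2 hy hK
    exact ⟨hy, hK, hφ, not_not.1 fun h => h1 ⟨hy, h⟩, not_not.1 fun h => h2 ⟨hy, h⟩⟩
  have h2 : (S.Pre \ S.Good)ᶜ ∈ ae (volume : Measure (E × E)) :=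
    compl_mem_ae_iff.2 S.Pre_diff_Good_null
  filter_upwards [h1, h2] with q hq hq' hy hK
  exact not_not.1 fun h => hq' ⟨hq hy hK, h⟩

theorem lintegral_abs_det_F (S : Setup E) (K : E → ℝ≥0∞) :
    ∫⁻ a in {a | S.GoodS a}, ENNReal.ofReal |(S.A a).det| * K (S.F a)
      = ∫⁻ b in {b | S.symm.GoodS b}, K b := by
  have himg : S.F '' {a | S.GoodS a} = {b | S.symm.GoodS b} := by
    ext b
    refine ⟨fun ⟨a, ha, e⟩ => e ▸ GoodS.symm ha, fun hb => ⟨S.G b, ?_, S.hFG b⟩⟩
    exact GoodS.symm (S := S.symm) hb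
  rw [← himg, lintegral_image_eq_lintegral_abs_det_fderiv_mul volume S.measurableSet_goodS
    (fun a ha => (GoodS.hasFDerivAt_F ha).hasFDerivWithinAt) (S.F_injective.injOn)]

/-- The correspondence of chords preserves Lebesgue measure. -/
theorem preserve (S : Setup E) {H : E × E → ℝ≥0∞} (hH : Measurable H) :
    ∫⁻ q in S.Good, H (S.Psi q) = ∫⁻ p in S.symm.Good, H p := by
  rw [slice S S.measurableSet_Good inter_subset_left (g := fun q => H (S.Psi q))
      (hH.comp S.measurable_Psi),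
    slice S.symm S.symm.measurableSet_Good inter_subset_left hH]
  set K : E → ℝ≥0∞ := fun b => ∫⁻ p in S.symm.fib S.symm.Good b,
    ENNReal.ofReal (S.symm.cw b * ⟪S.symm.psi b, S.M.vv p⟫) * H (S.symm.theta b (S.M.vv p), p)
    with hK
  have hK0 : ∀ b, ¬ S.symm.GoodS b → K b = 0 := fun b hb => by
    have : S.symm.fib S.symm.Good b = ∅ := eq_empty_of_forall_notMem fun p hp => hb hp.1.1
    rw [hK]; simp [this]
  change _ = ∫⁻ b, K b
  rw [← setLIntegral_eq_of_support_subset (s := {b | S.symm.GoodS b}) (f := K)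
    (fun b hb => by_contra fun h => hb (hK0 b h)), ← lintegral_abs_det_F]
  rw [← setLIntegral_eq_of_support_subset (s := {a | S.GoodS a})]
  swap
  · intro a ha
    by_contra h
    have : S.fib S.Good a = ∅ := eq_empty_of_forall_notMem fun p hp => h hp.1.1
    simp [this] at ha
  refine setLIntegral_congr_fun S.measurableSet_goodS fun a ha => ?_
  have hfm : MeasurableSet (S.fib S.Good a) := S.measurableSet_fib S.measurableSet_Good a
  have hsub : S.fib S.Good a ⊆ S.fib S.Pre a := fun φ h => ⟨h.1, h.2.1⟩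
  simp only [hK]
  rw [← image_fib, lintegral_image_eq_lintegral_abs_det_fderiv_mul volume hfm
    (fun φ hφ => (hasFDerivWithinAt_fibMap (hsub hφ)).mono hsub) (injOn_fibMap.mono hsub),
    ← lintegral_const_mul' _ _ ENNReal.ofReal_ne_top]
  refine setLIntegral_congr_fun hfm fun φ hφ => ?_
  obtain ⟨-, hpair, hvv⟩ := fib_symm hφ
  obtain ⟨-, hdet⟩ := det_fib (hsub hφ)
  rw [hpair, hvv, S.cw_F, ← hdet, ENNReal.ofReal_mul (S.cw_nonneg a),
    ENNReal.ofReal_mul (by positivity), ENNReal.ofReal_mul (abs_nonneg _),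
    ENNReal.ofReal_mul (S.cw_nonneg a)]
  ring

end Setup

end Vale.Agent.P084
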