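import Vale.Agent.P084.Basic
import Vale.Agent.P084.Exit
import Vale.Agent.P084.LinAlg

/-!
The data of an isometry of spheres (as a positively homogeneous bijection), first derivatives,
and the transport maps along a chord.
-/

open scoped RealInnerProductSpace NNReal
open Set Filter Topology MeasureTheory Asymptotics ContinuousLinearMap

set_option linter.unusedSectionVars false

namespace Vale.Agent.P084

variable {E : Type*} [NormedAddCommGroup E] [InnerProductSpace ℝ E] [FiniteDimensional ℝ E]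

/-- An isometry between the unit spheres of two norms, extended positively homogeneously. -/
structure Setup (E : Type*) [AddCommGroup E] [Module ℝ E] where
  /-- source norm -/
  N : Nrm E
  /-- target norm -/
  M : Nrm E
  /-- the map -/
  F : E → E
  /-- its inverse -/
  G : E → E
  hMF : ∀ x, M (F x) = N x
  hsmul : ∀ (t : ℝ) x, 0 ≤ t → F (t • x) = t • F x
  hGF : ∀ x, G (F x) = x
  hFG : ∀ y, F (G y) = y
  hiso : ∀ x y, N x = 1 → N y = 1 → M (F x - F y) = N (x - y)

namespace Setup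

variable (S : Setup E)

theorem hNG (y : E) : S.N (S.G y) = S.M y := by rw [← S.hMF, S.hFG]

theorem hGsmul (t : ℝ) (y : E) (ht : 0 ≤ t) : S.G (t • y) = t • S.G y := by
  conv_lhs => rw [← S.hFG y, ← S.hsmul t _ ht]
  exact S.hGF _

/-- The inverse setup. -/
def symm : Setup E where
  N := S.M
  M := S.N
  F := S.G
  G := S.F
  hMF := S.hNG
  hsmul := S.hGsmul
  hGF := S.hFG
  hFG := S.hGF
  hiso := fun x y hx hy => by
    have := S.hiso (S.G x) (S.G y) (by rw [S.hNG, hx]) (by rw [S.hNG, hy])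
    rw [S.hFG, S.hFG] at this
    exact this.symm

theorem symm_symm : S.symm.symm = S := rfl

theorem F_zero : S.F 0 = 0 := by simpa using S.hsmul 0 0 le_rfl

theorem F_injective : Function.Injective S.F := Function.LeftInverse.injective S.hGF

theorem nrm_sub_le (a b : E) : S.M (S.F a - S.F b) ≤ 3 * S.N (a - b) := by
  rcases eq_or_ne a 0 with ha | ha
  · rw [ha, S.F_zero, zero_sub, zero_sub, S.M.neg, S.N.neg, S.hMF]
    linarith [S.N.nonneg b]
  rcases eq_or_ne b 0 with hb | hb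
  · rw [hb, S.F_zero, sub_zero, sub_zero, S.hMF]
    linarith [S.N.nonneg a]
  set r := S.N a
  set q := S.N b
  set x := r⁻¹ • a with hx
  set y := q⁻¹ • b with hy
  have hr : 0 < r := S.N.pos ha
  have hq : 0 < q := S.N.pos hb
  have hax : a = r • x := by rw [hx, smul_smul, mul_inv_cancel₀ hr.ne', one_smul]
  have hby : b = q • y := by rw [hy, smul_smul, mul_inv_cancel₀ hq.ne', one_smul]
  have hxn : S.N x = 1 := S.N.norm_unit ha
  have hyn : S.N y = 1 := S.N.norm_unit hb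
  have h1 : S.F a - S.F b = (r - q) • S.F x + q • (S.F x - S.F y) := by
    conv_lhs => rw [hax, hby, S.hsmul r x hr.le, S.hsmul q y hq.le]
    module
  have h2 : q * S.N (x - y) ≤ |r - q| + S.N (a - b) := by
    have e : q • (x - y) = (q - r) • x + (a - b) := by rw [hax, hby]; module
    have := S.N.add_le ((q - r) • x) (a - b)
    rw [← e, S.N.smul_nonneg hq.le, S.N.smul, hxn, mul_one, abs_sub_comm] at this
    linarith
  have h3 : |r - q| ≤ S.N (a - b) := S.N.abs_sub_le a b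
  rw [h1]
  refine (S.M.add_le _ _).trans ?_
  rw [S.M.smul, S.M.smul_nonneg hq.le, S.hMF, hxn, S.hiso x y hxn hyn]
  linarith

theorem exists_lipschitz : ∃ C : ℝ≥0, LipschitzWith C S.F := by
  obtain ⟨c, hc, hlo⟩ := S.M.exists_lower
  obtain ⟨C, hC, hup⟩ := S.N.exists_upper
  refine ⟨(3 * C / c).toNNReal, LipschitzWith.of_dist_le_mul fun a b => ?_⟩
  rw [Real.coe_toNNReal _ (by positivity), dist_eq_norm, dist_eq_norm, div_mul_eq_mul_div,
    le_div_iff₀ hc]
  have := (hlo _).trans ((S.nrm_sub_le a b).trans (mul_le_mul_of_nonneg_left (hup _) three_pos.le))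
  linarith

theorem continuous_F : Continuous S.F := by
  obtain ⟨C, hC⟩ := S.exists_lipschitz
  exact hC.continuous

/-- differentiability point -/
def GoodS (x : E) : Prop :=
  x ≠ 0 ∧ DifferentiableAt ℝ (fun z => S.N z) x ∧ DifferentiableAt ℝ S.F x

/-- derivative of `F` -/
noncomputable def A (x : E) : E →L[ℝ] E := fderiv ℝ S.F x

/-- gradient of `N` -/
noncomputable def psi (x : E) : E := gradient (fun z => S.N z) x

/-- transport map at the end `x` of a chord of direction `v`, image direction `e` -/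
noncomputable def Pm (x v e : E) : E →L[ℝ] E :=
  S.A x + (innerSL ℝ (S.psi x)).smulRight ((⟪S.psi x, v⟫)⁻¹ • (e - S.A x v))

/-- its inverse -/
noncomputable def Pi (x v e : E) : E →L[ℝ] E := S.symm.Pm (S.F x) e v

theorem measurableSet_goodS [MeasurableSpace E] [BorelSpace E] : MeasurableSet {x | S.GoodS x} :=
  (measurableSet_singleton (0 : E)).compl.inter
    ((measurableSet_of_differentiableAt ℝ _).inter (measurableSet_of_differentiableAt ℝ _))

theorem ae_goodS [Nontrivial E] [MeasurableSpace E] [BorelSpace E] :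
    ∀ᵐ x : E ∂volume, S.GoodS x := by
  obtain ⟨C, hC⟩ := S.exists_lipschitz
  obtain ⟨K, hK⟩ := S.N.exists_lipschitz
  have h0 : ({0} : Set E)ᶜ ∈ ae (volume : Measure E) :=
    compl_mem_ae_iff.2 (measure_singleton _)
  filter_upwards [h0, hK.ae_differentiableAt, hC.ae_differentiableAt] with x h1 h2 h3
  exact ⟨h1, h2, h3⟩

variable {S}

theorem GoodS.hasFDerivAt_N {x : E} (h : S.GoodS x) :
    HasFDerivAt (fun z => S.N z) (innerSL ℝ (S.psi x)) x := by
  have := h.2.1.hasFDerivAt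
  have e : innerSL ℝ (S.psi x) = fderiv ℝ (fun z => S.N z) x := by
    ext y
    rw [psi, gradient, innerSL_apply_apply, InnerProductSpace.toDual_symm_apply]
  rw [e]
  exact this

theorem GoodS.psi_le {x : E} (h : S.GoodS x) (y : E) : ⟪S.psi x, y⟫ ≤ S.N y :=
  S.N.gradient_inner_le h.2.1 y

theorem GoodS.psi_self {x : E} (h : S.GoodS x) : ⟪S.psi x, x⟫ = S.N x :=
  S.N.gradient_inner_self h.2.1

theorem GoodS.hasFDerivAt_F {x : E} (h : S.GoodS x) : HasFDerivAt S.F (S.A x) x :=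
  h.2.2.hasFDerivAt

theorem GoodS.hasFDerivAt_G {x : E} (h : S.GoodS x) :
    ∃ L : E ≃L[ℝ] E, (L : E →L[ℝ] E) = S.A x ∧
      HasFDerivAt S.G (L.symm : E →L[ℝ] E) (S.F x) := by
  obtain ⟨C, hC⟩ := S.symm.exists_lipschitz
  have hinj : ∀ k, S.A x k = 0 → k = 0 := by
    intro k hk
    have h1 : HasDerivAt (fun t : ℝ => x + t • k) k 0 := by
      simpa using ((hasDerivAt_id (0 : ℝ)).smul_const k).const_add x
    have h2 : HasFDerivAt S.F (S.A x) (x + (0 : ℝ) • k) := by simpa using h.hasFDerivAt_F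
    have h3 := h2.comp_hasDerivAt 0 h1
    rw [hk, hasDerivAt_iff_isLittleO] at h3
    simp only [Function.comp_apply, smul_zero, sub_zero, zero_smul, add_zero] at h3
    have h4 : (fun t : ℝ => t • k) =o[𝓝 0] fun t : ℝ => t := by
      refine (IsBigO.of_bound (C : ℝ) (Eventually.of_forall fun t => ?_)).trans_isLittleO h3
      have := hC.dist_le_mul (S.F (x + t • k)) (S.F x)
      change dist (S.G _) (S.G _) ≤ _ at this
      rwa [S.hGF, S.hGF, dist_eq_norm, dist_eq_norm, add_sub_cancel_left] at this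
    by_contra hk0
    have h5 := h4.def (half_pos (norm_pos_iff.2 hk0))
    have h5' : ∀ᶠ t in 𝓝[≠] (0 : ℝ), ‖t • k‖ ≤ ‖k‖ / 2 * ‖t‖ :=
      h5.filter_mono nhdsWithin_le_nhds
    obtain ⟨t, ht, ht0⟩ := (h5'.and self_mem_nhdsWithin).exists
    rw [norm_smul] at ht
    have ht0 : 0 < ‖t‖ := norm_pos_iff.2 ht0
    nlinarith [norm_pos_iff.2 hk0]
  have hinj' : Function.Injective (S.A x : E →ₗ[ℝ] E) :=
    (injective_iff_map_eq_zero _).2 hinj
  set L : E ≃L[ℝ] E :=
    (LinearEquiv.ofBijective (S.A x : E →ₗ[ℝ] E)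
      ⟨hinj', LinearMap.injective_iff_surjective.1 hinj'⟩).toContinuousLinearEquiv with hL
  have hLA : (L : E →L[ℝ] E) = S.A x := by ext y; rfl
  refine ⟨L, hLA, HasFDerivAt.of_local_left_inverse S.symm.continuous_F.continuousAt ?_
    (Eventually.of_forall S.hFG)⟩
  rw [hLA, S.hGF]
  exact h.hasFDerivAt_F

theorem GoodS.symm {x : E} (h : S.GoodS x) : S.symm.GoodS (S.F x) := by
  obtain ⟨L, hL, hG⟩ := h.hasFDerivAt_G
  refine ⟨?_, ?_, hG.differentiableAt⟩
  · intro hc
    apply h.1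
    rw [← S.hGF x, hc]
    exact S.symm.F_zero
  · change DifferentiableAt ℝ (fun z => S.M z) (S.F x)
    have e : (fun z => S.M z) = (fun z => S.N z) ∘ S.G := by ext z; exact (S.hNG z).symm
    rw [e]
    refine DifferentiableAt.comp _ ?_ hG.differentiableAt
    rw [S.hGF]
    exact h.2.1

theorem GoodS.Ainv_A {x : E} (h : S.GoodS x) (u : E) : S.symm.A (S.F x) (S.A x u) = u := by
  obtain ⟨L, hL, hG⟩ := h.hasFDerivAt_G
  have e : S.symm.A (S.F x) = (L.symm : E →L[ℝ] E) := hG.fderiv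
  rw [e, ← hL]
  exact L.symm_apply_apply u

theorem GoodS.A_Ainv {x : E} (h : S.GoodS x) (u : E) : S.A x (S.symm.A (S.F x) u) = u := by
  obtain ⟨L, hL, hG⟩ := h.hasFDerivAt_G
  have e : S.symm.A (S.F x) = (L.symm : E →L[ℝ] E) := hG.fderiv
  rw [e, ← hL]
  exact L.apply_symm_apply u

theorem GoodS.psi_A {x : E} (h : S.GoodS x) (u : E) :
    ⟪S.symm.psi (S.F x), S.A x u⟫ = ⟪S.psi x, u⟫ := by
  have h1 := h.symm.hasFDerivAt_N.comp x h.hasFDerivAt_F
  have e : (fun z => S.symm.N z) ∘ S.F = fun z => S.N z := by ext z; exact S.hMF z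
  rw [e] at h1
  have := congrArg (fun L : E →L[ℝ] ℝ => L u) (h1.unique h.hasFDerivAt_N)
  simpa using this

theorem GoodS.smul {x : E} (h : S.GoodS x) {t : ℝ} (ht : 0 < t) :
    S.GoodS (t • x) ∧ S.A (t • x) = S.A x ∧ S.psi (t • x) = S.psi x := by
  have hsc : HasFDerivAt (fun z : E => t⁻¹ • z) (t⁻¹ • (1 : E →L[ℝ] E)) (t • x) :=
    (t⁻¹ • (1 : E →L[ℝ] E)).hasFDerivAt
  have hx : t⁻¹ • (t • x) = x := by rw [smul_smul, inv_mul_cancel₀ ht.ne', one_smul]
  have hF : HasFDerivAt S.F (S.A x) (t • x) := by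
    have h1 : HasFDerivAt S.F (S.A x) (t⁻¹ • (t • x)) := by rw [hx]; exact h.hasFDerivAt_F
    have h2 := (h1.comp (t • x) hsc).const_smul t
    have e : (fun z => t • (S.F ∘ fun z : E => t⁻¹ • z) z) = S.F := by
      ext z
      simp only [Function.comp_apply]
      rw [S.hsmul _ _ (inv_nonneg.2 ht.le), smul_smul, mul_inv_cancel₀ ht.ne', one_smul]
    rw [show (t • (S.F ∘ fun z : E => t⁻¹ • z)) = S.F from e] at h2
    convert h2 using 1
    ext u
    simp [smul_smul, mul_inv_cancel₀ ht.ne']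
  have hN : HasFDerivAt (fun z => S.N z) (innerSL ℝ (S.psi x)) (t • x) := by
    have h1 : HasFDerivAt (fun z => S.N z) (innerSL ℝ (S.psi x)) (t⁻¹ • (t • x)) := by
      rw [hx]; exact h.hasFDerivAt_N
    have h2 := (h1.comp (t • x) hsc).const_smul t
    have e : (fun z => t • ((fun z => S.N z) ∘ fun z : E => t⁻¹ • z) z) = fun z => S.N z := by
      ext z
      simp only [Function.comp_apply, smul_eq_mul]
      rw [S.N.smul_nonneg (inv_nonneg.2 ht.le), ← mul_assoc, mul_inv_cancel₀ ht.ne', one_mul]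
    rw [show (t • ((fun z => S.N z) ∘ fun z : E => t⁻¹ • z)) = fun z => S.N z from e] at h2
    have e2 : t • (innerSL ℝ (S.psi x)).comp (t⁻¹ • (1 : E →L[ℝ] E)) = innerSL ℝ (S.psi x) := by
      ext u
      simp [real_inner_smul_right, mul_inv_cancel_left₀ ht.ne']
    rw [e2] at h2
    exact h2
  refine ⟨⟨smul_ne_zero ht.ne' h.1, hN.differentiableAt, hF.differentiableAt⟩, hF.fderiv, ?_⟩
  rw [psi, gradient, hN.fderiv]
  apply ext_inner_right ℝ
  intro u
  rw [InnerProductSpace.toDual_symm_apply, innerSL_apply_apply]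

theorem GoodS.Pm_dir {x v e : E} (hv : ⟪S.psi x, v⟫ ≠ 0) : S.Pm x v e v = e := by
  simp [Pm, smul_smul, mul_inv_cancel₀ hv]

theorem GoodS.Pm_tangent {x v e u : E} (hu : ⟪S.psi x, u⟫ = 0) : S.Pm x v e u = S.A x u := by
  simp [Pm, hu]

theorem GoodS.psi_Pm {x v e u : E} (h : S.GoodS x) :
    ⟪S.symm.psi (S.F x), S.Pm x v e u⟫
      = ⟪S.psi x, u⟫ * (1 + (⟪S.psi x, v⟫)⁻¹ *
          (⟪S.symm.psi (S.F x), e⟫ - ⟪S.psi x, v⟫)) := by
  simp only [Pm, add_apply, smulRight_apply, innerSL_apply_apply, inner_add_right,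
    real_inner_smul_right, inner_sub_right, h.psi_A]
  ring

theorem GoodS.Pi_Pm {x v e : E} (h : S.GoodS x) (hv : ⟪S.psi x, v⟫ ≠ 0)
    (he : ⟪S.symm.psi (S.F x), e⟫ ≠ 0) : S.Pi x v e * S.Pm x v e = 1 := by
  ext u
  have hsplit : u = (u - (⟪S.psi x, u⟫ / ⟪S.psi x, v⟫) • v)
      + (⟪S.psi x, u⟫ / ⟪S.psi x, v⟫) • v := by abel
  have ht : ⟪S.psi x, u - (⟪S.psi x, u⟫ / ⟪S.psi x, v⟫) • v⟫ = 0 := by
    rw [inner_sub_right, real_inner_smul_right, div_mul_cancel₀ _ hv, sub_self]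
  change S.Pi x v e (S.Pm x v e u) = u
  conv_lhs => rw [hsplit]
  rw [map_add, map_add, map_smul, map_smul, GoodS.Pm_dir hv, GoodS.Pm_tangent ht, Pi,
    GoodS.Pm_dir (S := S.symm) he, GoodS.Pm_tangent (S := S.symm) (by rw [h.psi_A]; exact ht),
    h.Ainv_A]
  exact hsplit.symm

theorem GoodS.Pi_symm {x v e : E} : S.symm.Pi (S.F x) e v = S.Pm x v e := by
  have e1 : S.symm.F (S.F x) = x := S.hGF x
  rw [Pi, e1]
  rfl

theorem GoodS.Pm_Pi {x v e : E} (h : S.GoodS x) (hv : ⟪S.psi x, v⟫ ≠ 0)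
    (he : ⟪S.symm.psi (S.F x), e⟫ ≠ 0) : S.Pm x v e * S.Pi x v e = 1 := by
  have e1 : S.symm.F (S.F x) = x := S.hGF x
  have := GoodS.Pi_Pm (S := S.symm) (x := S.F x) (v := e) (e := v) h.symm he
    (by rw [e1]; exact hv)
  rwa [GoodS.Pi_symm] at this

theorem GoodS.det_Pm {x v e : E} (h : S.GoodS x) (hv : ⟪S.psi x, v⟫ ≠ 0) :
    (S.Pm x v e).det
      = (S.A x).det * (⟪S.symm.psi (S.F x), e⟫ / ⟪S.psi x, v⟫) := by
  have e1 : S.Pm x v e = S.A x * (1 + (innerSL ℝ (S.psi x)).smulRight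
      ((⟪S.psi x, v⟫)⁻¹ • (S.symm.A (S.F x) e - v))) := by
    ext u
    simp [Pm, map_add, map_smul, map_sub, h.A_Ainv]
  rw [e1, det_mul_clm, det_one_add_smulRight, real_inner_smul_right, inner_sub_right]
  congr 1
  rw [← h.psi_A (S.symm.A (S.F x) e), h.A_Ainv]
  field_simp
  ring

theorem Pm_neg (x v e : E) : S.Pm x (-v) (-e) = S.Pm x v e := by
  ext u
  simp [Pm, inner_neg_right, map_neg, inv_neg, smul_smul]
  module

theorem Pi_neg (x v e : E) : S.Pi x (-v) (-e) = S.Pi x v e := S.symm.Pm_neg _ _ _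

end Setup

end Vale.Agent.P084
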