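import Vale.Agent.P084.Preserve

/-!
The transported functionals from the two ends of a chord agree to first order in the flat
directions of the dual sphere.
-/

open scoped RealInnerProductSpace NNReal ENNReal ContDiff
open Set Filter Topology MeasureTheory ContinuousLinearMap Module Metric

set_option linter.unusedSectionVars false

namespace Vale.Agent.P084

variable {E : Type*} [NormedAddCommGroup E] [InnerProductSpace ℝ E] [FiniteDimensional ℝ E]
  [Nontrivial E] [MeasurableSpace E] [BorelSpace E]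

namespace Setup

variable (S : Setup E)

/-- the transported vector, from the forward end -/
noncomputable def fX (χ : E) (q : E × E) : E :=
  adjoint (S.Pi (S.X q.1 q.2) q.2 (S.eI q.1 q.2)) χ

theorem measurable_fX (χ : E) : Measurable (S.fX χ) := by
  have h := (adjoint : (E →L[ℝ] E) ≃ₗᵢ⋆[ℝ] E →L[ℝ] E).continuous.measurable.comp
    (S.measurable_Pi S.measurable_X measurable_snd S.measurable_eI)
  exact (isBoundedBilinearMap_apply.continuous.measurable).comp (h.prodMk measurable_const)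

theorem fX_formula (χ : E) (q : E × E) :
    S.fX χ q = adjoint (S.symm.A (S.F (S.X q.1 q.2))) χ
      + ((⟪S.symm.psi (S.F (S.X q.1 q.2)), S.eI q.1 q.2⟫)⁻¹ *
          ⟪q.2 - S.symm.A (S.F (S.X q.1 q.2)) (S.eI q.1 q.2), χ⟫)
        • S.symm.psi (S.F (S.X q.1 q.2)) := by
  apply ext_inner_right ℝ
  intro z
  simp only [fX, Pi, Pm, adjoint_inner_left, add_apply, smulRight_apply, innerSL_apply_apply,
    inner_add_right, inner_add_left, real_inner_smul_left, real_inner_smul_right,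
    real_inner_comm χ (q.2 - S.symm.A (S.F (S.X q.1 q.2)) (S.eI q.1 q.2))]
  ring

theorem exists_bounds : ∃ C : ℝ, 1 ≤ C ∧ (∀ x, ‖S.A x‖ ≤ C) ∧ (∀ x, ‖S.symm.A x‖ ≤ C) ∧
    (∀ x, ‖S.psi x‖ ≤ C) ∧ (∀ x, ‖S.symm.psi x‖ ≤ C) ∧ (∀ x, S.N x ≤ C * ‖x‖) ∧
    (∀ x, ‖x‖ ≤ C * S.N x) ∧ (∀ x, ‖x‖ ≤ C * S.M x) ∧ LipschitzWith C.toNNReal S.F := by
  obtain ⟨a, ha⟩ := S.exists_lipschitz
  obtain ⟨b, hb⟩ := S.symm.exists_lipschitz
  obtain ⟨c, hc⟩ := S.N.exists_lipschitz
  obtain ⟨d, hd⟩ := S.M.exists_lipschitz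
  obtain ⟨e, he, hup⟩ := S.N.exists_upper
  obtain ⟨g, hg, hlo⟩ := S.N.exists_lower
  obtain ⟨g', hg', hlo'⟩ := S.M.exists_lower
  refine ⟨1 + a + b + c + d + e + g⁻¹ + g'⁻¹, ?_, ?_, ?_, ?_, ?_, ?_, ?_, ?_, ?_⟩
  all_goals have := inv_pos.2 hg; have := inv_pos.2 hg'
  all_goals have := a.coe_nonneg; have := b.coe_nonneg; have := c.coe_nonneg; have := d.coe_nonneg
  · linarith
  · exact fun x => (norm_fderiv_le_of_lipschitz ℝ ha).trans (by linarith)
  · exact fun x => (norm_fderiv_le_of_lipschitz ℝ hb).trans (by linarith)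
  · intro x
    rw [psi, gradient, LinearIsometryEquiv.norm_map]
    exact (norm_fderiv_le_of_lipschitz ℝ hc).trans (by linarith)
  · intro x
    rw [psi, gradient, LinearIsometryEquiv.norm_map]
    exact (norm_fderiv_le_of_lipschitz ℝ (show LipschitzWith d (fun z => S.symm.N z) from hd)).trans
      (by linarith)
  · exact fun x => (hup x).trans (mul_le_mul_of_nonneg_right (by linarith) (norm_nonneg _))
  · intro x
    refine le_trans ?_ (mul_le_mul_of_nonneg_right (by linarith : g⁻¹ ≤ _) (S.N.nonneg x))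
    rw [le_inv_mul_iff₀ hg]; exact hlo x
  · intro x
    refine le_trans ?_ (mul_le_mul_of_nonneg_right (by linarith : g'⁻¹ ≤ _) (S.M.nonneg x))
    rw [le_inv_mul_iff₀ hg']; exact hlo' x
  · refine ha.weaken ?_
    rw [← NNReal.coe_le_coe, Real.coe_toNNReal _ (by linarith)]
    linarith

variable {S}

theorem psi_e_lower {y w : E} (hy : S.N y < 1) (hw : S.N w = 1) (hX : S.GoodS (S.X y w))
    {δ : ℝ} (hδ : 0 < δ) (hyI : S.M (S.yI y w) ≤ 1 - δ) :
    δ / 2 ≤ ⟪S.symm.psi (S.F (S.X y w)), S.eI y w⟫ := by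
  have h1 := hX.symm.psi_self
  rw [show S.symm.N (S.F (S.X y w)) = 1 from (S.hMF _).trans (X_norm hy hw)] at h1
  have h2 : ⟪S.symm.psi (S.F (S.X y w)), S.yI y w⟫ ≤ S.M (S.yI y w) := hX.symm.psi_le _
  have h3 : ⟪S.symm.psi (S.F (S.X y w)), S.F (S.X y w)⟫
      = ⟪S.symm.psi (S.F (S.X y w)), S.yI y w⟫
        + S.tp y w * ⟪S.symm.psi (S.F (S.X y w)), S.eI y w⟫ := by
    rw [← real_inner_smul_right, ← inner_add_right, ← FX_eq hy hw]
  have h4 : S.tp y w ≤ 2 := Nrm.exitT_le_two hy hw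
  have h5 : δ ≤ S.tp y w * ⟪S.symm.psi (S.F (S.X y w)), S.eI y w⟫ := by linarith
  have h6 : 0 < ⟪S.symm.psi (S.F (S.X y w)), S.eI y w⟫ :=
    pos_of_mul_pos_right (hδ.trans_le h5) (tp_pos hy hw).le
  nlinarith

theorem exitP_lip {C : ℝ} (hC : 1 ≤ C) (hup : ∀ x, S.N x ≤ C * ‖x‖)
    (hlo : ∀ x, ‖x‖ ≤ C * S.N x) {δ : ℝ} (hδ : 0 < δ) (hδ1 : δ ≤ 1) {y₁ y₂ w₁ w₂ : E}
    (h1 : S.N y₁ ≤ 1 - δ) (h2 : S.N y₂ ≤ 1 - δ) (hw1 : S.N w₁ = 1) (hw2 : S.N w₂ = 1) :
    |S.N.exitT y₁ w₁ - S.N.exitT y₂ w₂| ≤ 6 * C * C / δ * (‖y₁ - y₂‖ + ‖w₁ - w₂‖) ∧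
    ‖S.N.exitP y₁ w₁ - S.N.exitP y₂ w₂‖ ≤ 9 * C * C * C / δ * (‖y₁ - y₂‖ + ‖w₁ - w₂‖) := by
  set s := ‖y₁ - y₂‖ + ‖w₁ - w₂‖ with hs
  have hs0 : 0 ≤ s := by positivity
  have hC0 : 0 < C := one_pos.trans_le hC
  have k1 : |S.N.exitT y₁ w₁ - S.N.exitT y₂ w₂| ≤ 6 * C * C / δ * s := by
    refine (Nrm.abs_exitT_sub_le hδ h1 h2 hw1 hw2).trans ?_
    calc 2 / δ * (S.N (y₁ - y₂) + 2 * S.N (w₁ - w₂))
        ≤ 2 / δ * (C * ‖y₁ - y₂‖ + 2 * (C * ‖w₁ - w₂‖)) := by
          gcongr <;> exact hup _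
      _ ≤ 2 / δ * (3 * C * C * s) := by
          gcongr
          nlinarith [norm_nonneg (y₁ - y₂), norm_nonneg (w₁ - w₂),
            mul_le_mul_of_nonneg_left hC (mul_nonneg hC0.le hs0)]
      _ = 6 * C * C / δ * s := by ring
  refine ⟨k1, ?_⟩
  have e : S.N.exitP y₁ w₁ - S.N.exitP y₂ w₂ = (y₁ - y₂)
      + ((S.N.exitT y₁ w₁ - S.N.exitT y₂ w₂) • w₁ + S.N.exitT y₂ w₂ • (w₁ - w₂)) := by
    simp only [Nrm.exitP]; module
  rw [e]
  refine (norm_add_le _ _).trans ((add_le_add le_rfl (norm_add_le _ _)).trans ?_)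
  rw [norm_smul, norm_smul, Real.norm_eq_abs, Real.norm_eq_abs]
  have hw : ‖w₁‖ ≤ C := by have := hlo w₁; rwa [hw1, mul_one] at this
  have ht2 : |S.N.exitT y₂ w₂| ≤ 2 := by
    rw [abs_of_pos (Nrm.exitT_pos (by linarith) hw2)]
    exact Nrm.exitT_le_two (by linarith) hw2
  have k2 : |S.N.exitT y₁ w₁ - S.N.exitT y₂ w₂| * ‖w₁‖ ≤ 6 * C * C / δ * s * C :=
    mul_le_mul k1 hw (norm_nonneg _) (by positivity)
  have k3 : |S.N.exitT y₂ w₂| * ‖w₁ - w₂‖ ≤ 2 * ‖w₁ - w₂‖ :=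
    mul_le_mul_of_nonneg_right ht2 (norm_nonneg _)
  have k4 : 3 ≤ 3 * C * C * C / δ := by
    rw [le_div_iff₀ hδ]
    nlinarith [mul_le_mul hC hC zero_le_one hC0.le]
  have k5 := mul_le_mul_of_nonneg_right k4 hs0
  have : 9 * C * C * C / δ * s = 6 * C * C / δ * s * C + 3 * C * C * C / δ * s := by ring
  rw [this]
  have := norm_nonneg (y₁ - y₂); have := norm_nonneg (w₁ - w₂)
  linarith

theorem eI_lip {C : ℝ} (hC : 1 ≤ C) (hup : ∀ x, S.N x ≤ C * ‖x‖) (hlo : ∀ x, ‖x‖ ≤ C * S.N x)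
    (hloM : ∀ x, ‖x‖ ≤ C * S.M x) (hF : LipschitzWith C.toNNReal S.F)
    {δ : ℝ} (hδ : 0 < δ) (hδ1 : δ ≤ 1) {y₁ y₂ w₁ w₂ : E}
    (h1 : S.N y₁ ≤ 1 - δ) (h2 : S.N y₂ ≤ 1 - δ) (hw1 : S.N w₁ = 1) (hw2 : S.N w₂ = 1) :
    ‖S.eI y₁ w₁ - S.eI y₂ w₂‖ ≤ 30 * C ^ 4 / δ ^ 2 * (‖y₁ - y₂‖ + ‖w₁ - w₂‖) := by
  set s := ‖y₁ - y₂‖ + ‖w₁ - w₂‖ with hs
  have hs0 : 0 ≤ s := by positivity
  have hC0 : 0 < C := one_pos.trans_le hC
  obtain ⟨a1, a2⟩ := exitP_lip (S := S) hC hup hlo hδ hδ1 h1 h2 hw1 hw2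
  obtain ⟨b1, b2⟩ := exitP_lip (S := S) hC hup hlo hδ hδ1 h1 h2 (w₁ := -w₁) (w₂ := -w₂)
    (by rwa [S.N.neg]) (by rwa [S.N.neg])
  have hn : ‖-w₁ - -w₂‖ = ‖w₁ - w₂‖ := by rw [neg_sub_neg, norm_sub_rev]
  rw [hn] at b1 b2
  have hy1 : S.N y₁ < 1 := by linarith
  have hy2 : S.N y₂ < 1 := by linarith
  have hDlow : ∀ {y w : E}, S.N y ≤ 1 - δ → S.N w = 1 → δ ≤ S.D y w := by
    intro y w hy hw
    have hy' : S.N y < 1 := by linarith
    have hx := X_norm (S := S) hy' hw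
    have h := S.N.add_le y (S.tp y w • w)
    rw [show y + S.tp y w • w = S.X y w from rfl, hx, S.N.smul_nonneg (tp_pos hy' hw).le, hw,
      mul_one] at h
    have := tm_pos (S := S) hy' hw
    simp only [D]
    linarith
  have hD1 := hDlow h1 hw1
  have hD2 := hDlow h2 hw2
  set D1 := S.D y₁ w₁ with hD1'
  set D2 := S.D y₂ w₂ with hD2'
  have hDd : |D1 - D2| ≤ 12 * C * C / δ * s := by
    have e : D1 - D2 = (S.N.exitT y₁ w₁ - S.N.exitT y₂ w₂)
        + (S.N.exitT y₁ (-w₁) - S.N.exitT y₂ (-w₂)) := by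
      simp only [hD1', hD2', D, tp, tm]; ring
    rw [e]
    refine (abs_add_le _ _).trans ?_
    have : 12 * C * C / δ * s = 6 * C * C / δ * s + 6 * C * C / δ * s := by ring
    linarith
  have hFd : ∀ {a b : E}, ‖S.F a - S.F b‖ ≤ C * ‖a - b‖ := by
    intro a b
    have := hF.dist_le_mul a b
    rwa [Real.coe_toNNReal _ hC0.le, dist_eq_norm, dist_eq_norm] at this
  set z1 := S.F (S.X y₁ w₁) - S.F (S.W y₁ w₁)
  set z2 := S.F (S.X y₂ w₂) - S.F (S.W y₂ w₂)
  have hz : ‖z1 - z2‖ ≤ 18 * C ^ 4 / δ * s := by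
    have e : z1 - z2 = (S.F (S.X y₁ w₁) - S.F (S.X y₂ w₂))
        - (S.F (S.W y₁ w₁) - S.F (S.W y₂ w₂)) := by simp only [z1, z2]; abel
    rw [e]
    refine (norm_sub_le _ _).trans ((add_le_add hFd hFd).trans ?_)
    have c1 := mul_le_mul_of_nonneg_left a2 hC0.le
    have c2 := mul_le_mul_of_nonneg_left b2 hC0.le
    have : 18 * C ^ 4 / δ * s = C * (9 * C * C * C / δ * s) + C * (9 * C * C * C / δ * s) := by
      ring
    rw [this]
    exact add_le_add c1 c2
  have e0 : S.eI y₁ w₁ - S.eI y₂ w₂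
      = D2⁻¹ • (z1 - z2) + ((D2 - D1) / D2) • S.eI y₁ w₁ := by
    have hne1 : D1 ≠ 0 := (hδ.trans_le hD1).ne'
    have hne2 : D2 ≠ 0 := (hδ.trans_le hD2).ne'
    simp only [eI, ← hD1', ← hD2']
    change D1⁻¹ • z1 - D2⁻¹ • z2 = _ + _ • (D1⁻¹ • z1)
    match_scalars <;> field_simp <;> ring
  have he : ‖S.eI y₁ w₁‖ ≤ C := by
    have := hloM (S.eI y₁ w₁)
    rwa [M_eI hy1 hw1, mul_one] at this
  rw [e0]
  refine (norm_add_le _ _).trans ?_
  rw [norm_smul, norm_smul, Real.norm_eq_abs, Real.norm_eq_abs, abs_inv, abs_div,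
    abs_of_pos (hδ.trans_le hD2), abs_sub_comm D2]
  have i2 : D2⁻¹ ≤ δ⁻¹ := inv_anti₀ hδ hD2
  have m1 : D2⁻¹ * ‖z1 - z2‖ ≤ δ⁻¹ * (18 * C ^ 4 / δ * s) :=
    mul_le_mul i2 hz (norm_nonneg _) (by positivity)
  have m2 : |D1 - D2| / D2 * ‖S.eI y₁ w₁‖ ≤ 12 * C * C / δ * s * δ⁻¹ * C := by
    rw [div_eq_mul_inv]
    have hi0 : 0 ≤ D2⁻¹ := inv_nonneg.2 (hδ.trans_le hD2).le
    gcongr
  have m3 : 12 * C * C / δ * s * δ⁻¹ * C ≤ 12 * C ^ 4 / δ ^ 2 * s := by
    have : 12 * C * C / δ * s * δ⁻¹ * C = 12 * C ^ 3 / δ ^ 2 * s := by field_simp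
    rw [this]
    gcongr <;> linarith
  have : 30 * C ^ 4 / δ ^ 2 * s = δ⁻¹ * (18 * C ^ 4 / δ * s) + 12 * C ^ 4 / δ ^ 2 * s := by
    field_simp; ring
  rw [this]
  linarith

variable (S)

/-- margin conditions on a compact set of points around a direction -/
structure Margin (C1 : Set E) (v : E) (ρ δ : ℝ) : Prop where
  hv : S.N v = 1
  hρ : 0 < ρ
  hδ : 0 < δ
  hδ1 : δ ≤ 1
  hN : ∀ y ∈ C1, S.N y ≤ 1 - δ
  hM : ∀ y ∈ C1, ∀ w, S.N w = 1 → ‖w - v‖ ≤ ρ → S.M (S.yI y w) ≤ 1 - δ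

variable {S}

theorem continuousOn_yI : ContinuousOn (fun q : E × E => S.yI q.1 q.2) S.N.dom := by
  have hX : ContinuousOn (fun q : E × E => S.X q.1 q.2) S.N.dom := Nrm.continuousOn_exitP
  have hmaps : MapsTo (fun q : E × E => (q.1, -q.2)) S.N.dom S.N.dom :=
    fun q hq => ⟨hq.1, by rw [S.N.neg]; exact hq.2⟩
  have hW : ContinuousOn (fun q : E × E => S.W q.1 q.2) S.N.dom :=
    (Nrm.continuousOn_exitP (N := S.N)).comp (by fun_prop) hmaps
  have htp : ContinuousOn (fun q : E × E => S.tp q.1 q.2) S.N.dom := Nrm.continuousOn_exitT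
  have htm : ContinuousOn (fun q : E × E => S.tm q.1 q.2) S.N.dom :=
    (Nrm.continuousOn_exitT (N := S.N)).comp (by fun_prop) hmaps
  exact (S.continuous_F.comp_continuousOn hW).add (htm.smul (((htp.add htm).inv₀
    (fun q hq => (D_pos hq.1 hq.2).ne')).smul
      ((S.continuous_F.comp_continuousOn hX).sub (S.continuous_F.comp_continuousOn hW))))

theorem isOpen_U {v : E} (hv : S.N v = 1) :
    IsOpen {y | S.N y < 1 ∧ S.M (S.yI y v) < 1} := by
  have h : ContinuousOn (fun y => S.M (S.yI y v)) {y | S.N y < 1} :=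
    S.M.continuous.comp_continuousOn
      (continuousOn_yI.comp (f := fun y => (y, v)) (by fun_prop) fun y hy => ⟨hy, hv⟩)
  exact h.isOpen_inter_preimage (isOpen_lt S.N.continuous continuous_const) isOpen_Iio

theorem exists_margin {v : E} (hv : S.N v = 1) {C : Set E} (hC : IsCompact C)
    (hsub : C ⊆ {y | S.N y < 1 ∧ S.M (S.yI y v) < 1}) :
    ∃ C1 ρ δ, S.Margin C1 v ρ δ ∧ ∀ y ∈ C, ∀ z, ‖z - y‖ ≤ 3 * ρ → z ∈ C1 := by
  obtain ⟨r, hr, hrU⟩ := hC.exists_cthickening_subset_open (isOpen_U hv) hsub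
  set C1 := cthickening r C
  have hC1 : IsCompact C1 := hC.cthickening
  set δ0 : Set ℝ := (fun y => min (1 - S.N y) (1 - S.M (S.yI y v))) '' C1
  obtain ⟨δ, hδ, hδ1, hb⟩ : ∃ δ > 0, δ ≤ 1 ∧ ∀ y ∈ C1, S.N y ≤ 1 - δ ∧ S.M (S.yI y v) ≤ 1 - δ := by
    rcases eq_empty_or_nonempty C1 with h | h
    · exact ⟨1, one_pos, le_rfl, by simp [h]⟩
    · have hc : ContinuousOn (fun y => min (1 - S.N y) (1 - S.M (S.yI y v))) C1 := by
        refine continuous_min.comp_continuousOn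
          ((continuousOn_const.sub S.N.continuous.continuousOn).prodMk (continuousOn_const.sub ?_))
        exact S.M.continuous.comp_continuousOn
          (continuousOn_yI.comp (f := fun y => (y, v)) (by fun_prop) fun y hy => ⟨(hrU hy).1, hv⟩)
      obtain ⟨y0, hy0, hmin⟩ := hC1.exists_isMinOn h hc
      refine ⟨min 1 (min (1 - S.N y0) (1 - S.M (S.yI y0 v))), ?_, min_le_left _ _, fun y hy => ?_⟩
      · exact lt_min one_pos (lt_min (by linarith [(hrU hy0).1]) (by linarith [(hrU hy0).2]))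
      · have h1 : min (1 - S.N y0) (1 - S.M (S.yI y0 v)) ≤ min (1 - S.N y) (1 - S.M (S.yI y v)) :=
          hmin hy
        have h2 := min_le_right (1 : ℝ) (min (1 - S.N y0) (1 - S.M (S.yI y0 v)))
        have h3 := le_min_iff.1 h1
        constructor <;> linarith [h3.1, h3.2]
  obtain ⟨ρ, hρ, hM⟩ : ∃ ρ > 0, ∀ y ∈ C1, ∀ w, S.N w = 1 → ‖w - v‖ ≤ ρ →
      S.M (S.yI y w) ≤ 1 - δ / 2 := by
    have h : ∀ᶠ w in 𝓝 v, ∀ y ∈ C1, S.N w = 1 → S.M (S.yI y w) < 1 - δ / 2 := by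
      refine hC1.eventually_forall_of_forall_eventually fun y hy => ?_
      have hc := (S.M.continuous.comp_continuousOn continuousOn_yI) (y, v) ⟨(hrU hy).1, hv⟩
      have h1 : ∀ᶠ q in 𝓝[S.N.dom] (y, v), S.M (S.yI q.1 q.2) < 1 - δ / 2 :=
        hc.tendsto.eventually (Iio_mem_nhds
          (show S.M (S.yI y v) < 1 - δ / 2 by linarith [(hb y hy).2]))
      have h1' := eventually_nhdsWithin_iff.1 h1
      have h2 : ∀ᶠ q in 𝓝 (y, v), S.N q.1 < 1 :=
        (S.N.continuous.continuousAt.comp continuousAt_fst).eventually_lt continuousAt_const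
          (hrU hy).1
      have hswap : Tendsto (fun p : E × E => (p.2, p.1)) (𝓝 (v, y)) (𝓝 (y, v)) :=
        continuous_swap.tendsto _
      have h3 := hswap.eventually (h1'.and h2)
      filter_upwards [h3] with p hp hN
      exact hp.1 ⟨hp.2, hN⟩
    obtain ⟨ε, hε, hball⟩ := Metric.eventually_nhds_iff.1 h
    refine ⟨ε / 2, half_pos hε, fun y hy w hw hd => (hball ?_ y hy hw).le⟩
    rw [dist_eq_norm]; linarith
  refine ⟨C1, min ρ (r / 3), δ / 2, ⟨hv, lt_min hρ (by positivity), half_pos hδ, by linarith,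
    fun y hy => by linarith [(hb y hy).1],
    fun y hy w hw hd => hM y hy w hw (hd.trans (min_le_left _ _))⟩, fun y hy z hz => ?_⟩
  refine mem_cthickening_of_dist_le z y r C hy ?_
  rw [dist_eq_norm]
  linarith [min_le_right ρ (r / 3)]

/-- Lipschitz dependence on the direction of an averaged transported vector. -/
theorem integral_fX_lipschitz {ζ : E → ℝ} (hζ : ContDiff ℝ ∞ ζ) (hζc : HasCompactSupport ζ)
    {v : E} {C1 : Set E} {ρ δ : ℝ} (hm : S.Margin C1 v ρ δ)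
    (hsupp : ∀ y ∈ tsupport ζ, ∀ z, ‖z - y‖ ≤ 3 * ρ → z ∈ C1) (χ : E) :
    ∃ K : ℝ, ∀ w, S.N w = 1 → ‖w - v‖ ≤ ρ →
      Integrable (fun y => ζ y • S.fX χ (y, w)) ∧
      ‖(∫ y, ζ y • S.fX χ (y, w)) - ∫ y, ζ y • S.fX χ (y, v)‖ ≤ K * ‖w - v‖ := by
  obtain ⟨C, hC, hA, hA', hψ, hψ', hup, hlo, hloM, hF⟩ := S.exists_bounds
  have hC0 : 0 < C := one_pos.trans_le hC
  obtain ⟨Bζ, hBζ⟩ := hζc.exists_bound_of_continuous hζ.continuous
  have hBζ0 : 0 ≤ Bζ := (norm_nonneg _).trans (hBζ 0)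
  obtain ⟨Lζ, hLζ⟩ := (hζ.of_le (by norm_cast)).lipschitzWith_of_hasCompactSupport hζc one_ne_zero
  -- bound for the transported vector on the margin
  set Bf := C * ‖χ‖ + (δ / 2)⁻¹ * ((C + C * C) * ‖χ‖) * C with hBf
  have hBf0 : 0 ≤ Bf := by have := hm.hδ; positivity
  have fbound : ∀ y ∈ C1, ∀ w, S.N w = 1 → ‖w - v‖ ≤ ρ → S.GoodS (S.X y w) →
      ‖S.fX χ (y, w)‖ ≤ Bf := by
    intro y hy w hw hd hX
    have hy' : S.N y < 1 := by linarith [hm.hN y hy, hm.hδ]
    have hlow := psi_e_lower hy' hw hX hm.hδ (hm.hM y hy w hw hd)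
    have he : ‖S.eI y w‖ ≤ C := by
      have := hloM (S.eI y w)
      rwa [M_eI hy' hw, mul_one] at this
    have hwn : ‖w‖ ≤ C := by have := hlo w; rwa [hw, mul_one] at this
    rw [fX_formula]
    refine (norm_add_le _ _).trans (add_le_add ?_ ?_)
    · refine (ContinuousLinearMap.le_opNorm _ _).trans ?_
      rw [LinearIsometryEquiv.norm_map]
      exact mul_le_mul_of_nonneg_right (hA' _) (norm_nonneg _)
    · rw [norm_smul, Real.norm_eq_abs, abs_mul, abs_inv]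
      have h1 : (|⟪S.symm.psi (S.F (S.X y w)), S.eI y w⟫|)⁻¹ ≤ (δ / 2)⁻¹ :=
        inv_anti₀ (half_pos hm.hδ) (hlow.trans (le_abs_self _))
      have h2 : |⟪w - S.symm.A (S.F (S.X y w)) (S.eI y w), χ⟫| ≤ (C + C * C) * ‖χ‖ := by
        refine (abs_real_inner_le_norm _ _).trans (mul_le_mul_of_nonneg_right ?_ (norm_nonneg _))
        refine (norm_sub_le _ _).trans (add_le_add hwn ?_)
        exact (ContinuousLinearMap.le_opNorm _ _).trans
          (mul_le_mul (hA' _) he (norm_nonneg _) hC0.le)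
      have := hm.hδ
      exact mul_le_mul (mul_le_mul h1 h2 (abs_nonneg _) (by positivity)) (hψ' _) (norm_nonneg _)
        (by positivity)
  -- integrability
  have hint : ∀ w, S.N w = 1 → ‖w - v‖ ≤ ρ → Integrable (fun y => ζ y • S.fX χ (y, w)) := by
    intro w hw hd
    have hmeas : AEStronglyMeasurable (fun y => ζ y • S.fX χ (y, w)) volume :=
      (hζ.continuous.measurable.smul ((S.measurable_fX χ).comp
        (measurable_id.prodMk measurable_const))).aestronglyMeasurable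
    have hζint : Integrable (fun y => ‖ζ y‖ * Bf) :=
      (hζ.continuous.integrable_of_hasCompactSupport hζc).norm.mul_const Bf
    refine hζint.mono' hmeas ?_
    have hnull := null_not_goodS_X (S := S) hw
    rw [← compl_mem_ae_iff] at hnull
    filter_upwards [hnull] with y hy
    rw [norm_smul]
    rcases eq_or_ne (ζ y) 0 with h | h
    · simp [h]
    · have hy1 : y ∈ C1 := hsupp y (subset_tsupport ζ h) y (by simp [hm.hρ.le])
      have hy' : S.N y < 1 := by linarith [hm.hN y hy1, hm.hδ]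
      exact mul_le_mul_of_nonneg_left
        (fbound y hy1 w hw hd (not_not.1 fun hg => hy ⟨hy', hg⟩)) (norm_nonneg _)
  -- change of variables
  set Φ : E → E → E := fun a w => {a | S.GoodS a ∧ S.N a < 1}.indicator
    (fun a => (S.cw a * ⟪S.psi a, w⟫) • (ζ (S.theta a w) • S.fX χ (S.theta a w, w))) a with hΦ
  have hchange : ∀ w, S.N w = 1 → ‖w - v‖ ≤ ρ →
      Integrable (fun a => Φ a w) ∧ ∫ y, ζ y • S.fX χ (y, w) = ∫ a, Φ a w := by
    intro w hw hd
    set g : E → E := fun y => ζ y • S.fX χ (y, w)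
    have hΦeq : ∀ a, Φ a w = (S.dom w).indicator
        (fun a => |(((S.N a)⁻¹ • (1 + (innerSL ℝ (S.psi a)).smulRight
          (-((S.N a)⁻¹ • a + (3 * S.N a) • w)))) : E →L[ℝ] E).det| • g (S.theta a w)) a := by
      intro a
      by_cases hda : a ∈ S.dom w
      · rw [indicator_of_mem hda, hΦ]
        dsimp only
        rw [indicator_of_mem (show a ∈ {a | S.GoodS a ∧ S.N a < 1} from ⟨hda.1, hda.2.2.1⟩),
          det_theta hda.1, abs_neg, abs_of_nonneg (mul_nonneg (S.cw_nonneg a) hda.2.1.le)]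
      · rw [indicator_of_notMem hda, hΦ]
        dsimp only
        by_cases hga : a ∈ {a | S.GoodS a ∧ S.N a < 1}
        · rw [indicator_of_mem hga]
          rcases eq_or_ne (ζ (S.theta a w)) 0 with h | h
          · simp [h]
          · exfalso
            have hy1 : S.theta a w ∈ C1 :=
              hsupp _ (subset_tsupport ζ h) _ (by simp [hm.hρ.le])
            have hy' : S.N (S.theta a w) < 1 := by linarith [hm.hN _ hy1, hm.hδ]
            have h3 : 0 ≤ 3 * S.N a := mul_nonneg (by norm_num) (S.N.nonneg a)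
            have e : S.theta a w + (3 * S.N a) • w = (S.N a)⁻¹ • a := by rw [theta, sub_add_cancel]
            have hXe : S.X (S.theta a w) w = (S.N a)⁻¹ • a := by
              rw [X, Nrm.exitP_unique hy' hw h3 (by rw [e]; exact S.N.norm_unit hga.1.1), e]
            have hpos := psi_v_pos (S := S) hy' hw (by rw [hXe]; exact (unit_of_goodS hga.1).1)
            rw [hXe, (unit_of_goodS hga.1).2.2.1] at hpos
            exact hda ⟨hga.1, hpos, hga.2, hy'⟩
        · rw [indicator_of_notMem hga]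
    have hsuppg : ∀ᵐ y, y ∉ {y | S.N y < 1 ∧ S.GoodS (S.X y w)} → g y = 0 := by
      have hnull := null_not_goodS_X (S := S) hw
      rw [← compl_mem_ae_iff] at hnull
      filter_upwards [hnull] with y hy hy2
      rcases eq_or_ne (ζ y) 0 with h | h
      · simp [g, h]
      · have hy1 : y ∈ C1 := hsupp y (subset_tsupport ζ h) y (by simp [hm.hρ.le])
        have hy' : S.N y < 1 := by linarith [hm.hN y hy1, hm.hδ]
        exact absurd ⟨hy', not_not.1 fun hg => hy ⟨hy', hg⟩⟩ hy2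
    have hd' := fun a (ha : a ∈ S.dom w) => (hasFDerivAt_theta ha.1 w).hasFDerivWithinAt (s := S.dom w)
    constructor
    · rw [show (fun a => Φ a w) = _ from funext hΦeq, integrable_indicator_iff (S.measurableSet_dom w),
        ← integrableOn_image_iff_integrableOn_abs_det_fderiv_smul volume (S.measurableSet_dom w) hd'
          injOn_theta g]
      exact (hint w hw hd).integrableOn
    · rw [show (fun a => Φ a w) = _ from funext hΦeq, integral_indicator (S.measurableSet_dom w),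
        ← integral_image_eq_integral_abs_det_fderiv_smul volume (S.measurableSet_dom w) hd'
          injOn_theta g, image_theta hw]
      exact (setIntegral_eq_integral_of_ae_compl_eq_zero hsuppg).symm
  -- pointwise Lipschitz bound
  set Bc := 3 * (3 / δ) ^ finrank ℝ E with hBc
  set Le := 30 * C ^ 4 / δ ^ 2 * 4 with hLe
  set Lf := ((δ / 2)⁻¹ * (δ / 2)⁻¹ * (C * Le) * ((C + C * C) * ‖χ‖)
    + (δ / 2)⁻¹ * ((1 + C * Le) * ‖χ‖)) * C with hLf
  set K0 := Bc * (C * C) * (Bζ * Lf) + Bc * (C * C) * ((Lζ : ℝ) * 3 * Bf) + Bc * C * (Bζ * Bf)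
    with hK0
  have hδ := hm.hδ
  have hpt : ∀ w, S.N w = 1 → ‖w - v‖ ≤ ρ → ∀ a,
      ‖Φ a w - Φ a v‖ ≤ {a : E | S.N a ≤ 1}.indicator (fun _ => K0 * ‖w - v‖) a := by
    intro w hw hd a
    have hd0 : ‖v - v‖ ≤ ρ := by simp [hm.hρ.le]
    have hnn : 0 ≤ {a : E | S.N a ≤ 1}.indicator (fun _ => K0 * ‖w - v‖) a :=
      indicator_nonneg (fun _ _ => by positivity) a
    by_cases hga : a ∈ {a | S.GoodS a ∧ S.N a < 1}
    swap
    · simp only [hΦ, indicator_of_notMem hga, sub_self, norm_zero]; exact hnn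
    simp only [hΦ, indicator_of_mem hga]
    rw [indicator_of_mem (show a ∈ {a : E | S.N a ≤ 1} from hga.2.le)]
    set d := ‖w - v‖ with hd'
    have hd0' : 0 ≤ d := norm_nonneg _
    have hθ : ‖S.theta a w - S.theta a v‖ ≤ 3 * d := by
      have e : S.theta a w - S.theta a v = (-(3 * S.N a)) • (w - v) := by simp only [theta]; module
      rw [e, norm_smul, Real.norm_eq_abs, abs_neg, abs_of_nonneg (by linarith [S.N.nonneg a])]
      exact mul_le_mul_of_nonneg_right (by linarith [hga.2]) (norm_nonneg _)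
    by_cases hz : ζ (S.theta a w) = 0 ∧ ζ (S.theta a v) = 0
    · simp only [hz.1, hz.2, zero_smul, smul_zero, sub_self, norm_zero]
      have : 0 ≤ K0 * d := by positivity
      exact this
    have hboth : S.theta a w ∈ C1 ∧ S.theta a v ∈ C1 := by
      have h3 : 3 * d ≤ 3 * ρ := by linarith
      rcases not_and_or.1 hz with h | h
      · exact ⟨hsupp _ (subset_tsupport ζ h) _ (by simp [hm.hρ.le]),
          hsupp _ (subset_tsupport ζ h) _ (by rw [norm_sub_rev]; exact hθ.trans h3)⟩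
      · exact ⟨hsupp _ (subset_tsupport ζ h) _ (hθ.trans h3),
          hsupp _ (subset_tsupport ζ h) _ (by simp [hm.hρ.le])⟩
    obtain ⟨hcw, hcv⟩ := hboth
    have hra : 0 < S.N a := S.N.pos hga.1.1
    have hX : ∀ u, S.N u = 1 → S.theta a u ∈ C1 →
        S.X (S.theta a u) u = (S.N a)⁻¹ • a ∧ δ ≤ 3 * S.N a := by
      intro u hu hmem
      have hy' : S.N (S.theta a u) < 1 := by linarith [hm.hN _ hmem]
      have e : S.theta a u + (3 * S.N a) • u = (S.N a)⁻¹ • a := by rw [theta, sub_add_cancel]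
      refine ⟨by rw [X, Nrm.exitP_unique (s := 3 * S.N a) hy' hu (by linarith) (by rw [e]; exact S.N.norm_unit hga.1.1), e],
        ?_⟩
      have := S.N.add_le (S.theta a u) ((3 * S.N a) • u)
      rw [e, S.N.norm_unit hga.1.1, S.N.smul_nonneg (by linarith), hu, mul_one] at this
      linarith [hm.hN _ hmem]
    obtain ⟨hXw, hlowa⟩ := hX w hw hcw
    obtain ⟨hXv, -⟩ := hX v hm.hv hcv
    obtain ⟨hgx, -, -, -⟩ := unit_of_goodS hga.1
    set x := (S.N a)⁻¹ • a
    have hcwb : |S.cw a| ≤ Bc := by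
      rw [abs_of_nonneg (S.cw_nonneg a), cw, hBc]
      have h1 : (S.N a)⁻¹ ≤ 3 / δ := by
        rw [inv_le_comm₀ hra (by positivity), inv_div]
        linarith
      calc 3 * (S.N a)⁻¹ ^ finrank ℝ E * S.N a
          ≤ 3 * (3 / δ) ^ finrank ℝ E * 1 := by gcongr; exact hga.2.le
        _ = _ := mul_one _
    have hwn : ‖w‖ ≤ C := by have := hlo w; rwa [hw, mul_one] at this
    have hvn : ‖v‖ ≤ C := by have := hlo v; rwa [hm.hv, mul_one] at this
    have hψw : |⟪S.psi a, w⟫| ≤ C * C :=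
      (abs_real_inner_le_norm _ _).trans (mul_le_mul (hψ a) hwn (norm_nonneg _) hC0.le)
    have hψv : |⟪S.psi a, v⟫| ≤ C * C :=
      (abs_real_inner_le_norm _ _).trans (mul_le_mul (hψ a) hvn (norm_nonneg _) hC0.le)
    have hψd : |⟪S.psi a, w⟫ - ⟪S.psi a, v⟫| ≤ C * d := by
      rw [← inner_sub_right]
      exact (abs_real_inner_le_norm _ _).trans (mul_le_mul_of_nonneg_right (hψ a) (norm_nonneg _))
    have hfw := fbound _ hcw w hw hd (by rw [hXw]; exact hgx)
    have hfv := fbound _ hcv v hm.hv hd0 (by rw [hXv]; exact hgx)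
    have hfd : ‖S.fX χ (S.theta a w, w) - S.fX χ (S.theta a v, v)‖ ≤ Lf * d := by
      have hed : ‖S.eI (S.theta a w) w - S.eI (S.theta a v) v‖ ≤ Le * d := by
        refine (eI_lip hC hup hlo hloM hF hδ hm.hδ1 (hm.hN _ hcw) (hm.hN _ hcv) hw hm.hv).trans ?_
        calc _ ≤ 30 * C ^ 4 / δ ^ 2 * (3 * d + d) := by gcongr
          _ = _ := by rw [hLe]; ring
      have l1 := psi_e_lower (by linarith [hm.hN _ hcw]) hw (by rw [hXw]; exact hgx) hδ
        (hm.hM _ hcw w hw hd)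
      have l2 := psi_e_lower (by linarith [hm.hN _ hcv]) hm.hv (by rw [hXv]; exact hgx) hδ
        (hm.hM _ hcv v hm.hv hd0)
      rw [hXw] at l1
      rw [hXv] at l2
      rw [fX_formula, fX_formula]
      simp only [hXw, hXv]
      set g' := S.symm.psi (S.F x)
      set Ai := S.symm.A (S.F x)
      set e1 := S.eI (S.theta a w) w
      set e2 := S.eI (S.theta a v) v
      rw [add_sub_add_left_eq_sub, ← sub_smul, norm_smul, Real.norm_eq_abs]
      refine mul_le_mul_of_nonneg_right ?_ (norm_nonneg _) |>.trans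
        ((mul_le_mul_of_nonneg_left (hψ' _) ?_).trans (le_of_eq ?_))
        (b := ((δ / 2)⁻¹ * (δ / 2)⁻¹ * (C * Le) * ((C + C * C) * ‖χ‖)
          + (δ / 2)⁻¹ * ((1 + C * Le) * ‖χ‖)) * d * ‖g'‖)
      rotate_left
      · positivity
      · rw [hLf]; ring
      have p1 : 0 < ⟪g', e1⟫ := (half_pos hδ).trans_le l1
      have p2 : 0 < ⟪g', e2⟫ := (half_pos hδ).trans_le l2
      have e : (⟪g', e1⟫)⁻¹ * ⟪w - Ai e1, χ⟫ - (⟪g', e2⟫)⁻¹ * ⟪v - Ai e2, χ⟫
          = (⟪g', e1⟫)⁻¹ * (⟪g', e2⟫)⁻¹ * ⟪g', e2 - e1⟫ * ⟪v - Ai e2, χ⟫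
            + (⟪g', e1⟫)⁻¹ * ⟪(w - v) - Ai (e1 - e2), χ⟫ := by
        simp only [inner_sub_right, inner_sub_left, map_sub]
        field_simp
        ring
      rw [e]
      refine (abs_add_le _ _).trans ?_
      rw [abs_mul, abs_mul, abs_mul, abs_mul, abs_inv, abs_inv, abs_of_pos p1, abs_of_pos p2]
      have i1 : (⟪g', e1⟫)⁻¹ ≤ (δ / 2)⁻¹ := inv_anti₀ (half_pos hδ) l1
      have i2 : (⟪g', e2⟫)⁻¹ ≤ (δ / 2)⁻¹ := inv_anti₀ (half_pos hδ) l2
      have q1 : |⟪g', e2 - e1⟫| ≤ C * (Le * d) :=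
        (abs_real_inner_le_norm _ _).trans (mul_le_mul (hψ' _) (by rw [norm_sub_rev]; exact hed)
          (norm_nonneg _) hC0.le)
      have q2 : |⟪v - Ai e2, χ⟫| ≤ (C + C * C) * ‖χ‖ := by
        refine (abs_real_inner_le_norm _ _).trans (mul_le_mul_of_nonneg_right ?_ (norm_nonneg _))
        have he2 : ‖e2‖ ≤ C := by
          have := hloM e2
          rwa [M_eI (by linarith [hm.hN _ hcv]) hm.hv, mul_one] at this
        exact (norm_sub_le _ _).trans (add_le_add hvn ((ContinuousLinearMap.le_opNorm _ _).trans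
          (mul_le_mul (hA' _) he2 (norm_nonneg _) hC0.le)))
      have q3 : |⟪(w - v) - Ai (e1 - e2), χ⟫| ≤ (d + C * (Le * d)) * ‖χ‖ := by
        refine (abs_real_inner_le_norm _ _).trans (mul_le_mul_of_nonneg_right ?_ (norm_nonneg _))
        exact (norm_sub_le _ _).trans (add_le_add le_rfl ((ContinuousLinearMap.le_opNorm _ _).trans
          (mul_le_mul (hA' _) hed (norm_nonneg _) hC0.le)))
      calc (⟪g', e1⟫)⁻¹ * (⟪g', e2⟫)⁻¹ * |⟪g', e2 - e1⟫| * |⟪v - Ai e2, χ⟫|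
            + (⟪g', e1⟫)⁻¹ * |⟪(w - v) - Ai (e1 - e2), χ⟫|
          ≤ (δ / 2)⁻¹ * (δ / 2)⁻¹ * (C * (Le * d)) * ((C + C * C) * ‖χ‖)
            + (δ / 2)⁻¹ * ((d + C * (Le * d)) * ‖χ‖) := by gcongr
        _ = _ := by ring
    have hζd : ‖ζ (S.theta a w) - ζ (S.theta a v)‖ ≤ (Lζ : ℝ) * (3 * d) := by
      refine le_trans ?_ (mul_le_mul_of_nonneg_left hθ Lζ.coe_nonneg)
      simpa only [dist_eq_norm] using hLζ.dist_le_mul (S.theta a w) (S.theta a v)
    set fw := S.fX χ (S.theta a w, w)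
    set fv := S.fX χ (S.theta a v, v)
    set zw := ζ (S.theta a w)
    set zv := ζ (S.theta a v)
    have e : (S.cw a * ⟪S.psi a, w⟫) • (zw • fw) - (S.cw a * ⟪S.psi a, v⟫) • (zv • fv)
        = (S.cw a * ⟪S.psi a, w⟫) • (zw • (fw - fv)) + (S.cw a * ⟪S.psi a, w⟫) • ((zw - zv) • fv)
          + (S.cw a * (⟪S.psi a, w⟫ - ⟪S.psi a, v⟫)) • (zv • fv) := by module
    rw [e]
    refine (norm_add₃_le).trans ?_
    simp only [norm_smul, Real.norm_eq_abs, abs_mul]
    rw [← Real.norm_eq_abs zw, ← Real.norm_eq_abs zv, ← Real.norm_eq_abs (zw - zv)]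
    have hBc0 : 0 ≤ Bc := (abs_nonneg _).trans hcwb
    have b1 : ‖zw‖ ≤ Bζ := hBζ _
    have b2 : ‖zv‖ ≤ Bζ := hBζ _
    calc |S.cw a| * |⟪S.psi a, w⟫| * (‖zw‖ * ‖fw - fv‖)
          + |S.cw a| * |⟪S.psi a, w⟫| * (‖zw - zv‖ * ‖fv‖)
          + |S.cw a| * |⟪S.psi a, w⟫ - ⟪S.psi a, v⟫| * (‖zv‖ * ‖fv‖)
        ≤ Bc * (C * C) * (Bζ * (Lf * d)) + Bc * (C * C) * ((Lζ : ℝ) * (3 * d) * Bf)
          + Bc * (C * d) * (Bζ * Bf) := by gcongr
      _ = K0 * d := by rw [hK0]; ring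
  have hIv := hchange v hm.hv (by simp [hm.hρ.le])
  refine ⟨K0 * volume.real {a : E | S.N a ≤ 1}, fun w hw hd => ⟨hint w hw hd, ?_⟩⟩
  obtain ⟨hiw, hew⟩ := hchange w hw hd
  rw [hew, hIv.2, ← integral_sub hiw hIv.1]
  have hball : MeasurableSet {a : E | S.N a ≤ 1} := (S.N.isCompact_le 1).measurableSet
  have hK : Integrable ({a : E | S.N a ≤ 1}.indicator (fun _ => K0 * ‖w - v‖)) :=
    (integrable_indicator_iff hball).2
      (integrableOn_const (hs := (S.N.isCompact_le 1).measure_ne_top))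
  refine (norm_integral_le_of_norm_le hK (Eventually.of_forall (hpt w hw hd))).trans (le_of_eq ?_)
  rw [integral_indicator hball, setIntegral_const, smul_eq_mul]
  ring

/-- The transported vectors from the two ends agree on the flat directions. -/
theorem adjoint_Pi_eq {φ : E} (hφ : φ ∈ S.N.alexSet) {T0 : E →L[ℝ] E}
    (hT0 : S.N.IsAlex φ T0) {η : E} (hη : T0 η = 0) :
    ∀ᵐ y : E, (y, φ) ∈ S.Pre →
      adjoint (S.Pi (S.X y (S.N.vv φ)) (S.N.vv φ) (S.eI y (S.N.vv φ))) η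
        = adjoint (S.Pi (S.W y (S.N.vv φ)) (S.N.vv φ) (S.eI y (S.N.vv φ))) η := by
  set v := S.N.vv φ with hvdef
  have hd := S.N.diff_of_mem hφ
  have hφ0 := S.N.ne_zero_of_mem hφ
  have hv : S.N v = 1 := S.N.vv_unit φ
  set g : E → E := fun y => S.fX η (y, v) - S.fX η (y, -v) with hg
  suffices h : ∀ᵐ y, y ∈ {y | S.N y < 1 ∧ S.M (S.yI y v) < 1} → g y = 0 by
    filter_upwards [h] with y hy hpre
    have h1 := hy ⟨hpre.1, (Pre.facts hpre).yI_lt⟩
    rw [hg, sub_eq_zero] at h1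
    simp only [fX] at h1
    rwa [eI_neg, X_neg, Pi_neg] at h1
  have hnv : S.N (-v) = 1 := by rwa [S.N.neg]
  obtain ⟨C, hC, hA, hA', hψ, hψ', hup, hlo, hloM, hF⟩ := S.exists_bounds
  -- local integrability
  have hloc : LocallyIntegrableOn g {y | S.N y < 1 ∧ S.M (S.yI y v) < 1} := by
    rw [locallyIntegrableOn_iff (isOpen_U hv).isLocallyClosed]
    intro k hk hkc
    obtain ⟨C1, ρ, δ, hm, hsup⟩ := exists_margin hv hkc hk
    have hbound : ∀ w, S.N w = 1 → (w = v ∨ w = -v) → IntegrableOn (fun y => S.fX η (y, w)) k := by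
      intro w hw hw2
      have hC0 : 0 < C := one_pos.trans_le hC
      refine IntegrableOn.of_bound hkc.measure_lt_top
        ((S.measurable_fX η).comp (measurable_id.prodMk measurable_const)).aestronglyMeasurable
        (C * ‖η‖ + (δ / 2)⁻¹ * ((C + C * C) * ‖η‖) * C) ?_
      have hnull := null_not_goodS_X (S := S) hw
      rw [← compl_mem_ae_iff] at hnull
      filter_upwards [ae_restrict_mem hkc.measurableSet, ae_restrict_of_ae hnull] with y hy hy2
      have hy1 : y ∈ C1 := hsup y hy y (by simp [hm.hρ.le])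
      have hy' : S.N y < 1 := by linarith [hm.hN y hy1, hm.hδ]
      have hXg : S.GoodS (S.X y w) := not_not.1 fun hg => hy2 ⟨hy', hg⟩
      have hyI : S.M (S.yI y w) ≤ 1 - δ := by
        have := hm.hM y hy1 v hv (by simp [hm.hρ.le])
        rcases hw2 with rfl | rfl
        · exact this
        · rwa [yI_neg hy' hv]
      have hlow := psi_e_lower hy' hw hXg hm.hδ hyI
      have he : ‖S.eI y w‖ ≤ C := by
        have := hloM (S.eI y w)
        rwa [M_eI hy' hw, mul_one] at this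
      have hwn : ‖w‖ ≤ C := by have := hlo w; rwa [hw, mul_one] at this
      rw [fX_formula]
      refine (norm_add_le _ _).trans (add_le_add ?_ ?_)
      · refine (ContinuousLinearMap.le_opNorm _ _).trans ?_
        rw [LinearIsometryEquiv.norm_map]
        exact mul_le_mul_of_nonneg_right (hA' _) (norm_nonneg _)
      · rw [norm_smul, Real.norm_eq_abs, abs_mul, abs_inv]
        have h1 := inv_anti₀ (half_pos hm.hδ) (hlow.trans (le_abs_self _))
        have h2 : |⟪w - S.symm.A (S.F (S.X y w)) (S.eI y w), η⟫| ≤ (C + C * C) * ‖η‖ := by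
          refine (abs_real_inner_le_norm _ _).trans (mul_le_mul_of_nonneg_right ?_ (norm_nonneg _))
          exact (norm_sub_le _ _).trans (add_le_add hwn ((ContinuousLinearMap.le_opNorm _ _).trans
            (mul_le_mul (hA' _) he (norm_nonneg _) hC0.le)))
        have := hm.hδ
        exact mul_le_mul (mul_le_mul h1 h2 (abs_nonneg _) (by positivity)) (hψ' _) (norm_nonneg _)
          (by positivity)
    exact (hbound v hv (Or.inl rfl)).sub (hbound (-v) hnv (Or.inr rfl))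
  refine (isOpen_U hv).ae_eq_zero_of_integral_contDiff_smul_eq_zero hloc ?_
  intro ζ hζ hζc hζU
  obtain ⟨C1, ρ, δ, hm, hsup⟩ := exists_margin hv hζc.isCompact hζU
  have hm' : S.Margin C1 (-v) ρ δ := ⟨hnv, hm.hρ, hm.hδ, hm.hδ1, hm.hN, fun y hy w hw hd => by
    have h1 := hm.hM y hy (-w) (by rwa [S.N.neg]) (by rwa [← neg_add', norm_neg, ← sub_neg_eq_add])
    rwa [yI_neg (by linarith [hm.hN y hy, hm.hδ]) hw] at h1⟩
  -- the selection along the line
  obtain ⟨vf, dv, hvf0, dvf, hvmax, hT0eq⟩ := exists_selection hφ0 hd hT0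
  have hdaη : fderiv ℝ (fun ψ => S.N.dual ψ) φ η = 0 := by
    have hw0 : T0 φ = S.N.dual φ • v := by
      have hs : HasDerivAt (fun t : ℝ => (1 + t) • φ) φ 0 := by
        simpa using ((hasDerivAt_id (0 : ℝ)).const_add (1 : ℝ)).smul_const φ
      choose ws hws using S.N.exists_sg
      have hws0 : ws φ = S.N.dual φ • v := S.N.sg_unique hd hφ0 (hws φ)
      have dws : HasFDerivAt ws T0 φ := by
        rw [hasFDerivAt_iff_isLittleO, Asymptotics.isLittleO_iff]
        intro ε hε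
        filter_upwards [hT0 ε hε] with ψ hψ
        rw [hws0]
        exact hψ _ (hws ψ)
      have h1 := (show HasFDerivAt ws T0 ((1 + (0 : ℝ)) • φ) by simpa using dws).comp_hasDerivAt 0 hs
      have h2 : HasDerivAt (fun t : ℝ => (1 + t) • (S.N.dual φ • v)) (S.N.dual φ • v) 0 := by
        simpa using ((hasDerivAt_id (0 : ℝ)).const_add (1 : ℝ)).smul_const (S.N.dual φ • v)
      refine h1.unique (h2.congr_of_eventuallyEq ?_)
      filter_upwards [Ioo_mem_nhds (show (-1 : ℝ) < 0 by norm_num) one_pos] with t ht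
      change ws ((1 + t) • φ) = _
      have hpos : (0 : ℝ) < 1 + t := by linarith [ht.1]
      have hh := S.N.sg_smul (hws ((1 + t) • φ)) (inv_nonneg.2 hpos.le)
      rw [smul_smul, inv_mul_cancel₀ hpos.ne', one_smul] at hh
      rw [← S.N.sg_unique hd hφ0 hh, smul_smul, mul_inv_cancel₀ hpos.ne', one_smul]
    obtain ⟨-, -, T, hT, -, -⟩ := S.N.alex_of_mem hφ
    have h0 : ⟪η, S.N.dual φ • v⟫ = 0 := by
      rw [← hw0, ← S.N.isAlex_symm hT0, hη, inner_zero_left]
    rw [real_inner_smul_right] at h0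
    have h1 : ⟪η, v⟫ = 0 := (mul_eq_zero.1 h0).resolve_left (S.N.dual.pos hφ0).ne'
    have hgr : v = gradient (fun ψ => S.N.dual ψ) φ := S.N.isMax_eq_gradient hd (S.N.vv_isMax hd)
    rw [hgr, real_inner_comm, gradient, InnerProductSpace.toDual_symm_apply] at h1
    exact h1
  have hdvη : dv η = 0 := by
    have := congrArg (fun L : E →L[ℝ] E => L η) hT0eq
    simp only [add_apply, smulRight_apply, coe_smul', Pi.smul_apply, hdaη, zero_smul, add_zero, hη]
      at this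
    exact (smul_eq_zero.1 this).resolve_left (S.N.dual.pos hφ0).ne'
  have hline : HasDerivAt (fun s : ℝ => φ + s • η) η 0 := by
    simpa using ((hasDerivAt_id (0 : ℝ)).smul_const η).const_add φ
  have hus : HasDerivAt (fun s : ℝ => vf (φ + s • η)) 0 0 := by
    have h := (show HasFDerivAt vf dv (φ + (0 : ℝ) • η) by simpa using dvf).comp_hasDerivAt 0 hline
    rwa [hdvη] at h
  set J : E → E → E := fun χ w => ∫ y, ζ y • S.fX χ (y, w) with hJ
  obtain ⟨K1, hK1⟩ := integral_fX_lipschitz hζ hζc hm hsup φ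
  obtain ⟨K2, hK2⟩ := integral_fX_lipschitz hζ hζc hm hsup η
  obtain ⟨K3, hK3⟩ := integral_fX_lipschitz hζ hζc hm' hsup φ
  obtain ⟨K4, hK4⟩ := integral_fX_lipschitz hζ hζc hm' hsup η
  have hv0 : ‖v - v‖ ≤ ρ := by simp [hm.hρ.le]
  have hnv0 : ‖-v - -v‖ ≤ ρ := by simp [hm.hρ.le]
  -- the identity for nearby maximisers
  have hId : ∀ ψ u, S.N.IsMax ψ u → ‖u - v‖ ≤ ρ → ∀ᵐ y, ζ y • S.fX ψ (y, u) = ζ y • S.fX ψ (y, -u) := by
    intro ψ u hu hd'
    have hu2 : S.N (-u) = 1 := by rw [S.N.neg]; exact hu.1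
    have e1 := null_not_goodS_X (S := S) hu.1
    have e2 := null_not_goodS_X (S := S) hu2
    rw [← compl_mem_ae_iff] at e1 e2
    filter_upwards [e1, e2] with y h1 h2
    rcases eq_or_ne (ζ y) 0 with h | h
    · simp [h]
    · have hy1 : y ∈ C1 := hsup y (subset_tsupport ζ h) y (by simp [hm.hρ.le])
      have hy' : S.N y < 1 := by linarith [hm.hN y hy1, hm.hδ]
      have hXg : S.GoodS (S.X y u) := not_not.1 fun hg => h1 ⟨hy', hg⟩
      have hWg : S.GoodS (S.W y u) := not_not.1 fun hg => h2 ⟨hy', hg⟩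
      have hyI := hm.hM y hy1 u hu.1 hd'
      have l1 := psi_e_lower hy' hu.1 hXg hm.hδ hyI
      have l2 := psi_e_lower (w := -u) hy' hu2 hWg hm.hδ (by rwa [yI_neg hy' hu.1])
      rw [X_neg, eI_neg, inner_neg_right] at l2
      have hp := pOf_eq hu (D_pos hy' hu.1) X_sub_W hXg hWg (X_norm hy' hu.1) (W_norm hy' hu.1)
        (psi_v_pos hy' hu.1 hXg).ne' (lt_of_lt_of_le (half_pos hm.hδ) l1).ne' (psi_w_neg hy' hu.1 hWg).ne
        (by have := hm.hδ; exact (show ⟪S.symm.psi (S.F (S.W y u)), S.eI y u⟫ < 0 by linarith).ne)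
      simp only [fX]
      rw [eI_neg, X_neg, Pi_neg]
      exact congrArg _ hp
  have hlin : ∀ w, S.N w = 1 → ∀ s : ℝ, ∀ y, ζ y • S.fX (φ + s • η) (y, w)
      = ζ y • S.fX φ (y, w) + s • (ζ y • S.fX η (y, w)) := by
    intro w _ s y
    simp only [fX, map_add, map_smul, smul_add, smul_comm (ζ y) s]
  have hzero : J φ v - J φ (-v) = 0 := by
    rw [sub_eq_zero]
    exact integral_congr_ae (hId φ v (S.N.vv_isMax hd) hv0)
  -- derivative of the identity
  have hev : ∀ᶠ s in 𝓝 (0 : ℝ), S.N.IsMax (φ + s • η) (vf (φ + s • η)) ∧ ‖vf (φ + s • η) - v‖ ≤ ρ := by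
    have ht : Tendsto (fun s : ℝ => φ + s • η) (𝓝 0) (𝓝 φ) :=
      Continuous.tendsto' (by fun_prop) _ _ (by simp)
    have hc : ∀ᶠ ψ in 𝓝 φ, ‖vf ψ - v‖ ≤ ρ := by
      filter_upwards [dvf.continuousAt (Metric.ball_mem_nhds _ hm.hρ)] with ψ hψ
      have : vf ψ ∈ Metric.ball (vf φ) ρ := hψ
      rw [Metric.mem_ball, dist_eq_norm, hvf0] at this
      exact this.le
    exact (ht.eventually hvmax).and (ht.eventually hc)
  have hle : ∀ᶠ s in 𝓝 (0 : ℝ), ‖s • (J η v - J η (-v))‖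
      ≤ (|K1| + |K3| + |s| * (|K2| + |K4|)) * ‖vf (φ + s • η) - v‖ := by
    filter_upwards [hev] with s ⟨hs, hsd⟩
    set u := vf (φ + s • η)
    have hu2 : S.N (-u) = 1 := by rw [S.N.neg]; exact hs.1
    have hd2 : ‖-u - -v‖ = ‖u - v‖ := by rw [neg_sub_neg, norm_sub_rev]
    obtain ⟨i1, b1⟩ := hK1 u hs.1 hsd
    obtain ⟨i2, b2⟩ := hK2 u hs.1 hsd
    obtain ⟨i3, b3⟩ := hK3 (-u) hu2 (hd2.le.trans hsd)
    obtain ⟨i4, b4⟩ := hK4 (-u) hu2 (hd2.le.trans hsd)
    rw [hd2] at b3 b4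
    have h := integral_congr_ae (hId _ u hs hsd)
    simp only [hlin u hs.1 s, hlin (-u) hu2 s] at h
    rw [integral_add (f := fun y => ζ y • S.fX φ (y, u)) i1
        (g := fun y => s • (ζ y • S.fX η (y, u))) (i2.smul s), integral_smul,
      integral_add (f := fun y => ζ y • S.fX φ (y, -u)) i3
        (g := fun y => s • (ζ y • S.fX η (y, -u))) (i4.smul s), integral_smul] at h
    change J φ u + s • J η u = J φ (-u) + s • J η (-u) at h
    change ‖J φ u - J φ v‖ ≤ _ at b1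
    change ‖J η u - J η v‖ ≤ _ at b2
    change ‖J φ (-u) - J φ (-v)‖ ≤ _ at b3
    change ‖J η (-u) - J η (-v)‖ ≤ _ at b4
    have e : s • (J η v - J η (-v)) = -(J φ u - J φ v) + (J φ (-u) - J φ (-v))
        + (-(s • (J η u - J η v)) + s • (J η (-u) - J η (-v))) := by
      have h' := sub_eq_zero.2 h
      have expand : -(J φ u - J φ v) + (J φ (-u) - J φ (-v))
          + (-(s • (J η u - J η v)) + s • (J η (-u) - J η (-v)))
          = s • (J η v - J η (-v)) + (J φ v - J φ (-v))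
            - ((J φ u + s • J η u) - (J φ (-u) + s • J η (-u))) := by module
      rw [expand, hzero, h', sub_zero, add_zero]
    rw [e]
    refine (norm_add_le _ _).trans ((add_le_add (norm_add_le _ _) (norm_add_le _ _)).trans ?_)
    rw [norm_neg, norm_neg, norm_smul, norm_smul, Real.norm_eq_abs]
    have hd0 := norm_nonneg (u - v)
    have hs0 := abs_nonneg s
    calc _ ≤ (|K1| * ‖u - v‖ + |K3| * ‖u - v‖) + (|s| * (|K2| * ‖u - v‖) + |s| * (|K4| * ‖u - v‖)) := by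
          gcongr
          · exact b1.trans (by gcongr; exact le_abs_self _)
          · exact b3.trans (by gcongr; exact le_abs_self _)
          · exact b2.trans (by gcongr; exact le_abs_self _)
          · exact b4.trans (by gcongr; exact le_abs_self _)
      _ = _ := by ring
  have hfin : J η v - J η (-v) = 0 := by
    rw [← norm_eq_zero]
    refine le_antisymm (le_of_forall_pos_le_add fun ε hε => ?_) (norm_nonneg _)
    rw [zero_add]
    set K := |K1| + |K3| + (|K2| + |K4|) with hK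
    have hK0 : 0 ≤ K := by positivity
    have hus' := hasDerivAt_iff_isLittleO.1 hus
    simp only [smul_zero, sub_zero, zero_smul, add_zero, hvf0] at hus'
    have hb := hus'.def (show 0 < ε / (K + 1) by positivity)
    have hev' : ∀ᶠ s in 𝓝[>] (0 : ℝ), (‖s • (J η v - J η (-v))‖
        ≤ (|K1| + |K3| + |s| * (|K2| + |K4|)) * ‖vf (φ + s • η) - v‖) ∧
        ‖vf (φ + s • η) - v‖ ≤ ε / (K + 1) * ‖s‖ := (hle.and hb).filter_mono nhdsWithin_le_nhds
    obtain ⟨s, ⟨h1, h2⟩, hs0, hs1⟩ := (hev'.and (Ioo_mem_nhdsGT one_pos)).exists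
    rw [norm_smul] at h1
    rw [Real.norm_eq_abs, abs_of_pos hs0] at h1 h2
    have h3 : |K1| + |K3| + s * (|K2| + |K4|) ≤ K := by
      have : 0 ≤ |K2| + |K4| := by positivity
      nlinarith
    have h4 := h1.trans (mul_le_mul h3 h2 (norm_nonneg _) hK0)
    have h5 : K * (ε / (K + 1) * s) ≤ s * ε := by
      have : K / (K + 1) ≤ 1 := (div_le_one (by positivity)).2 (by linarith)
      calc K * (ε / (K + 1) * s) = K / (K + 1) * (s * ε) := by ring
        _ ≤ 1 * (s * ε) := by gcongr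
        _ = _ := one_mul _
    exact le_of_mul_le_mul_left (h4.trans h5) hs0
  have i1 := (hK2 v hv hv0).1
  have i2 := (hK4 (-v) hnv hnv0).1
  simp only [hg, smul_sub]
  rw [integral_sub i1 i2]
  exact hfin

end Setup

end Vale.Agent.P084
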