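import Vale.Agent.P084.Good
import Vale.Agent.P084.Null

/-!
Polar type coordinates adapted to a direction: points of the ball through boundary points.
-/

open scoped RealInnerProductSpace NNReal ENNReal
open Set Filter Topology MeasureTheory ContinuousLinearMap Module

set_option linter.unusedSectionVars false

namespace Vale.Agent.P084

variable {E : Type*} [NormedAddCommGroup E] [InnerProductSpace ℝ E] [FiniteDimensional ℝ E]
  [Nontrivial E] [MeasurableSpace E] [BorelSpace E]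

theorem det_adjoint (A : E →L[ℝ] E) : (adjoint A).det = A.det := by
  set b := stdOrthonormalBasis ℝ E
  rw [ContinuousLinearMap.det, ← LinearMap.det_toMatrix b.toBasis,
    ContinuousLinearMap.det, ← LinearMap.det_toMatrix b.toBasis (A : E →ₗ[ℝ] E)]
  have : ((adjoint A : E →L[ℝ] E) : E →ₗ[ℝ] E) = LinearMap.adjoint (A : E →ₗ[ℝ] E) :=
    LinearMap.adjoint_toContinuousLinearMap (A : E →ₗ[ℝ] E) ▸ rfl
  rw [this, LinearMap.toMatrix_adjoint b b, Matrix.det_conjTranspose, star_trivial]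

namespace Setup

variable (S : Setup E)

/-- boundary point pushed inside along `v` -/
noncomputable def theta (a v : E) : E := (S.N a)⁻¹ • a - (3 * S.N a) • v

/-- domain of the change of variables -/
def dom (v : E) : Set E :=
  {a | S.GoodS a ∧ 0 < ⟪S.psi a, v⟫ ∧ S.N a < 1 ∧ S.N (S.theta a v) < 1}

/-- radial weight -/
noncomputable def cw (a : E) : ℝ := 3 * (S.N a)⁻¹ ^ finrank ℝ E * S.N a

theorem cw_nonneg (a : E) : 0 ≤ S.cw a := by
  have := S.N.nonneg a
  unfold cw
  positivity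

theorem cw_F (a : E) : S.symm.cw (S.F a) = S.cw a := by
  simp only [cw]
  rw [show S.symm.N (S.F a) = S.N a from S.hMF a]

theorem measurable_theta : Measurable (fun q : E × E => S.theta q.1 q.2) := by
  have := S.N.continuous.measurable
  unfold theta
  fun_prop

theorem measurable_cw : Measurable S.cw := by
  have := S.N.continuous.measurable
  unfold cw
  fun_prop

theorem measurableSet_dom' : MeasurableSet {q : E × E | q.1 ∈ S.dom q.2} :=
  (measurable_fst S.measurableSet_goodS).inter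
    ((measurableSet_lt measurable_const
        (measurable_inner' (S.measurable_psi.comp measurable_fst) measurable_snd)).inter
      ((measurableSet_lt (S.N.continuous.measurable.comp measurable_fst) measurable_const).inter
        (measurableSet_lt (S.N.continuous.measurable.comp S.measurable_theta) measurable_const)))

theorem measurableSet_dom (v : E) : MeasurableSet (S.dom v) :=
  (measurable_id.prodMk measurable_const) S.measurableSet_dom'

variable {S}

theorem unit_of_goodS {a : E} (ha : S.GoodS a) :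
    S.GoodS ((S.N a)⁻¹ • a) ∧ S.A ((S.N a)⁻¹ • a) = S.A a ∧
      S.psi ((S.N a)⁻¹ • a) = S.psi a ∧ S.N ((S.N a)⁻¹ • a) = 1 := by
  obtain ⟨h1, h2, h3⟩ := ha.smul (inv_pos.2 (S.N.pos ha.1))
  exact ⟨h1, h2, h3, S.N.norm_unit ha.1⟩

theorem theta_chord {a v : E} (ha : a ∈ S.dom v) (hv : S.N v = 1) :
    S.X (S.theta a v) v = (S.N a)⁻¹ • a ∧ S.tp (S.theta a v) v = 3 * S.N a := by
  have h3 : 0 ≤ 3 * S.N a := mul_nonneg (by norm_num) (S.N.nonneg a)
  have e : S.theta a v + (3 * S.N a) • v = (S.N a)⁻¹ • a := by rw [theta, sub_add_cancel]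
  have hs : S.N (S.theta a v + (3 * S.N a) • v) = 1 := by rw [e]; exact S.N.norm_unit ha.1.1
  refine ⟨?_, Nrm.exitT_unique ha.2.2.2 hv h3 hs⟩
  rw [X, Nrm.exitP_unique ha.2.2.2 hv h3 hs, e]

theorem hasFDerivAt_theta {a : E} (ha : S.GoodS a) (v : E) :
    HasFDerivAt (fun z => S.theta z v)
      ((S.N a)⁻¹ • (1 + (innerSL ℝ (S.psi a)).smulRight
        (-((S.N a)⁻¹ • a + (3 * S.N a) • v)))) a := by
  have hr : S.N a ≠ 0 := (S.N.pos ha.1).ne'
  have hN := ha.hasFDerivAt_N
  have h := (((hasDerivAt_inv hr).comp_hasFDerivAt a hN).smul (hasFDerivAt_id a)).sub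
    ((hN.const_mul (3 : ℝ)).smul_const v)
  refine h.congr_fderiv ?_
  ext k
  simp
  match_scalars <;> field_simp

theorem det_theta {a : E} (ha : S.GoodS a) (v : E) :
    ((S.N a)⁻¹ • (1 + (innerSL ℝ (S.psi a)).smulRight
        (-((S.N a)⁻¹ • a + (3 * S.N a) • v))) : E →L[ℝ] E).det
      = -(S.cw a * ⟪S.psi a, v⟫) := by
  have hr : S.N a ≠ 0 := (S.N.pos ha.1).ne'
  have h1 : ∀ (c : ℝ) (T : E →L[ℝ] E), (c • T).det = c ^ finrank ℝ E * T.det :=
    fun c T => LinearMap.det_smul c (T : E →ₗ[ℝ] E)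
  rw [h1, det_one_add_smulRight, inner_neg_right, inner_add_right, real_inner_smul_right,
    real_inner_smul_right, ha.psi_self, inv_mul_cancel₀ hr, cw]
  ring

theorem injOn_theta {v : E} : InjOn (fun z => S.theta z v) (S.dom v) := by
  intro a ha b hb h
  have hra : 0 < S.N a := S.N.pos ha.1.1
  have hrb : 0 < S.N b := S.N.pos hb.1.1
  have e : (S.N b)⁻¹ • b = (S.N a)⁻¹ • a + (3 * (S.N b - S.N a)) • v := by
    simp only [theta] at h
    rw [sub_eq_sub_iff_add_eq_add] at h
    rw [← sub_eq_zero] at h ⊢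
    rw [← neg_eq_zero, ← h]
    module
  obtain ⟨ga, -, pa, na⟩ := unit_of_goodS ha.1
  obtain ⟨gb, -, pb, nb⟩ := unit_of_goodS hb.1
  have k1 := ga.psi_le ((S.N b)⁻¹ • b)
  rw [nb, e, inner_add_right, ga.psi_self, na, pa, real_inner_smul_right] at k1
  have k2 := gb.psi_le ((S.N a)⁻¹ • a)
  rw [na, show (S.N a)⁻¹ • a = (S.N b)⁻¹ • b - (3 * (S.N b - S.N a)) • v by rw [e]; abel,
    inner_sub_right, gb.psi_self, nb, pb, real_inner_smul_right] at k2
  have hr : S.N b = S.N a := by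
    have := ha.2.1; have := hb.2.1
    rcases lt_trichotomy (S.N b) (S.N a) with hlt | heq | hgt
    · nlinarith
    · exact heq
    · nlinarith
  rw [hr, sub_self, mul_zero, zero_smul, add_zero] at e
  exact (smul_right_injective E (inv_ne_zero hra.ne') e).symm

theorem image_theta {v : E} (hv : S.N v = 1) :
    (fun z => S.theta z v) '' S.dom v = {y | S.N y < 1 ∧ S.GoodS (S.X y v)} := by
  ext y
  constructor
  · rintro ⟨a, ha, rfl⟩
    refine ⟨ha.2.2.2, ?_⟩
    rw [(theta_chord ha hv).1]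
    exact (unit_of_goodS ha.1).1
  · rintro ⟨hy, hX⟩
    have ht := tp_pos (S := S) hy hv
    have h1 := psi_v_pos hy hv hX
    have hc : 0 < S.tp y v / 3 := by positivity
    obtain ⟨g, -, p⟩ := hX.smul hc
    have hN : S.N ((S.tp y v / 3) • S.X y v) = S.tp y v / 3 := by
      rw [S.N.smul_nonneg hc.le, X_norm hy hv, mul_one]
    have hth : S.theta ((S.tp y v / 3) • S.X y v) v = y := by
      rw [theta, hN, smul_smul, inv_mul_cancel₀ hc.ne', one_smul,
        show 3 * (S.tp y v / 3) = S.tp y v by ring]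
      simp only [X, Nrm.exitP, tp, add_sub_cancel_right]
    refine ⟨_, ⟨g, by rw [p]; exact h1, ?_, by rw [hth]; exact hy⟩, hth⟩
    rw [hN]
    have := Nrm.exitT_le_two (N := S.N) hy hv
    simp only [tp]
    linarith

theorem lintegral_theta {v : E} (hv : S.N v = 1) (h : E → ℝ≥0∞) :
    ∫⁻ y in {y | S.N y < 1 ∧ S.GoodS (S.X y v)}, h y
      = ∫⁻ a in S.dom v, ENNReal.ofReal (S.cw a * ⟪S.psi a, v⟫) * h (S.theta a v) := by
  rw [← image_theta hv, lintegral_image_eq_lintegral_abs_det_fderiv_mul volume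
    (S.measurableSet_dom v) (fun a ha => (hasFDerivAt_theta ha.1 v).hasFDerivWithinAt) injOn_theta]
  refine setLIntegral_congr_fun (S.measurableSet_dom v) fun a ha => ?_
  simp only [det_theta ha.1, abs_neg]
  rw [abs_of_nonneg (mul_nonneg (S.cw_nonneg a) ha.2.1.le)]

theorem null_not_goodS_X {v : E} (hv : S.N v = 1) :
    volume {y | S.N y < 1 ∧ ¬ S.GoodS (S.X y v)} = 0 := by
  obtain ⟨C, hC, hup⟩ := S.N.exists_upper
  obtain ⟨c, hc, hlo⟩ := S.N.exists_lower
  set s : ℕ → Set E := fun k => {a | ¬ S.GoodS a ∧ ((k : ℝ) + 1)⁻¹ ≤ S.N a}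
  have hsub : {y | S.N y < 1 ∧ ¬ S.GoodS (S.X y v)} ⊆ ⋃ k, (fun z => S.theta z v) '' s k := by
    rintro y ⟨hy, hX⟩
    have ht := tp_pos (S := S) hy hv
    have hc : 0 < S.tp y v / 3 := by positivity
    have hN : S.N ((S.tp y v / 3) • S.X y v) = S.tp y v / 3 := by
      rw [S.N.smul_nonneg hc.le, X_norm hy hv, mul_one]
    obtain ⟨k, hk⟩ := exists_nat_one_div_lt hc
    refine mem_iUnion.2 ⟨k, (S.tp y v / 3) • S.X y v, ⟨fun (hg : S.GoodS ((S.tp y v / 3) • S.X y v)) => hX ?_, ?_⟩, ?_⟩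
    · have := (hg.smul (inv_pos.2 hc)).1
      rwa [smul_smul, inv_mul_cancel₀ hc.ne', one_smul] at this
    · rw [hN, inv_eq_one_div]; exact hk.le
    · dsimp only
      rw [theta, hN, smul_smul, inv_mul_cancel₀ hc.ne', one_smul,
        show 3 * (S.tp y v / 3) = S.tp y v by ring]
      simp only [X, Nrm.exitP, tp, add_sub_cancel_right]
  refine measure_mono_null hsub (measure_iUnion_null fun k => ?_)
  have hLip : LipschitzOnWith (2 * ((k : ℝ) + 1) * C / c + 3 * C * ‖v‖).toNNReal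
      (fun z => S.theta z v) (s k) := by
    refine LipschitzOnWith.of_dist_le_mul ?_
    rintro a ⟨-, ha⟩ b ⟨-, hb⟩
    rw [Real.coe_toNNReal _ (by positivity), dist_eq_norm, dist_eq_norm]
    have hk : (0 : ℝ) < ((k : ℝ) + 1)⁻¹ := by positivity
    have hra : 0 < S.N a := hk.trans_le ha
    have hrb : 0 < S.N b := hk.trans_le hb
    have hd : |S.N a - S.N b| ≤ C * ‖a - b‖ := (S.N.abs_sub_le a b).trans (hup _)
    have e : S.theta a v - S.theta b v
        = (S.N a)⁻¹ • (a - b) + (((S.N b - S.N a) / S.N a) • ((S.N b)⁻¹ • b)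
          + (-(3 * (S.N a - S.N b))) • v) := by
      simp only [theta]
      match_scalars <;> field_simp <;> ring
    rw [e]
    refine (norm_add_le _ _).trans ((add_le_add le_rfl (norm_add_le _ _)).trans ?_)
    have hb' : ‖(S.N b)⁻¹ • b‖ ≤ 1 / c := by
      rw [le_div_iff₀ hc, mul_comm]
      refine (hlo _).trans (le_of_eq ?_)
      exact S.N.norm_unit (S.N.ne_zero_of_pos hrb)
    have ia : (S.N a)⁻¹ ≤ (k : ℝ) + 1 := by
      rw [inv_le_comm₀ hra (by positivity)]; exact ha
    have hC1 : 1 ≤ C / c := by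
      rw [le_div_iff₀ hc, one_mul]
      have hv0 : 0 < ‖v‖ := norm_pos_iff.2 (S.N.ne_zero_of_pos (by rw [hv]; exact one_pos))
      exact le_of_mul_le_mul_right ((hlo v).trans (hup v)) hv0
    rw [norm_smul (S.N a)⁻¹ (a - b), norm_smul ((S.N b - S.N a) / S.N a),
      norm_smul (-(3 * (S.N a - S.N b))), Real.norm_eq_abs, Real.norm_eq_abs, Real.norm_eq_abs,
      abs_div, abs_neg, abs_mul, abs_of_pos (inv_pos.2 hra), abs_of_pos hra,
      abs_of_pos (by norm_num : (0 : ℝ) < 3), abs_sub_comm (S.N b)]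
    have t1 : (S.N a)⁻¹ * ‖a - b‖ ≤ ((k : ℝ) + 1) * (C / c) * ‖a - b‖ :=
      mul_le_mul_of_nonneg_right (ia.trans (le_mul_of_one_le_right (by positivity) hC1))
        (norm_nonneg _)
    have t2 : |S.N a - S.N b| / S.N a * ‖(S.N b)⁻¹ • b‖
        ≤ ((k : ℝ) + 1) * (C / c) * ‖a - b‖ := by
      rw [div_eq_mul_inv]
      calc |S.N a - S.N b| * (S.N a)⁻¹ * ‖(S.N b)⁻¹ • b‖
          ≤ C * ‖a - b‖ * ((k : ℝ) + 1) * (1 / c) := by
            gcongr
        _ = _ := by ring
    have t3 : 3 * |S.N a - S.N b| * ‖v‖ ≤ 3 * C * ‖v‖ * ‖a - b‖ := by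
      calc 3 * |S.N a - S.N b| * ‖v‖ ≤ 3 * (C * ‖a - b‖) * ‖v‖ := by gcongr
        _ = _ := by ring
    calc _ ≤ ((k : ℝ) + 1) * (C / c) * ‖a - b‖ + (((k : ℝ) + 1) * (C / c) * ‖a - b‖
          + 3 * C * ‖v‖ * ‖a - b‖) := add_le_add t1 (add_le_add t2 t3)
      _ = _ := by ring
  exact volume_lipschitzOn_image_zero hLip
    (measure_mono_null (fun a ha => ha.1) (ae_iff.1 S.ae_goodS))

end Setup

end Vale.Agent.P084
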